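import Mathlib

/-!
# Convergent power series in several variables define analytic functions
-/

noncomputable section

namespace Vale.Agent.P218G.Cv

open MvPowerSeries Filter Topology Asymptotics

variable {𝕜 σ : Type*} [RCLike 𝕜] [Fintype σ]

/-- the value of a series at a point -/
def evs (g : MvPowerSeries σ 𝕜) (x : σ → 𝕜) : 𝕜 := ∑' d, coeff d g * ∏ i, x i ^ d i

/-- convergent series -/
def Conv (g : MvPowerSeries σ 𝕜) : Prop :=
  ∃ C R : ℝ, 0 < R ∧ ∀ d, ‖coeff d g‖ ≤ C * R ^ d.degree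

/-- `g` is the Taylor series of `φ` at `0` -/
def Tay (φ : (σ → 𝕜) → 𝕜) (g : MvPowerSeries σ 𝕜) : Prop :=
  ∀ K : ℕ, (fun x => φ x - MvPolynomial.eval x (truncTotal K g)) =O[𝓝 0] fun x => ‖x‖ ^ K

theorem summable_deg {r : ℝ} (h0 : 0 ≤ r) (h1 : r < 1) :
    Summable fun d : σ →₀ ℕ => r ^ d.degree := by
  classical
  refine summable_of_sum_le (c := ∏ _i : σ, (1 - r)⁻¹) (fun _ => pow_nonneg h0 _) fun s => ?_
  obtain ⟨N, hN⟩ := (s.image Finsupp.degree).bddAbove
  calc _ = ∑ d ∈ s.map Finsupp.equivFunOnFinite.toEmbedding, ∏ i, r ^ d i := by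
        simp [Finsupp.degree_eq_sum, Finset.prod_pow_eq_pow_sum]
    _ ≤ ∑ d ∈ Fintype.piFinset fun _ => Finset.range (N + 1), ∏ i, r ^ d i := by
        refine Finset.sum_le_sum_of_subset_of_nonneg (fun d hd => ?_) fun _ _ _ => by positivity
        obtain ⟨e, he, rfl⟩ := Finset.mem_map.1 hd
        exact Fintype.mem_piFinset.2 fun i => Finset.mem_range.2 (Nat.lt_succ_of_le
          ((Finsupp.le_degree i e).trans (hN (Finset.mem_coe.2 (Finset.mem_image_of_mem _ he)))))
    _ = ∏ _i : σ, ∑ k ∈ Finset.range (N + 1), r ^ k := (Finset.prod_univ_sum _ _).symm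
    _ ≤ _ := Finset.prod_le_prod (fun _ _ => by positivity) fun _ _ =>
        tsum_geometric_of_lt_one h0 h1 ▸ (summable_geometric_of_lt_one h0 h1).sum_le_tsum _
          fun _ _ => by positivity

theorem norm_mon_le {x : σ → 𝕜} {r : ℝ} (h : ‖x‖ ≤ r) (d : σ →₀ ℕ) :
    ‖∏ i, x i ^ d i‖ ≤ r ^ d.degree := by
  rw [norm_prod, Finsupp.degree_eq_sum, ← Finset.prod_pow_eq_pow_sum]
  exact Finset.prod_le_prod (fun _ _ => norm_nonneg _) fun i _ =>
    (norm_pow _ _).trans_le (pow_le_pow_left₀ (norm_nonneg _) ((norm_le_pi_norm x i).trans h) _)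

theorem summable_ev {g : MvPowerSeries σ 𝕜} {C R : ℝ} (hR : 0 < R)
    (h : ∀ d, ‖coeff d g‖ ≤ C * R ^ d.degree) {x : σ → 𝕜} (hx : R * ‖x‖ < 1) :
    Summable fun d => coeff d g * ∏ i, x i ^ d i :=
  .of_norm_bounded ((summable_deg (by positivity) hx).mul_left C) fun d => by
    rw [norm_mul, mul_pow, ← mul_assoc]
    exact mul_le_mul (h d) (norm_mon_le le_rfl d) (norm_nonneg _) ((norm_nonneg _).trans (h d))

theorem exists_word (n : ℕ) : ∀ d : σ →₀ ℕ, d.degree = n →
    ∃ w : Fin n → σ, ∀ x : σ → 𝕜, ∏ k, x (w k) = ∏ i, x i ^ d i := by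
  classical
  induction n with
  | zero => exact fun d h => ⟨Fin.elim0, by simp [(Finsupp.degree_eq_zero_iff d).1 h]⟩
  | succ n ih =>
    intro d h
    obtain ⟨i, hi⟩ : ∃ i, d i ≠ 0 := not_forall.1 fun e => by simp [Finsupp.ext (g := 0) e] at h
    obtain ⟨e, rfl⟩ := exists_add_of_le (Finsupp.single_le_iff.2 (Nat.one_le_iff_ne_zero.2 hi))
    obtain ⟨w, hw⟩ := ih e (by rw [map_add, Finsupp.degree_single] at h; omega)
    exact ⟨Fin.cons i w, fun x => by
      simp only [Finsupp.add_apply, pow_add, Finset.prod_mul_distrib]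
      simp [Fin.prod_univ_succ, hw, Finsupp.single_apply]⟩

theorem Conv.exists_series {g : MvPowerSeries σ 𝕜} (h : Conv g) :
    ∃ p : FormalMultilinearSeries 𝕜 (σ → 𝕜) 𝕜, HasFPowerSeriesAt (evs g) p 0 ∧ ∀ n x,
      p n (fun _ => x) = ∑ d ∈ (Finsupp.finite_of_degree_eq n).toFinset,
        coeff d g * ∏ i, x i ^ d i := by
  obtain ⟨C, R, hR, h⟩ := h
  have hC : 0 ≤ C := by simpa using (norm_nonneg _).trans (h 0)
  have key : ∀ (n : ℕ) (d : σ →₀ ℕ), ∃ m : (σ → 𝕜) [×n]→L[𝕜] 𝕜, ‖m‖ ≤ 1 ∧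
      (d.degree = n → ∀ x, m (fun _ => x) = ∏ i, x i ^ d i) := fun n d => by
    by_cases e : d.degree = n
    · obtain ⟨w, hw⟩ := exists_word (𝕜 := 𝕜) n d e
      refine ⟨(ContinuousMultilinearMap.mkPiAlgebra 𝕜 _ 𝕜).compContinuousLinearMap
        fun k => .proj (w k), ContinuousMultilinearMap.opNorm_le_bound zero_le_one fun v => ?_,
        fun _ x => hw x⟩
      simpa [norm_prod] using Finset.prod_le_prod (fun _ _ => norm_nonneg _)
        fun k _ => norm_le_pi_norm (v k) (w k)
    · exact ⟨0, by simp, fun a => (e a).elim⟩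
  choose m h1 h2 using key
  obtain ⟨r, r0, r1⟩ : ∃ r : NNReal, 0 < r ∧ R * r < 1 :=
    ⟨⟨(2 * R)⁻¹, by positivity⟩, by change (0 : ℝ) < (2 * R)⁻¹; positivity, by
      change R * (2 * R)⁻¹ < 1; field_simp; norm_num⟩
  have h3 : ∀ n x, (∑ d ∈ (Finsupp.finite_of_degree_eq n).toFinset, coeff d g • m n d)
      (fun _ => x) = ∑ d ∈ (Finsupp.finite_of_degree_eq n).toFinset,
        coeff d g * ∏ i, x i ^ d i := fun n x => by
    rw [sum_apply]
    exact Finset.sum_congr rfl fun d hd => congrArg _ (h2 n d (by simpa using hd) x)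
  have h4 := summable_deg (σ := σ) (r := R * r) (by positivity) r1
  refine ⟨fun n => ∑ d ∈ (Finsupp.finite_of_degree_eq n).toFinset, coeff d g • m n d,
    ⟨r, FormalMultilinearSeries.le_radius_of_bound _ (C * ∑' d : σ →₀ ℕ, (R * r) ^ d.degree)
      fun n => ?_, by simpa using r0, fun {x} hx => ?_⟩, h3⟩
  · refine le_trans ?_ (mul_le_mul_of_nonneg_left (h4.sum_le_tsum
      (Finsupp.finite_of_degree_eq n).toFinset fun _ _ => by positivity) hC)
    refine (mul_le_mul_of_nonneg_right (norm_sum_le _ _) (by positivity)).trans ?_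
    rw [Finset.sum_mul, Finset.mul_sum]
    refine Finset.sum_le_sum fun d hd => ?_
    obtain rfl : d.degree = n := by simpa using hd
    rw [mul_pow, ← mul_assoc, norm_smul]
    exact mul_le_mul_of_nonneg_right ((mul_le_of_le_one_right (norm_nonneg _) (h1 _ _)).trans
      (h d)) (by positivity)
  · rw [mem_eball_zero_iff, enorm_lt_coe] at hx
    have := (summable_ev hR h ((mul_le_mul_of_nonneg_left (NNReal.coe_lt_coe.2 hx).le hR.le).trans_lt
      r1)).hasSum.tsum_fiberwise Finsupp.degree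
    rw [zero_add]
    convert this using 2 with n
    · rw [h3, ← Finset.tsum_subtype', Set.Finite.coe_toFinset]; rfl
    · rfl

theorem Conv.analyticAt {g : MvPowerSeries σ 𝕜} (h : Conv g) : AnalyticAt 𝕜 (evs g) 0 :=
  h.exists_series.elim fun p hp => ⟨p, hp.1⟩

theorem eval_trunc (g : MvPowerSeries σ 𝕜) (K : ℕ) (x : σ → 𝕜) :
    MvPolynomial.eval x (truncTotal K g) =
      ∑ d ∈ (Finsupp.finite_of_degree_lt K).toFinset, coeff d g * ∏ i, x i ^ d i := by
  simp [truncTotal, truncFinset_apply, MvPolynomial.eval_monomial, Finsupp.prod_fintype]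

theorem Conv.tay {g : MvPowerSeries σ 𝕜} (h : Conv g) : Tay (evs g) g := fun K => by
  obtain ⟨p, h1, h2⟩ := h.exists_series
  refine (h1.isBigO_sub_partialSum_pow K).congr_left fun x => ?_
  rw [zero_add, eval_trunc, FormalMultilinearSeries.partialSum, ← Finset.sum_fiberwise_of_maps_to
    (t := Finset.range K) (g := Finsupp.degree) (by simp)]
  refine congrArg _ (Finset.sum_congr rfl fun n hn => (h2 n x).trans (Finset.sum_congr ?_ ?_))
  · ext d
    have := Finset.mem_range.1 hn
    simp only [Set.Finite.mem_toFinset, Set.mem_ofPred_eq, Finset.mem_filter]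
    omega
  · exact fun _ _ => rfl

omit [Fintype σ] in
theorem le_two_pow (d : σ →₀ ℕ) (i : σ) : (d i + 1 : ℝ) ≤ 2 ^ d.degree := by
  exact_mod_cast Nat.lt_two_pow_self.trans_le (Nat.pow_le_pow_right two_pos (d.le_degree i))

omit [Fintype σ] in
theorem Conv.pderiv {g : MvPowerSeries σ 𝕜} (h : Conv g) (i : σ) : Conv (pderiv 𝕜 i g) := by
  obtain ⟨C, R, hR, h⟩ := h
  refine ⟨C * R, R * 2, by positivity, fun d => ?_⟩
  have := mul_le_mul (h (d + .single i 1)) (le_two_pow d i) (by positivity)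
    ((norm_nonneg _).trans (h _))
  rw [map_add, Finsupp.degree_single, pow_succ] at this
  rw [coeff_pderiv, norm_mul, ← Nat.cast_succ, RCLike.norm_natCast, Nat.cast_succ, mul_pow]
  linarith

/-- term by term differentiation -/
theorem Conv.fderiv_eq [DecidableEq σ] {g : MvPowerSeries σ 𝕜} (h : Conv g) (i : σ) :
    ∀ᶠ x in 𝓝 0, fderiv 𝕜 (evs g) x (Pi.single i 1) = evs (MvPowerSeries.pderiv 𝕜 i g) x := by
  have h0 := h.analyticAt.eventually_analyticAt
  obtain ⟨C, R, hR, h⟩ := h
  have hC : 0 ≤ C := by simpa using (norm_nonneg _).trans (h 0)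
  obtain ⟨r, r0, r1⟩ : ∃ r : ℝ, 0 < r ∧ R * 2 * r < 1 :=
    ⟨(4 * R)⁻¹, by positivity, by field_simp; norm_num⟩
  filter_upwards [h0, Metric.ball_mem_nhds 0 r0] with x a b
  rw [mem_ball_zero_iff] at b
  have e : ∀ (d : σ →₀ ℕ) t, ∏ j, Function.update x i t j ^ d j =
      t ^ d i * ∏ j ∈ Finset.univ.erase i, x j ^ d j := fun d t => by
    rw [← Finset.mul_prod_erase _ _ (Finset.mem_univ i), Function.update_self]
    exact congrArg _ (Finset.prod_congr rfl fun j hj => by
      rw [Function.update_of_ne (Finset.ne_of_mem_erase hj)])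
  have n1 : ∀ t : 𝕜, ‖t‖ < r → ‖Function.update x i t‖ ≤ r := fun t ht =>
    (pi_norm_le_iff_of_nonneg r0.le).2 fun j => by
      rcases eq_or_ne j i with rfl | c
      · rw [Function.update_self]; exact ht.le
      · rw [Function.update_of_ne c]; exact (norm_le_pi_norm x j).trans b.le
  have e2 : ∀ (d : σ →₀ ℕ) t, ((d + Finsupp.single i 1 :) i : 𝕜) * t ^ ((d + .single i 1 :) i - 1) *
      ∏ j ∈ Finset.univ.erase i, x j ^ (d + Finsupp.single i 1 :) j =
        (d i + 1) * ∏ j, Function.update x i t j ^ d j := fun d t => by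
    rw [e, mul_assoc]
    congr 2
    · simp
    · simp
    · exact Finset.prod_congr rfl fun j hj => by simp [Finset.ne_of_mem_erase hj]
  have h1 := hasDerivAt_tsum_of_isPreconnected (t := Metric.ball (0 : 𝕜) r)
    (g := fun (d : σ →₀ ℕ) t => coeff d g * ∏ j, Function.update x i t j ^ d j)
    (g' := fun d t => coeff d g * (d i * t ^ (d i - 1) * ∏ j ∈ Finset.univ.erase i, x j ^ d j))
    ((summable_deg (r := R * 2 * r) (by positivity) r1).mul_left (C / r)) Metric.isOpen_ball
    (convex_ball _ _).isPreconnected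
    (fun d t _ => by simpa only [e] using ((hasDerivAt_pow (d i) t).mul_const _).const_mul _)
    (fun d t ht => ?_) (y₀ := x i) (y := x i)
    (mem_ball_zero_iff.2 ((norm_le_pi_norm x i).trans_lt b))
    (by simpa using summable_ev hR h (x := x) (by nlinarith [norm_nonneg x]))
    (mem_ball_zero_iff.2 ((norm_le_pi_norm x i).trans_lt b))
  · have h2 := (((Function.update_eq_self i x).symm ▸ a.differentiableAt :
      DifferentiableAt 𝕜 (evs g) (Function.update x i (x i))).hasFDerivAt.comp_hasDerivAt (x i)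
        (hasDerivAt_update x i (x i))).unique h1
    rw [Function.update_eq_self] at h2
    rw [h2, ← (add_left_injective (Finsupp.single i 1)).tsum_eq]
    · simp only [e2, evs, coeff_pderiv, Function.update_eq_self, mul_assoc]
    · intro d hd
      have : Finsupp.single i 1 ≤ d := Finsupp.single_le_iff.2 (Nat.one_le_iff_ne_zero.2
        fun c => hd (by simp [c]))
      exact ⟨_, tsub_add_cancel_of_le this⟩
  · rcases eq_or_ne (d i) 0 with c | c
    · simp only [c, Nat.cast_zero, zero_mul, mul_zero, norm_zero]; positivity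
    obtain ⟨d, rfl⟩ : ∃ e, e + Finsupp.single i 1 = d :=
      ⟨_, tsub_add_cancel_of_le (Finsupp.single_le_iff.2 (Nat.one_le_iff_ne_zero.2 c))⟩
    rw [e2, norm_mul, norm_mul, ← Nat.cast_succ, RCLike.norm_natCast, Nat.cast_succ]
    refine (mul_le_mul (h _) (mul_le_mul (le_two_pow d i) (norm_mon_le (n1 t (by simpa using ht)) d)
      (norm_nonneg _) (by positivity)) (by positivity) (by positivity)).trans ?_
    simp only [map_add, Finsupp.degree_single, pow_succ, mul_pow]
    field_simp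
    linarith

end Vale.Agent.P218G.Cv
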