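import Vale.Agent.P218G.Defs
import Vale.Agent.P218G.Evs
import Vale.Agent.P298.H744.CS

/-!
# P218, step `A0`: approximately critical formal arcs from the curve selection lemma
-/

noncomputable section

namespace Vale.Agent.P218G.Cv

open Filter Topology Asymptotics PowerSeries

section sum
variable {σ 𝕜 : Type} [Fintype σ] [RCLike 𝕜] {F : MvPowerSeries σ ℝ}

theorem sumF_eq (F : MvPowerSeries σ ℝ) :
    (sumF F : (σ → 𝕜) → 𝕜) = evs (MvPowerSeries.map (algebraMap ℝ 𝕜) F) :=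
  funext fun _ => tsum_congr fun _ => Algebra.smul_def _ _

omit [Fintype σ] in
theorem Conv.map (h : Conv F) : Conv (MvPowerSeries.map (algebraMap ℝ 𝕜) F) :=
  h.imp fun _ h => h.imp fun _ h => ⟨h.1, fun d => (norm_algebraMap' 𝕜 _).trans_le (h.2 d)⟩

theorem Conv.sumF_analyticAt (h : Conv F) : AnalyticAt 𝕜 (sumF F : (σ → 𝕜) → 𝕜) 0 :=
  sumF_eq (𝕜 := 𝕜) F ▸ h.map.analyticAt

theorem Conv.sumF_fderiv [DecidableEq σ] (h : Conv F) (i : σ) : ∀ᶠ x in 𝓝 (0 : σ → 𝕜),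
    fderiv 𝕜 (sumF F) x (Pi.single i 1) = sumF (MvPowerSeries.pderiv ℝ i F) x := by
  have e : MvPowerSeries.map (algebraMap ℝ 𝕜) (MvPowerSeries.pderiv ℝ i F) =
      MvPowerSeries.pderiv 𝕜 i (MvPowerSeries.map (algebraMap ℝ 𝕜) F) := by
    ext d; simp [MvPowerSeries.coeff_pderiv]
  rw [sumF_eq, sumF_eq, e]
  exact h.map.fderiv_eq i

theorem Conv.sumF_tay (h : Conv F) (K : ℕ) : (fun x : σ → 𝕜 =>
    sumF F x - MvPolynomial.aeval x (F.truncTotal K)) =O[𝓝 0] fun x => ‖x‖ ^ K := by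
  refine (h.map.tay K).congr_left fun x => ?_
  rw [sumF_eq, MvPolynomial.aeval_def, MvPolynomial.eval₂_eq_eval_map]
  exact congrArg (_ - MvPolynomial.eval x ·) (MvPowerSeries.truncFinset_map _ _)

theorem sumF_ofReal (F : MvPowerSeries σ ℝ) (x : σ → ℝ) :
    sumF F (fun i => (x i : 𝕜)) = ((sumF F x : ℝ) : 𝕜) := by
  simp [sumF, RCLike.ofReal_tsum, RCLike.real_smul_eq_coe_mul]

end sum

/-- asymptotic expansion on the right of `0` -/
def Asy (u : ℝ → ℝ) (U : ℝ⟦X⟧) : Prop :=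
  ∀ K : ℕ, ∃ q : Polynomial ℝ, X ^ K ∣ U - (q : ℝ⟦X⟧) ∧
    (fun t => u t - q.eval t) =O[𝓝[>] 0] fun t => t ^ K

theorem poly_one (q : Polynomial ℝ) : (fun t => q.eval t) =O[𝓝[>] 0] fun _ => (1 : ℝ) :=
  ((q.continuous.tendsto 0).mono_left nhdsWithin_le_nhds).isBigO_one ℝ

theorem pow_succ_little (m : ℕ) : (fun t : ℝ => t ^ (m + 1)) =o[𝓝[>] 0] fun t => t ^ m :=
  (isLittleO_pow_pow m.lt_succ_self).mono nhdsWithin_le_nhds

theorem not_pow (m : ℕ) : ¬ (fun t : ℝ => t ^ m) =O[𝓝[>] 0] fun t => t ^ (m + 1) := fun h =>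
  isLittleO_irrefl (Eventually.frequently (f := 𝓝[>] 0) (eventually_mem_nhdsWithin.mono fun _ ht =>
    pow_ne_zero m (ne_of_gt ht))) (h.trans_isLittleO (pow_succ_little m))

namespace Asy
variable {u v : ℝ → ℝ} {U V : ℝ⟦X⟧}

theorem isBigO (h : Asy u U) {K : ℕ} (hK : X ^ K ∣ U) : u =O[𝓝[>] 0] fun t => t ^ K := by
  obtain ⟨q, h1, h2⟩ := h K
  obtain ⟨r, rfl⟩ : Polynomial.X ^ K ∣ q := Polynomial.X_pow_dvd_iff.2 fun d hd => by
    simpa using X_pow_dvd_iff.1 (dvd_sub hK h1) d hd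
  exact (h2.add (((isBigO_refl (fun t : ℝ => t ^ K) _).mul (poly_one r)).congr_right
    fun _ => mul_one _)).congr_left fun t => by simp

theorem poly (q : Polynomial ℝ) : Asy (fun t => q.eval t) q := fun _ =>
  ⟨q, by simp, by simpa using isBigO_zero _ _⟩

theorem add (h : Asy u U) (h' : Asy v V) : Asy (fun t => u t + v t) (U + V) := fun K => by
  obtain ⟨q, h1, h2⟩ := h K
  obtain ⟨r, h3, h4⟩ := h' K
  exact ⟨q + r, by rw [Polynomial.coe_add, add_sub_add_comm]; exact h1.add h3,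
    (h2.add h4).congr_left fun t => by rw [Polynomial.eval_add]; ring⟩

theorem mul (h : Asy u U) (h' : Asy v V) : Asy (fun t => u t * v t) (U * V) := fun K => by
  obtain ⟨q, h1, h2⟩ := h K
  obtain ⟨r, h3, h4⟩ := h' K
  refine ⟨q * r, ?_, (((h.isBigO (K := 0) (by simp)).mul h4).congr_right (by simp) |>.add
    ((h2.mul (poly_one r)).congr_right fun _ => mul_one _)).congr_left fun t => ?_⟩
  · rw [Polynomial.coe_mul, show U * V - q * r = U * (V - r) + (U - q) * r by ring]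
    exact (h3.mul_left _).add (h1.mul_right _)
  · rw [Polynomial.eval_mul]; ring

theorem const (c : ℝ) : Asy (fun _ => c) (C c) := by simpa using poly (Polynomial.C c)

theorem pow (h : Asy u U) (n : ℕ) : Asy (fun t => u t ^ n) (U ^ n) := by
  induction n with
  | zero => simpa using const 1
  | succ n ih => simpa only [pow_succ] using ih.mul h

theorem lower {m : ℕ} (h : Asy u (X ^ m * U)) (hU : IsUnit U) :
    (fun t : ℝ => t ^ m) =O[𝓝[>] 0] u := by
  have c0 := (isUnit_iff_constantCoeff.1 hU).ne_zero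
  have h1 := (h.add (poly (Polynomial.C (-constantCoeff U) * Polynomial.X ^ m))).isBigO
    (K := m + 1) (by
      have : X ∣ U - C (constantCoeff U) := X_dvd_iff.2 (by simp)
      convert mul_dvd_mul_left (X ^ m) this using 1
      · ring
      · simp; ring)
  have h2 := (h1.trans_isLittleO ((pow_succ_little m).const_mul_right c0)).right_isBigO_add
  exact ((isBigO_const_mul_left_iff c0).1 h2).congr_right fun t => by simp

theorem dvd (h : Asy u U) (h' : Asy v V) (e : u =O[𝓝[>] 0] v) : V ∣ U := by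
  by_contra c
  obtain ⟨m, U, hU, rfl⟩ := exists_unit (f := U) fun a => c (a ▸ dvd_zero _)
  refine not_pow m (((h.lower hU).trans e).trans (h'.isBigO ?_))
  rcases eq_or_ne V 0 with rfl | a
  · exact dvd_zero _
  obtain ⟨n, V, hV, rfl⟩ := exists_unit a
  exact (pow_dvd_pow _ (not_le.1 fun b => c
    (hV.mul_right_dvd.2 ((pow_dvd_pow _ b).mul_right _)))).mul_right _

theorem ne_zero (h : Asy u U) (ha : AnalyticAt ℝ u 0) (h0 : ∀ᶠ t in 𝓝[>] 0, u t ≠ 0) : U ≠ 0 := by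
  rintro rfl
  obtain ⟨m, g, a, b, c⟩ := ha.exists_eventuallyEq_pow_smul_nonzero_iff.2 fun e =>
    (h0.and (e.filter_mono nhdsWithin_le_nhds)).exists.elim fun _ d => d.1 d.2
  refine not_pow m (IsBigO.trans ?_ (h.isBigO (dvd_zero _)))
  refine (((isBigO_refl u _).mul ((a.continuousAt.inv₀ b).isBigO_one ℝ)).congr'
    ((c.and (a.continuousAt.eventually_ne b)).mono fun t ht => ?_) (by simp)).mono
      nhdsWithin_le_nhds
  simp [ht.1, ht.2]

variable {σ : Type} [Fintype σ] {s : ℝ → σ → ℝ} {γ : σ → ℝ⟦X⟧}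

omit [Fintype σ] in
theorem aeval (h : ∀ i, Asy (s · i) (γ i)) (p : MvPolynomial σ ℝ) :
    Asy (fun t => MvPolynomial.aeval (s t) p) (MvPolynomial.aeval γ p) := by
  induction p using MvPolynomial.induction_on with
  | C c => simpa using const c
  | add p q hp hq => simpa only [map_add] using hp.add hq
  | mul_X p i hp => simpa only [map_mul, MvPolynomial.aeval_X] using hp.mul (h i)

theorem comp (h : ∀ i, Asy (s · i) (γ i)) (h0 : Z0 γ) {F : MvPowerSeries σ ℝ} (hF : Conv F) :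
    Asy (fun t => sumF F (s t)) (ev γ F) := fun K => by
  obtain ⟨q, h1, h2⟩ := aeval h (F.truncTotal K) K
  have h3 : s =O[𝓝[>] 0] fun t => t ^ 1 :=
    isBigO_pi.2 fun i => (h i).isBigO (by simpa using X_dvd_iff.2 (h0 i))
  have h4 := (ord_sub_trunc K F).dvd_ev h0
  rw [ev_sub h0, ev_coe] at h4
  refine ⟨q, by simpa using h4.add h1, ?_⟩
  have h5 := ((hF.sumF_tay K).comp_tendsto (h3.trans_tendsto (by
    simp only [pow_one]; exact tendsto_id'.2 nhdsWithin_le_nhds))).trans (h3.norm_left.pow K)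
  simpa using (h5.congr_right (by simp)).add h2

end Asy

theorem exists_asy {u : ℝ → ℝ} (h : AnalyticAt ℝ u 0) : ∃ U, Asy u U ∧ constantCoeff U = u 0 := by
  obtain ⟨P, hP⟩ := h
  refine ⟨mk P.coeff, fun K => ⟨∑ k ∈ Finset.range K, Polynomial.monomial k (P.coeff k),
    X_pow_dvd_iff.2 fun m hm => ?_, ?_⟩, hP.coeff_zero _⟩
  · simp [Polynomial.coeff_monomial, hm]
  · refine ((hP.isBigO_sub_partialSum_pow K).mono nhdsWithin_le_nhds).congr_left (fun t => ?_)
      |>.trans (IsBigO.of_norm_right (by simpa using isBigO_refl _ _))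
    simp [FormalMultilinearSeries.partialSum, Polynomial.eval_finsetSum, mul_comm]

variable {ι κ : Type} [Fintype ι] [Fintype κ]

theorem degree_eq (d : ι ⊕ κ →₀ ℕ) : d.degree = dA d + dC d := by
  rw [Finsupp.degree_eq_sum, Fintype.sum_sum_type]; rfl

theorem conv_truncC {A0 : ℝ} {f : MvPowerSeries (ι ⊕ κ) ℝ} (hA : 0 ≤ A0) (hf : Gev A0 f) (M : ℕ) :
    Conv (truncC M f) := by
  obtain ⟨C, R, hR, h⟩ := hf (A0 + 1) (lt_add_one _)
  have hC := C_nonneg h
  refine ⟨C * M.factorial, R + (A0 + 1), by positivity, fun d => ?_⟩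
  change ‖if _ then _ else _‖ ≤ _
  split_ifs with c
  · refine (h d).trans ?_
    rw [degree_eq, pow_add, mul_assoc C, mul_right_comm C (M.factorial : ℝ)]
    gcongr C * (?_ ^ _ * ?_ ^ _) * (Nat.factorial ?_ : ℝ) <;> linarith
  · rw [norm_zero]; positivity

theorem dvd_ev {γ : ι ⊕ κ → ℝ⟦X⟧} (h0 : Z0 γ) {S : ℝ⟦X⟧} (hS : S ≠ 0)
    (h : ∀ j, S ∣ γ (.inr j) ^ 2) {N : ℕ} {g : MvPowerSeries (ι ⊕ κ) ℝ}
    (hg : ∀ d, dC d < 2 * N → MvPowerSeries.coeff d g = 0) : S ^ N ∣ ev γ g := by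
  obtain ⟨m, U, hU, e⟩ := exists_unit hS
  have h1 := (ord_sub_trunc (m * N) g).dvd_ev h0
  rw [ev_sub h0, ev_coe, pow_mul] at h1
  refine (dvd_iff_dvd_of_dvd_sub ((pow_dvd_pow_of_dvd
    (e ▸ hU.mul_right_dvd.2 dvd_rfl) N).trans h1)).2 ?_
  rw [MvPolynomial.aeval_def, MvPolynomial.eval₂_eq']
  refine Finset.dvd_sum fun d hd => Dvd.dvd.mul_left ?_ _
  have h2 : 2 * N ≤ dC d := not_lt.1 fun c => MvPolynomial.mem_support_iff.1 hd (by
    rw [MvPowerSeries.coeff_truncTotal_eq_ite, hg d c, ite_self])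
  rw [← IsIntegrallyClosed.pow_dvd_pow_iff two_ne_zero, ← pow_mul, mul_comm,
    Fintype.prod_sum_type, mul_pow]
  refine (pow_dvd_pow _ h2).trans (Dvd.dvd.mul_left ?_ _)
  rw [dC, ← Finset.prod_pow_eq_pow_sum, ← Finset.prod_pow]
  exact Finset.prod_dvd_prod_of_dvd _ _ fun j _ =>
    pow_right_comm (γ (.inr j)) 2 _ ▸ pow_dvd_pow_of_dvd (h j) _

end Vale.Agent.P218G.Cv

namespace Vale.Agent.P218G

open Filter Topology Asymptotics PowerSeries Cv

theorem a0s (ι κ : Type) [Fintype ι] [Fintype κ] : A0S ι κ := by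
  classical
  intro A0 f hA hf H N
  obtain ⟨M, hM, H⟩ : ∃ M, 2 * (N + 1) < M ∧ ∀ C : ℝ, ∃ᶠ x in 𝓝 (0 : ι ⊕ κ → ℝ),
      C * ‖fderiv ℝ (sumF (truncC M f)) x‖ < ‖fun j => x (Sum.inr j)‖ ^ (2 * (N + 1)) := by
    simpa [HH, not_eventually] using not_exists.1 H (2 * (N + 1))
  have hc := conv_truncC hA hf M
  obtain ⟨s, hs⟩ : ∃ s : (ι ⊕ κ → ℝ) → ℝ, s = fun x => ∑ j, x (.inr j) ^ 2 := ⟨_, rfl⟩
  have s0 : ∀ x j, x (.inr j) ^ 2 ≤ s x := fun x j => hs ▸ Finset.single_le_sum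
    (f := fun j => x (.inr j) ^ 2) (fun _ _ => sq_nonneg _) (Finset.mem_univ j)
  have s1 : ∀ x, 0 ≤ s x := fun x => hs ▸ Finset.sum_nonneg fun _ _ => sq_nonneg _
  have s2 : AnalyticAt ℝ s 0 := hs ▸ Finset.analyticAt_fun_sum _ fun j _ =>
    (analyticAt_pi_iff.1 analyticAt_id (Sum.inr j)).fun_pow 2
  obtain ⟨a, a1, a2, a3⟩ := P298.H744.curve_selection (G := fun x : ι ⊕ κ → ℝ =>
      ∑ i, sumF (MvPowerSeries.pderiv ℝ i (truncC M f)) x ^ 2 - s x ^ (2 * (N + 1)))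
    ((Finset.analyticAt_fun_sum _ fun i _ => (hc.pderiv i).sumF_analyticAt.pow 2).sub (s2.pow _))
    (((H (Fintype.card (ι ⊕ κ) + 1)).and_eventually (eventually_all.2 hc.sumF_fderiv)).mono
      fun x ⟨b1, b2⟩ => by
        have b3 : ∑ i, sumF (MvPowerSeries.pderiv ℝ i (truncC M f)) x ^ 2 ≤
            Fintype.card (ι ⊕ κ) * ‖fderiv ℝ (sumF (truncC M f)) x‖ ^ 2 := by
          rw [← nsmul_eq_mul]
          refine Finset.sum_le_card_nsmul _ _ _ fun i _ => sq_le_sq.2 ?_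
          simpa [← b2, Pi.norm_single] using
            (fderiv ℝ (sumF (truncC M f)) x).le_opNorm (Pi.single i 1)
        have b4 : ‖fun j => x (Sum.inr j)‖ ^ 2 ≤ s x :=
          (Real.le_sqrt (norm_nonneg _) (s1 x)).1
            ((pi_norm_le_iff_of_nonneg (Real.sqrt_nonneg _)).2 fun j => Real.abs_le_sqrt (s0 x j))
        have b5 := pow_lt_pow_left₀ b1 (by positivity) two_ne_zero
        have b6 := pow_le_pow_left₀ (by positivity) b4 (2 * (N + 1))
        rw [pow_right_comm] at b6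
        nlinarith [sq_nonneg ‖fderiv ℝ (sumF (truncC M f)) x‖, sq_nonneg
          (Fintype.card (ι ⊕ κ) * ‖fderiv ℝ (sumF (truncC M f)) x‖), mul_nonneg
          (Nat.cast_nonneg (α := ℝ) (Fintype.card (ι ⊕ κ)))
          (sq_nonneg ‖fderiv ℝ (sumF (truncC M f)) x‖)])
  choose γ g1 g2 using fun i => exists_asy (analyticAt_pi_iff.1 a1 i)
  have h0 : Z0 γ := fun i => (g2 i).trans (congrFun a2 i)
  have g3 : Asy (fun t => s (a t)) (ev γ (sC ι κ)) := by
    have := Asy.aeval g1 (∑ j, MvPolynomial.X (.inr j) ^ 2)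
    simp only [map_sum, map_pow, MvPolynomial.aeval_X] at this
    simpa only [hs, sC, ev_sum h0, ev_X h0, ev_pow h0] using this
  have g4 : ∀ᶠ t in 𝓝[>] 0, ∀ i, sumF (MvPowerSeries.pderiv ℝ i (truncC M f)) (a t) ^ 2 <
      (s (a t) ^ (N + 1)) ^ 2 := a3.mono fun t ht i => by
    rw [← pow_mul, mul_comm]
    exact (Finset.single_le_sum (f := fun i => sumF (MvPowerSeries.pderiv ℝ i (truncC M f))
      (a t) ^ 2) (fun _ _ => sq_nonneg _) (Finset.mem_univ i)).trans_lt (sub_neg.1 ht)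
  have g5 : ev γ (sC ι κ) ≠ 0 := g3.ne_zero (AnalyticAt.comp (a2 ▸ s2) a1) (a3.mono fun t ht e => by
    rw [e, zero_pow (by omega), sub_zero] at ht
    exact ht.not_ge (Finset.sum_nonneg fun _ _ => sq_nonneg _))
  refine ⟨γ, h0, g5, fun i => ?_⟩
  rw [← sub_add_cancel (MvPowerSeries.pderiv ℝ i f) (MvPowerSeries.pderiv ℝ i (truncC M f)),
    ev_add h0]
  refine dvd_add (dvd_ev h0 g5 (fun j => ((g1 _).pow 2).dvd g3 (.of_bound' (.of_forall fun t => ?_)))
    fun d hd => ?_)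
    ((pow_dvd_pow _ N.le_succ).trans ((Asy.comp g1 h0 (hc.pderiv i)).dvd (g3.pow _)
      (.of_bound' (g4.mono fun t ht => (sq_lt_sq.1 (ht i)).le))))
  · simpa [abs_of_nonneg (s1 _)] using s0 (a t) j
  · have : dC (d + Finsupp.single i 1) ≤ M := by
      have := degree_eq (Finsupp.single i 1 : ι ⊕ κ →₀ ℕ)
      rw [Finsupp.degree_single] at this
      rw [dC_add]; omega
    rw [← map_sub, MvPowerSeries.coeff_pderiv, map_sub,
      show MvPowerSeries.coeff _ (truncC M f) = _ from if_pos this, sub_self, zero_mul]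

end Vale.Agent.P218G
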