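import Vale.Agent.P218G.Est

/-!
# P218, Gevrey arcs: isolated formal solutions of Gevrey systems are Gevrey
-/

namespace Vale.Agent.P218G

open PowerSeries Filter Finset Topology

variable {ι κ : Type} [Fintype ι] [Fintype κ] {η : ℕ → ℝ} {m : ℕ} {A0 B : ℝ}

theorem W_lower (h : IsW η) (hB : 0 < B) (hη : ∀ j, η j ^ m = B * (j + 1)) {b : ℕ} (hb : m ≤ b)
    (k : ℕ) : (m * B) ^ k * k.factorial ≤ W η b (m * k) := by
  induction k with
  | zero => simp [W_zero]
  | succ k ih =>
    have h1 : m * B * (k + 1) ≤ W η (b + m * k) m := by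
      have h2 : η (b + m * k) ^ m ≤ W η (b + m * k) m := by
        rw [W]
        calc η (b + m * k) ^ m = ∏ _i ∈ range m, η (b + m * k) := by simp
          _ ≤ _ := prod_le_prod (fun _ _ => (h.pos _).le) fun _ _ => h.mono (by omega)
      rw [hη] at h2
      refine le_trans ?_ h2
      have h3 : (m : ℝ) ≤ b := by exact_mod_cast hb
      push_cast
      nlinarith
    rw [Nat.mul_succ, W_add, Nat.factorial_succ, pow_succ]
    push_cast
    calc (m * B) ^ k * (m * B) * ((k + 1) * (k.factorial : ℝ))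
        = (m * B) ^ k * k.factorial * (m * B * (k + 1)) := by ring
      _ ≤ _ := mul_le_mul ih h1 (by positivity) (h.W_pos _ _).le

theorem exists_theta (hA : 0 ≤ A0) {A1 : ℝ} (h1 : A0 < A1) : ∃ θ : ℝ, 1 < θ ∧ θ * A0 < A1 := by
  refine ⟨1 + (A1 - A0) / (A0 + 1), by have := sub_pos.2 h1; simp; positivity, ?_⟩
  have h2 : (A1 - A0) / (A0 + 1) * A0 < A1 - A0 := by
    rw [div_mul_eq_mul_div, div_lt_iff₀ (by positivity)]
    nlinarith
  linarith

theorem G_ev (h : IsW η) (hA : 0 ≤ A0) (hB : A0 < m * B) (hB0 : 0 < B)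
    (hη : ∀ j, η j ^ m = B * (j + 1)) {x : ι ⊕ κ → ℝ⟦X⟧} {y : κ → ℝ⟦X⟧} (hx : Z0 x)
    (hG : ∀ i, G η (x i)) (hy : ∀ j, x (Sum.inr j) = X ^ m * y j)
    (hy1 : ∀ j, |constantCoeff (y j)| ≤ 1) {f : MvPowerSeries (ι ⊕ κ) ℝ} (hf : Gev A0 f) :
    G η (ev x f) := by
  obtain ⟨θ, hθ, hθ1⟩ := exists_theta hA hB
  obtain ⟨ρ, ⟨M, hM⟩, hρ⟩ := ((hf.major hA hθ.le hθ1).and self_mem_nhdsWithin).exists
  have hρ0 : 0 < ρ := hρ
  refine ⟨M, ?_⟩
  filter_upwards [eventually_all.2 fun i => h.small (hG (Sum.inl i)) (hx _) hρ0,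
    eventually_all.2 fun j => h.near (h.G_shift (hy j ▸ hG (Sum.inr j))) (sub_pos.2 hθ),
    eventually_ge_atTop m] with b h1 h2 h3 n
  exact (est h (h.N_nonneg b n (X ^ 1)) hρ0 (by linarith) (by linarith) one_pos le_rfl
    (W_lower h hB0 hη h3) hM hx (z := 0) (v := 0)
    (fun i => by simpa [N_zero] using h1 i n) hy (fun j => by simp)
    (fun j => by simpa [N_zero] using (h2 j n).trans (by linarith [hy1 j]))).1

theorem apriori [DecidableEq ι] [DecidableEq κ] (h : IsW η) (hA : 0 ≤ A0) (hB : A0 < m * B)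
    (hB0 : 0 < B) (hη : ∀ j, η j ^ m = B * (j + 1)) {γ : ι ⊕ κ → ℝ⟦X⟧} {y : κ → ℝ⟦X⟧}
    (hγ : Z0 γ) (hy : ∀ j, γ (Sum.inr j) = X ^ m * y j) (hy1 : ∀ j, |constantCoeff (y j)| ≤ 1)
    {H : ι ⊕ κ → MvPowerSeries (ι ⊕ κ) ℝ} (hH : ∀ k, Gev A0 (H k))
    (hq : ∀ k, G η (ev γ (H k))) (hdet : ev γ (jac H).det ≠ 0) (i : ι ⊕ κ) : G η (γ i) := by
  obtain ⟨d, U', hU', hd⟩ := exists_unit hdet
  obtain ⟨E, hE⟩ : ∃ E, E = m + d + 1 := ⟨_, rfl⟩
  have hE0 : 0 < E := by omega
  let x : ι ⊕ κ → ℝ⟦X⟧ := fun i => (trunc (E + m + 1) (γ i) : Polynomial ℝ)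
  let w : ι ⊕ κ → ℝ⟦X⟧ := fun i => mk fun k => coeff (k + (E + m + 1)) (γ i)
  let v : ι ⊕ κ → ℝ⟦X⟧ := fun i => X * w i
  have hγx : ∀ i, γ i = x i + X ^ E * (X ^ m * v i) := by
    intro i
    have h1 := eq_X_pow_mul_shift_add_trunc (E + m + 1) (γ i)
    simp only [x, v, w]
    linear_combination h1
  have hγx' : γ = fun i => x i + X ^ E * (X ^ m * v i) := funext hγx
  have hx : Z0 x := by
    intro i
    have h1 := congrArg constantCoeff (hγx i)
    simpa [hγ i, hE0.ne'] using h1.symm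
  have hxG : ∀ i, G η (x i) := fun i => h.G_coe _
  let y' : κ → ℝ⟦X⟧ := fun j => y j - X ^ E * v (Sum.inr j)
  have hy' : ∀ j, x (Sum.inr j) = X ^ m * y' j := by
    intro j
    simp only [y']
    linear_combination hy j - hγx (Sum.inr j)
  have hy'1 : ∀ j, |constantCoeff (y' j)| ≤ 1 := by
    intro j
    simpa [y', hE0.ne'] using hy1 j
  have hev : ∀ {f}, Gev A0 f → G η (ev x f) := fun hf => G_ev h hA hB hB0 hη hx hxG hy' hy'1 hf
  have hJ : ∀ k i, jac H k i ∈ gevAlg (ι := ι) (κ := κ) hA := fun k i => (hH k).pderiv hA i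
  -- the determinant at the truncated arc
  obtain ⟨e, he⟩ := ev_sub_dvd hγ hx (n := d + 1) (fun i => ⟨X ^ (2 * m) * v i, by
    rw [hγx i, hE]; ring⟩) (jac H).det
  have hU : IsUnit (U' - X * e) := by
    rw [isUnit_iff_constantCoeff] at hU' ⊢
    simpa using hU'
  obtain ⟨V, hV⟩ := hU.exists_right_inv
  have hdx : ev x (jac H).det = X ^ d * (U' - X * e) := by linear_combination hd - he
  have hVG : G η V := h.G_inv (h.G_shift (hdx ▸ hev (det_mem _ _ hJ))) hV
  -- the fixed point equation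
  have h0 : ∀ k, ∃ r : ℝ⟦X⟧, ev (fun i => x i + X ^ E * (X ^ m * v i)) (H k) - ev x (H k) -
      X ^ E * ∑ i, X ^ m * v i * ev x (MvPowerSeries.pderiv ℝ i (H k)) = X ^ (2 * E) * r := by
    intro k
    have := ev_taylor hx hE0 (fun i => X ^ m * v i) 0 (n := 0) (fun i => by simp) (H k)
    simp only [Pi.zero_apply, mul_zero, add_zero, sub_zero] at this
    exact this
  choose r hr using h0
  let a : ι ⊕ κ → ι ⊕ κ → ℝ⟦X⟧ := fun j k => V * ev x ((jac H).adjugate j k)
  have haG : ∀ j k, G η (a j k) := fun j k => h.G_mul hVG (hev (adj_mem _ _ hJ j k))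
  let c : ι ⊕ κ → ℝ⟦X⟧ := fun j => v j + X * ∑ k, a j k * r k
  have hc : ∀ j, X ^ (E + m + d) * c j = ∑ k, a j k * (ev γ (H k) + -ev x (H k)) := by
    intro j
    have h1 : ∀ k, ev γ (H k) + -ev x (H k) = X ^ (2 * E) * r k +
        X ^ E * ∑ i, X ^ m * v i * ev x (MvPowerSeries.pderiv ℝ i (H k)) := by
      intro k
      have := hr k
      rw [← hγx'] at this
      linear_combination this
    have h2 : ∀ i, ∑ k, a j k * ev x (MvPowerSeries.pderiv ℝ i (H k)) =
        if j = i then X ^ d else 0 := by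
      intro i
      simp only [a, mul_assoc, ← ev_mul hx]
      rw [← mul_sum, ← ev_sum hx, adj_jac]
      split_ifs
      · rw [hdx]
        linear_combination X ^ d * hV
      · rw [ev_zero hx, mul_zero]
    have h3 : ∑ k, a j k * (X ^ E * ∑ i, X ^ m * v i * ev x (MvPowerSeries.pderiv ℝ i (H k))) =
        X ^ (E + m + d) * v j := by
      simp only [mul_sum]
      rw [sum_comm]
      have h4 : ∀ i, ∑ k, a j k * (X ^ E * (X ^ m * v i * ev x (MvPowerSeries.pderiv ℝ i (H k)))) =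
          X ^ (E + m) * v i * if j = i then X ^ d else 0 := by
        intro i
        rw [← h2, mul_sum]
        exact sum_congr rfl fun k _ => by ring
      simp only [h4, mul_ite, mul_zero, sum_ite_eq, mem_univ, if_true]
      ring
    have h5 : ∑ k, a j k * (X ^ (2 * E) * r k) = X ^ (E + m + d) * (X * ∑ k, a j k * r k) := by
      simp only [mul_sum]
      exact sum_congr rfl fun k _ => by rw [hE]; ring
    simp only [h1, mul_add, sum_add_distrib, c]
    rw [h3, h5, add_comm]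
  have hcG : ∀ j, G η (c j) := fun j => h.G_shift (hc j ▸ h.G_sum _ fun k _ =>
    h.G_mul (haG j k) (h.G_add (hq k) (G_neg (hev (hH k)))))
  have hc0 : ∀ j, constantCoeff (c j) = 0 := fun j => by simp [c, v]
  -- the constants
  obtain ⟨θ, hθ, hθ1⟩ := exists_theta hA hB
  obtain ⟨ρ, hM, hρ0, hρ1⟩ := ((eventually_all.2 fun k => (hH k).major hA hθ.le hθ1).and
    (Ioo_mem_nhdsGT (sub_pos.2 hθ))).exists
  choose M hM using hM
  choose L hL using haG
  obtain ⟨b, ⟨⟨⟨e1, e2⟩, e3, e4⟩, e5, e6⟩, e7, e8⟩ :=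
    (((((eventually_all.2 fun i => h.small (hxG (Sum.inl i)) (hx _) (half_pos hρ0)).and
      (eventually_all.2 fun j => h.near (h.G_shift (hy' j ▸ hxG (Sum.inr j))) (half_pos hρ0))).and
      ((eventually_ge_atTop m).and (h.small (h.G_X_pow E) (by simp [hE0.ne']) (half_pos hρ0)))).and
      ((eventually_all.2 fun j => h.small (hcG j) (hc0 j) one_half_pos).and
      (eventually_all.2 fun j => eventually_all.2 fun k => hL j k))).and
      ((h.top.eventually_ge_atTop 1).and (eventually_all.2 fun j => h.top.eventually_ge_atTop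
        (2 * ∑ k, L j k * (M k / (ρ / 2) ^ 2))))).exists
  have hW1 : 1 ≤ W η b m := by
    calc (1 : ℝ) = ∏ _i ∈ range m, 1 := by simp
      _ ≤ _ := prod_le_prod (fun _ _ => zero_le_one) fun i _ => e7.trans (h.mono (by omega))
  have hv : ∀ n j, N η b n (v j) ≤ 1 := by
    intro n
    induction n with
    | zero => intro j; simp [N]
    | succ n ih =>
      intro j
      have k1 : ∀ k, N η b n (r k) ≤ M k / (ρ / 2) ^ 2 := by
        intro k
        have k2 := (est h (half_pos hρ0).le hρ0 (by linarith) (by linarith) hE0 (e4 n)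
          (W_lower h hB0 hη e3) (hM k) hx (z := fun i => X ^ m * v i)
          (v := fun j => v (Sum.inr j)) (fun i => by
            have k3 := h.N_X_pow_mul_le (b := b) (n := n) (u := v (Sum.inl i)) m
            have k4 := div_le_self (h.N_nonneg b n (v (Sum.inl i))) hW1
            have k5 := mul_le_mul_of_nonneg_left ((k3.trans k4).trans (ih _)) (half_pos hρ0).le
            linarith [e1 i n]) hy' (fun j => rfl) (fun j => by
            have k5 := mul_le_mul_of_nonneg_left (ih (Sum.inr j)) (half_pos hρ0).le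
            linarith [e2 j n, hy'1 j])).2 _ (hr k)
        rw [le_div_iff₀ (by positivity)]
        linarith
      have k2 : v j = c j - X * ∑ k, a j k * r k := by simp [c]
      have k3 : N η b (n + 1) (X * ∑ k, a j k * r k) ≤ 1 / 2 := by
        refine h.N_X_mul.trans ?_
        rw [div_le_iff₀ (h.pos _)]
        have k4 := (h.N_sum (b := b) (n := n) univ fun k => a j k * r k).trans
          (sum_le_sum fun k _ => h.N_mul_le (e6 j k n) (k1 k))
        linarith [e8 j]
      rw [k2]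
      linarith [h.N_sub (b := b) (n := n + 1) (u := c j) (v := X * ∑ k, a j k * r k), e5 j (n + 1)]
  rw [hγx i]
  exact h.G_add (hxG i) (h.G_mul (h.G_X_pow E) (h.G_mul (h.G_X_pow m) (h.G_of fun n => hv n i)))

end Vale.Agent.P218G
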