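import Vale.Agent.P218G.Gev

/-!
# P218, Gevrey arcs: statements of the block
-/

namespace Vale.Agent.P218G

open Filter Topology PowerSeries

/-- the sum of a power series at a point -/
noncomputable def sumF {σ : Type} [Fintype σ] {k : Type} [NontriviallyNormedField k]
    [NormedAlgebra ℝ k] (F : MvPowerSeries σ ℝ) (x : σ → k) : k :=
  ∑' d : σ →₀ ℕ, MvPowerSeries.coeff d F • ∏ i, x i ^ d i

variable {ι κ : Type} [Fintype ι] [Fintype κ]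

/-- truncation in the second group of variables -/
noncomputable def truncC (M : ℕ) (f : MvPowerSeries (ι ⊕ κ) ℝ) : MvPowerSeries (ι ⊕ κ) ℝ :=
  fun d => if dC d ≤ M then MvPowerSeries.coeff d f else 0

/-- the square of the norm of the second group of variables -/
noncomputable def sC (ι κ : Type) [Fintype κ] : MvPowerSeries (ι ⊕ κ) ℝ :=
  ∑ j, MvPowerSeries.X (Sum.inr j) ^ 2

/-- the inequality `(H)` -/
def HH (f : MvPowerSeries (ι ⊕ κ) ℝ) : Prop :=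
  ∃ N : ℕ, ∀ M, N < M → ∃ C : ℝ, ∀ᶠ x in 𝓝 (0 : ι ⊕ κ → ℝ),
    ‖fun j => x (Sum.inr j)‖ ^ N ≤ C * ‖fderiv ℝ (sumF (truncC M f)) x‖

/-- step `A0`: if `(H)` fails there are approximately critical arcs of every order -/
def A0S (ι κ : Type) [Fintype ι] [Fintype κ] : Prop :=
  ∀ (A0 : ℝ) (f : MvPowerSeries (ι ⊕ κ) ℝ), 0 ≤ A0 → Gev A0 f → ¬ HH f → ∀ N : ℕ,
    ∃ a : ι ⊕ κ → ℝ⟦X⟧, Z0 a ∧ ev a (sC ι κ) ≠ 0 ∧
      ∀ i, ev a (sC ι κ) ^ N ∣ ev a (MvPowerSeries.pderiv ℝ i f)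

/-- a normalised real Gevrey arc -/
structure GArc (A0 : ℝ) (m : ℕ) (γ : ι ⊕ κ → ℝ⟦X⟧) : Prop where
  pos : 0 < m
  zero : Z0 γ
  low : ∀ j, ∀ i < m, coeff i (γ (Sum.inr j)) = 0
  le_one : ∀ j, |coeff m (γ (Sum.inr j))| ≤ 1
  one : ∃ j, |coeff m (γ (Sum.inr j))| = 1
  gev : ∀ A, A0 < A → ∃ C : ℝ, ∀ i k, |coeff k (γ i)| ^ m ≤ C * (A / m) ^ k * k.factorial

/-- the statement of the block -/
def ARC (ι κ : Type) [Fintype ι] [Fintype κ] : Prop :=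
  ∀ (A0 : ℝ) (f : MvPowerSeries (ι ⊕ κ) ℝ), 0 ≤ A0 → Gev A0 f → ¬ HH f →
    ∃ (m : ℕ) (γ : ι ⊕ κ → ℝ⟦X⟧), GArc A0 m γ ∧ ∀ i, ev γ (MvPowerSeries.pderiv ℝ i f) = 0

end Vale.Agent.P218G
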