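import Vale.Agent.P218G.Apr
import Vale.Agent.P218G.Defs

/-!
# P218, Gevrey arcs: the block from step `A0`
-/

namespace Vale.Agent.P218G

open PowerSeries Filter Finset Topology

theorem exists_isW {m : ℕ} (hm : 0 < m) {B : ℝ} (hB : 0 < B) :
    ∃ η : ℕ → ℝ, IsW η ∧ ∀ j, η j ^ m = B * (j + 1) := by
  refine ⟨fun j => (B * (j + 1)) ^ ((m : ℝ)⁻¹), ⟨fun j => by positivity, fun i j hij => ?_, ?_⟩,
    fun j => Real.rpow_inv_natCast_pow (by positivity) hm.ne'⟩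
  · have : (i : ℝ) ≤ j := by exact_mod_cast hij
    gcongr
  · refine (tendsto_rpow_atTop (by positivity)).comp (Tendsto.const_mul_atTop hB ?_)
    exact tendsto_atTop_add_const_right _ _ tendsto_natCast_atTop_atTop

theorem asc_le (b : ℕ) {θ : ℝ} (hθ : 1 < θ) : ∃ C : ℝ, 0 ≤ C ∧ ∀ k : ℕ,
    ∏ i ∈ range k, ((b + i : ℕ) + 1 : ℝ) ≤ C * θ ^ k * k.factorial := by
  induction b generalizing θ with
  | zero =>
    refine ⟨1, zero_le_one, fun k => ?_⟩
    have h1 : ∏ i ∈ range k, ((0 + i : ℕ) + 1 : ℝ) = k.factorial := by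
      rw [← prod_range_add_one_eq_factorial, Nat.cast_prod]
      exact prod_congr rfl fun i _ => by simp
    rw [h1, one_mul]
    exact le_mul_of_one_le_left (by positivity) (one_le_pow₀ hθ.le)
  | succ b ih =>
    have h1 : 1 < √θ := Real.lt_sqrt_of_sq_lt (by simpa using hθ)
    obtain ⟨C, hC, h2⟩ := ih h1
    obtain ⟨c, hc, h3⟩ := lin_le h1
    refine ⟨C * c, by positivity, fun k => ?_⟩
    have h4 : (∏ i ∈ range k, ((b + 1 + i : ℕ) + 1 : ℝ)) * (b + 1) =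
        (∏ i ∈ range k, ((b + i : ℕ) + 1 : ℝ)) * (b + k + 1) := by
      have h5 := prod_range_succ' (fun i => ((b + i : ℕ) + 1 : ℝ)) k
      rw [prod_range_succ] at h5
      push_cast at h5 ⊢
      rw [h5, add_zero]
      exact congrArg (· * ((b : ℝ) + 1)) (prod_congr rfl fun i _ => by ring)
    refine le_of_mul_le_mul_right ?_ (by positivity : (0 : ℝ) < b + 1)
    rw [h4]
    have h6 : (b + k + 1 : ℝ) ≤ c * √θ ^ k * (b + 1) := by
      have h7 : (b + k + 1 : ℝ) ≤ (k + 1) * (b + 1) := by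
        nlinarith [mul_nonneg (Nat.cast_nonneg (α := ℝ) k) (Nat.cast_nonneg (α := ℝ) b)]
      exact h7.trans (mul_le_mul_of_nonneg_right (h3 k) (by positivity))
    refine (mul_le_mul (h2 k) h6 (by positivity) (by positivity)).trans (le_of_eq ?_)
    have h8 : √θ ^ k * √θ ^ k = θ ^ k := by rw [← mul_pow, Real.mul_self_sqrt (by linarith)]
    rw [← h8]
    ring

theorem G.coeff_pow_le {η : ℕ → ℝ} (h : IsW η) {m : ℕ} {B θ : ℝ} (hB : 0 < B) (hθ : 1 < θ)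
    (hη : ∀ j, η j ^ m = B * (j + 1)) {u : ℝ⟦X⟧} (hu : G η u) :
    ∃ C : ℝ, 0 ≤ C ∧ ∀ k, |coeff k u| ^ m ≤ C * (θ * B) ^ k * k.factorial := by
  obtain ⟨M, hM⟩ := hu
  obtain ⟨b, hb⟩ := hM.exists
  obtain ⟨C, hC, h1⟩ := asc_le b hθ
  have hM0 : 0 ≤ M := (h.N_nonneg _ _ _).trans (hb 0)
  refine ⟨M ^ m * C, by positivity, fun k => ?_⟩
  have h2 : |coeff k u| ≤ M * W η b k :=
    (h.coeff_le k).trans (mul_le_mul_of_nonneg_right (hb _) (h.W_pos _ _).le)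
  have h3 : W η b k ^ m = B ^ k * ∏ i ∈ range k, ((b + i : ℕ) + 1 : ℝ) := by
    rw [W, ← prod_pow]
    simp only [hη, prod_mul_distrib, prod_const, card_range]
  calc |coeff k u| ^ m ≤ (M * W η b k) ^ m := by gcongr
    _ = M ^ m * B ^ k * ∏ i ∈ range k, ((b + i : ℕ) + 1 : ℝ) := by rw [mul_pow, h3, mul_assoc]
    _ ≤ M ^ m * B ^ k * (C * θ ^ k * k.factorial) := by
        gcongr
        exact h1 k
    _ = _ := by rw [mul_pow]; ring

variable {ι κ : Type} [Fintype ι] [Fintype κ]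

theorem exists_normal {a : ι ⊕ κ → ℝ⟦X⟧} (ha : Z0 a) (hs : ev a (sC ι κ) ≠ 0) :
    ∃ (m : ℕ) (b : ι ⊕ κ → ℝ⟦X⟧), 0 < m ∧ Z0 b ∧ (∀ j, ∀ i < m, coeff i (b (Sum.inr j)) = 0) ∧
      (∀ j, |coeff m (b (Sum.inr j))| ≤ 1) ∧ (∃ j, |coeff m (b (Sum.inr j))| = 1) ∧
      ∀ g : MvPowerSeries (ι ⊕ κ) ℝ, ev a g = 0 → ev b g = 0 := by
  classical
  have h0 : ∃ m, ∃ j, coeff m (a (Sum.inr j)) ≠ 0 := by
    by_contra hc
    push Not at hc
    apply hs
    rw [sC, ev_sum ha]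
    refine sum_eq_zero fun j _ => ?_
    have : a (Sum.inr j) = 0 := by
      ext m
      exact hc m j
    rw [ev_pow ha, ev_X ha, this, zero_pow two_ne_zero]
  obtain ⟨j0, hj0⟩ := Nat.find_spec h0
  have hlow : ∀ j, ∀ i < Nat.find h0, coeff i (a (Sum.inr j)) = 0 := by
    intro j i hi
    by_contra hne
    exact Nat.find_min h0 hi ⟨j, hne⟩
  set m := Nat.find h0
  have hm : 0 < m := by
    refine Nat.pos_of_ne_zero fun h => hj0 ?_
    rw [h, coeff_zero_eq_constantCoeff_apply]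
    exact ha _
  obtain ⟨j1, -, hj1⟩ := exists_max_image univ (fun j => |coeff m (a (Sum.inr j))|)
    ⟨j0, mem_univ _⟩
  set L := |coeff m (a (Sum.inr j1))| with hL
  have hL0 : 0 < L := (abs_pos.2 hj0).trans_le (hj1 j0 (mem_univ _))
  set l : ℝ := L⁻¹ ^ ((m : ℝ)⁻¹) with hl
  have hlm : l ^ m = L⁻¹ := Real.rpow_inv_natCast_pow (by positivity) hm.ne'
  obtain ⟨h1, h2⟩ := hom_eq_ev ((rescale l).comp (evh (K := ℝ) ha).toRingHom) (fun c => by
    change rescale l (evh ha (MvPowerSeries.C c)) = C c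
    rw [evh_apply, ev_C]
    ext n
    rw [coeff_rescale, coeff_C]
    split_ifs with h <;> simp [h])
  have h3 : ∀ f : MvPowerSeries (ι ⊕ κ) ℝ,
      ((rescale l).comp (evh (K := ℝ) ha).toRingHom) f = rescale l (ev a f) := fun f =>
    congrArg (rescale l) (evh_apply ha f)
  simp only [h3, ev_X ha] at h1 h2
  refine ⟨m, _, hm, h1, fun j i hi => ?_, fun j => ?_, ⟨j1, ?_⟩, fun g hg => ?_⟩
  · rw [coeff_rescale, hlow j i hi, mul_zero]
  · rw [coeff_rescale, hlm, abs_mul, abs_of_pos (inv_pos.2 hL0), inv_mul_le_one₀ hL0]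
    exact hj1 j (mem_univ _)
  · rw [coeff_rescale, hlm, abs_mul, abs_of_pos (inv_pos.2 hL0), inv_mul_cancel₀ hL0.ne']
  · rw [← h2, hg, map_zero]

/-- a formal arc can be replaced by a normalised Gevrey arc -/
theorem exists_garc {A0 : ℝ} (hA : 0 ≤ A0) {a : ι ⊕ κ → ℝ⟦X⟧} (ha : Z0 a)
    (hs : ev a (sC ι κ) ≠ 0) : ∃ (m : ℕ) (γ : ι ⊕ κ → ℝ⟦X⟧), GArc A0 m γ ∧
      ∀ g : MvPowerSeries (ι ⊕ κ) ℝ, Gev A0 g → ev a g = 0 → ev γ g = 0 := by
  classical
  obtain ⟨m, b, hm, hb, h1, h2, h3, h4⟩ := exists_normal ha hs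
  obtain ⟨γ, H, k1, k2, k3, k4, k5, k6⟩ := leaf (gevAlg (ι := ι) (κ := κ) hA)
    (fun i => gev_monomial hA _ _) (fun f hf i => Gev.pderiv hA hf i) hb (m + 1)
  have hco : ∀ i, ∀ k ≤ m, coeff k (γ i) = coeff k (b i) := by
    intro i k hk
    have := X_pow_dvd_iff.1 (k2 i) k (by omega)
    rwa [map_sub, sub_eq_zero] at this
  have hlow : ∀ j, ∀ i < m, coeff i (γ (Sum.inr j)) = 0 := fun j i hi => by
    rw [hco _ _ hi.le, h1 j i hi]
  refine ⟨m, γ, ⟨hm, k1, hlow, fun j => ?_, ?_, fun A hA' => ?_⟩,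
    fun g hg h => k3 g hg (h4 g h)⟩
  · rw [hco _ _ le_rfl]
    exact h2 j
  · obtain ⟨j, hj⟩ := h3
    exact ⟨j, by rwa [hco _ _ le_rfl]⟩
  · obtain ⟨A', e1, e2⟩ := exists_between hA'
    have e3 : 0 < A' := by linarith
    have hm' : (0 : ℝ) < m := by exact_mod_cast hm
    obtain ⟨η, h, hη⟩ := exists_isW hm (div_pos e3 hm')
    choose y hy using fun j => X_pow_dvd_iff.2 (hlow j)
    have hy1 : ∀ j, |constantCoeff (y j)| ≤ 1 := by
      intro j
      have e4 := coeff_X_pow_mul (y j) m 0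
      rw [zero_add, ← hy, hco _ _ le_rfl, coeff_zero_eq_constantCoeff_apply] at e4
      rw [← e4]
      exact h2 j
    have hG := apriori h hA (by rwa [mul_div_cancel₀ _ hm'.ne']) (div_pos e3 hm') hη k1 hy hy1 k4
      (fun k => by obtain ⟨q, hq⟩ := k5 k; rw [hq]; exact h.G_coe q) k6
    choose C hC0 hC using fun i => (hG i).coeff_pow_le h (div_pos e3 hm')
      ((one_lt_div e3).2 e2) hη
    refine ⟨∑ i, C i, fun i k => (hC i k).trans ?_⟩
    have e5 : A / A' * (A' / m) = A / m := by field_simp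
    have e6 : 0 < A := by linarith
    rw [e5]
    gcongr
    exact single_le_sum (fun i _ => hC0 i) (mem_univ i)

theorem arc_of (h : A0S ι κ) : ARC ι κ := by
  intro A0 f hA hf hH
  obtain ⟨a, ha, hs, h1⟩ := greenberg (Set.range fun i => MvPowerSeries.pderiv ℝ i f) (sC ι κ)
    (by simp [sC]) fun N => by
      obtain ⟨a, h1, h2, h3⟩ := h A0 f hA hf hH N
      exact ⟨a, h1, h2, by rintro _ ⟨i, rfl⟩; exact h3 i⟩
  obtain ⟨m, γ, h2, h3⟩ := exists_garc hA ha hs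
  exact ⟨m, γ, h2, fun i => h3 _ (hf.pderiv hA i) (h1 _ ⟨i, rfl⟩)⟩

end Vale.Agent.P218G
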