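import Vale.Agent.P218G.Gev

/-!
# P218, Gevrey arcs: estimates for the Taylor remainder along an arc
-/

namespace Vale.Agent.P218G

open PowerSeries Filter Finset Topology

section

variable {σ : Type} [Fintype σ] {η : ℕ → ℝ} {b n : ℕ} {x z : σ → ℝ⟦X⟧} {τ : ℝ⟦X⟧} {μ : ℝ}

/-- second order Taylor expansion with a common factor and a majorant -/
def Tay (η : ℕ → ℝ) (b n : ℕ) (x z : σ → ℝ⟦X⟧) (τ : ℝ⟦X⟧) (μ : ℝ) (p : MvPolynomial σ ℝ)
    (S : ℝ⟦X⟧) (B : ℝ) : Prop :=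
  ∃ F0 F1 F2 : ℝ⟦X⟧,
    MvPolynomial.aeval (fun i => x i + τ * z i) p = S * (F0 + τ * F1 + τ ^ 2 * F2) ∧
    MvPolynomial.aeval x p = S * F0 ∧
    ∑ i, z i * MvPolynomial.aeval x (MvPolynomial.pderiv i p) = S * F1 ∧
    N η b n F0 + μ * N η b n F1 + μ ^ 2 * N η b n F2 ≤ B

theorem Tay.one : Tay η b n x z τ μ 1 1 1 :=
  ⟨1, 0, 0, by simp, by simp, by simp, by simpa [N_zero] using N_one⟩

theorem Tay.mul (h : IsW η) (hμ : 0 ≤ μ) (hτ : N η b n τ ≤ μ) {p q : MvPolynomial σ ℝ}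
    {S S' : ℝ⟦X⟧} {B B' : ℝ} (hp : Tay η b n x z τ μ p S B) (hq : Tay η b n x z τ μ q S' B') :
    Tay η b n x z τ μ (p * q) (S * S') (B * B') := by
  obtain ⟨F0, F1, F2, a1, a2, a3, a4⟩ := hp
  obtain ⟨G0, G1, G2, b1, b2, b3, b4⟩ := hq
  refine ⟨F0 * G0, F0 * G1 + F1 * G0,
    F0 * G2 + F1 * G1 + F2 * G0 + τ * (F1 * G2 + F2 * G1) + τ * (τ * (F2 * G2)), ?_, ?_, ?_, ?_⟩
  · rw [map_mul, a1, b1]
    ring
  · rw [map_mul, a2, b2]
    ring
  · have h1 : ∀ i, z i * MvPolynomial.aeval x (MvPolynomial.pderiv i (p * q)) =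
        MvPolynomial.aeval x p * (z i * MvPolynomial.aeval x (MvPolynomial.pderiv i q)) +
        MvPolynomial.aeval x q * (z i * MvPolynomial.aeval x (MvPolynomial.pderiv i p)) := by
      intro i
      rw [Derivation.leibniz, smul_eq_mul, smul_eq_mul, map_add, map_mul, map_mul]
      ring
    simp only [h1, sum_add_distrib, ← mul_sum]
    rw [a2, a3, b2, b3]
    ring
  · have e0 := h.N_nonneg b n F0
    have e1 := h.N_nonneg b n F1
    have e2 := h.N_nonneg b n F2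
    have f0 := h.N_nonneg b n G0
    have f1 := h.N_nonneg b n G1
    have f2 := h.N_nonneg b n G2
    have k0 : N η b n (F0 * G0) ≤ _ := h.N_mul
    have k1 : N η b n (F0 * G1 + F1 * G0) ≤ _ := h.N_add.trans (add_le_add h.N_mul h.N_mul)
    have k2 : N η b n (F0 * G2 + F1 * G1 + F2 * G0 + τ * (F1 * G2 + F2 * G1) +
        τ * (τ * (F2 * G2))) ≤ _ :=
      h.N_add.trans (add_le_add (h.N_add.trans (add_le_add (h.N_add.trans (add_le_add
        (h.N_add.trans (add_le_add h.N_mul h.N_mul)) h.N_mul))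
        (h.N_mul_le hτ (h.N_add.trans (add_le_add h.N_mul h.N_mul)))))
        (h.N_mul_le hτ (h.N_mul_le hτ h.N_mul)))
    calc _ ≤ (N η b n F0 + μ * N η b n F1 + μ ^ 2 * N η b n F2) *
          (N η b n G0 + μ * N η b n G1 + μ ^ 2 * N η b n G2) := by
          have k3 := mul_le_mul_of_nonneg_left k1 hμ
          have k4 := mul_le_mul_of_nonneg_left k2 (sq_nonneg μ)
          linarith
      _ ≤ B * B' := mul_le_mul a4 b4 (by positivity) (le_trans (by positivity) a4)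

theorem Tay.X {i : σ} {s y v : ℝ⟦X⟧} {r : ℝ} (hx : x i = s * y) (hz : z i = s * v)
    (hr : N η b n y + μ * N η b n v ≤ r) : Tay η b n x z τ μ (MvPolynomial.X i) s r := by
  classical
  refine ⟨y, v, 0, ?_, ?_, ?_, by simpa [N_zero] using hr⟩
  · rw [MvPolynomial.aeval_X, hx, hz]
    ring
  · rw [MvPolynomial.aeval_X, hx]
  · rw [sum_eq_single i]
    · simp [hz]
    · intro j _ hj
      rw [MvPolynomial.pderiv_X_of_ne (Ne.symm hj)]
      simp
    · simp

theorem Tay.monomial (h : IsW η) (hμ : 0 ≤ μ) (hτ : N η b n τ ≤ μ) {s : σ → ℝ⟦X⟧} {r : σ → ℝ}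
    (hX : ∀ i, Tay η b n x z τ μ (MvPolynomial.X i) (s i) (r i)) (d : σ →₀ ℕ) :
    Tay η b n x z τ μ (MvPolynomial.monomial d 1) (∏ i, s i ^ d i) (∏ i, r i ^ d i) := by
  classical
  have h1 : ∀ i (k : ℕ), Tay η b n x z τ μ (MvPolynomial.X i ^ k) (s i ^ k) (r i ^ k) := by
    intro i k
    induction k with
    | zero => simpa using Tay.one
    | succ k ih => simpa only [pow_succ] using ih.mul h hμ hτ (hX i)
  have h2 : ∀ T : Finset σ, Tay η b n x z τ μ (∏ i ∈ T, MvPolynomial.X i ^ d i)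
      (∏ i ∈ T, s i ^ d i) (∏ i ∈ T, r i ^ d i) := by
    intro T
    induction T using Finset.induction_on with
    | empty => simpa using Tay.one
    | insert a T ha ih => simpa only [prod_insert ha] using (h1 a _).mul h hμ hτ ih
  have h3 : (MvPolynomial.monomial d 1 : MvPolynomial σ ℝ) = ∏ i, MvPolynomial.X i ^ d i := by
    rw [MvPolynomial.monomial_eq, map_one, one_mul, Finsupp.prod_fintype _ _ (by simp)]
  rw [h3]
  exact h2 univ

theorem rem_poly (h : IsW η) {β : (σ →₀ ℕ) → ℝ} {S : (σ →₀ ℕ) → ℝ⟦X⟧} {B : (σ →₀ ℕ) → ℝ}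
    (hμ : 0 ≤ μ) (hT : ∀ d, Tay η b n x z τ μ (MvPolynomial.monomial d 1) (S d) (B d))
    (hS : ∀ d F, N η b n (S d * F) * B d ≤ N η b n F * β d) (hB : ∀ d, 0 < B d)
    (hβ : ∀ d, 0 ≤ β d) (p : MvPolynomial σ ℝ) :
    N η b n (MvPolynomial.aeval x p) ≤ ∑ d ∈ p.support, |p.coeff d| * β d ∧
    ∃ r, MvPolynomial.aeval (fun i => x i + τ * z i) p - MvPolynomial.aeval x p -
      τ * ∑ i, z i * MvPolynomial.aeval x (MvPolynomial.pderiv i p) = τ ^ 2 * r ∧
      μ ^ 2 * N η b n r ≤ ∑ d ∈ p.support, |p.coeff d| * β d := by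
  choose F0 F1 F2 a1 a2 a3 a4 using hT
  have hp : p = ∑ d ∈ p.support, MvPolynomial.C (p.coeff d) * MvPolynomial.monomial d 1 := by
    simp only [MvPolynomial.C_mul_monomial, mul_one]
    exact p.as_sum
  have hC : ∀ c : ℝ, algebraMap ℝ ℝ⟦X⟧ c = C c := fun c => rfl
  have k0 : ∀ d, N η b n (S d * F0 d) ≤ β d := by
    intro d
    have e1 := mul_nonneg hμ (h.N_nonneg b n (F1 d))
    have e2 := mul_nonneg (sq_nonneg μ) (h.N_nonneg b n (F2 d))
    refine le_of_mul_le_mul_right ((hS d _).trans ?_) (hB d)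
    rw [mul_comm (β d)]
    exact mul_le_mul_of_nonneg_right (by linarith [a4 d]) (hβ d)
  have k2 : ∀ d, μ ^ 2 * N η b n (S d * F2 d) ≤ β d := by
    intro d
    have e0 := h.N_nonneg b n (F0 d)
    have e1 := mul_nonneg hμ (h.N_nonneg b n (F1 d))
    refine le_of_mul_le_mul_right ?_ (hB d)
    rw [mul_assoc]
    refine (mul_le_mul_of_nonneg_left (hS d _) (sq_nonneg μ)).trans ?_
    rw [← mul_assoc, mul_comm (β d)]
    exact mul_le_mul_of_nonneg_right (by linarith [a4 d]) (hβ d)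
  refine ⟨?_, ∑ d ∈ p.support, C (p.coeff d) * (S d * F2 d), ?_, ?_⟩
  · conv_lhs => rw [hp]
    simp only [map_sum, map_mul, MvPolynomial.aeval_C, a2, hC]
    refine (h.N_sum _ _).trans (sum_le_sum fun d _ => ?_)
    rw [N_C_mul]
    exact mul_le_mul_of_nonneg_left (k0 d) (abs_nonneg _)
  · conv_lhs => rw [hp]
    simp only [map_sum, MvPolynomial.pderiv_C_mul, map_mul, MvPolynomial.aeval_C, a1, a2, hC,
      mul_sum]
    rw [sum_comm, ← sum_sub_distrib, ← sum_sub_distrib]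
    refine sum_congr rfl fun d _ => ?_
    have h1 : ∑ i, τ * (z i * (C (p.coeff d) *
        MvPolynomial.aeval x (MvPolynomial.pderiv i (MvPolynomial.monomial d (1 : ℝ))))) =
        τ * C (p.coeff d) * (S d * F1 d) := by
      rw [← a3, mul_sum]
      exact sum_congr rfl fun i _ => by ring
    rw [h1]
    ring
  · refine (mul_le_mul_of_nonneg_left (h.N_sum _ _) (sq_nonneg μ)).trans ?_
    rw [mul_sum]
    refine sum_le_sum fun d _ => ?_
    rw [N_C_mul, mul_left_comm]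
    exact mul_le_mul_of_nonneg_left (k2 d) (abs_nonneg _)

end

variable {ι κ : Type} [Fintype ι] [Fintype κ] {η : ℕ → ℝ} {b n m E : ℕ}
  {x z : ι ⊕ κ → ℝ⟦X⟧} {y v : κ → ℝ⟦X⟧} {μ ρ θ A1 M : ℝ} {f : MvPowerSeries (ι ⊕ κ) ℝ}

theorem est (h : IsW η) (hμ : 0 ≤ μ) (hρ : 0 < ρ) (hθ : 0 < θ) (hA1 : 0 < A1) (hE : 0 < E)
    (hτ : N η b n (X ^ E) ≤ μ) (hW : ∀ k, A1 ^ k * k.factorial ≤ W η b (m * k))
    (hM : ∀ T : Finset (ι ⊕ κ →₀ ℕ), ∑ d ∈ T, |MvPowerSeries.coeff d f| * (ρ ^ dA d * θ ^ dC d) /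
      (A1 ^ dC d * (dC d).factorial) ≤ M) (hx : Z0 x)
    (ha : ∀ i, N η b n (x (Sum.inl i)) + μ * N η b n (z (Sum.inl i)) ≤ ρ)
    (hy : ∀ j, x (Sum.inr j) = X ^ m * y j) (hv : ∀ j, z (Sum.inr j) = X ^ m * v j)
    (hc : ∀ j, N η b n (y j) + μ * N η b n (v j) ≤ θ) :
    N η b n (ev x f) ≤ M ∧ ∀ r, ev (fun i => x i + X ^ E * z i) f - ev x f -
      X ^ E * ∑ i, z i * ev x (MvPowerSeries.pderiv ℝ i f) = X ^ (2 * E) * r →
      μ ^ 2 * N η b n r ≤ M := by
  have hT : ∀ d, Tay η b n x z (X ^ E) μ (MvPolynomial.monomial d 1) (X ^ (m * dC d))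
      (ρ ^ dA d * θ ^ dC d) := by
    intro d
    have h1 := Tay.monomial h hμ hτ (s := Sum.elim (fun _ => 1) fun _ => X ^ m)
      (r := Sum.elim (fun _ => ρ) fun _ => θ) (x := x) (z := z) (by
        rintro (i | j)
        · exact Tay.X (one_mul _).symm (one_mul _).symm (ha i)
        · exact Tay.X (hy j) (hv j) (hc j)) d
    rwa [prod_elim, prod_elim, one_pow, one_mul, ← pow_mul] at h1
  set p : MvPolynomial (ι ⊕ κ) ℝ := f.truncTotal (2 * E + n + 1) with hp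
  have hg : Ord (2 * E + n + 1) (f - (p : MvPowerSeries (ι ⊕ κ) ℝ)) := ord_sub_trunc _ _
  obtain ⟨k1, r', k2, k3⟩ := rem_poly h (β := fun d => ρ ^ dA d * θ ^ dC d /
    (A1 ^ dC d * (dC d).factorial)) hμ hT (by
      intro d F
      have h1 := h.N_X_pow_mul_le (b := b) (n := n) (u := F) (m * dC d)
      have h2 := div_le_div_of_nonneg_left (h.N_nonneg b n F) (by positivity) (hW (dC d))
      refine (mul_le_mul_of_nonneg_right (h1.trans h2) (by positivity)).trans (le_of_eq ?_)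
      ring) (fun d => by positivity) (fun d => by positivity) p
  have k4 : ∑ d ∈ p.support, |p.coeff d| * (ρ ^ dA d * θ ^ dC d /
      (A1 ^ dC d * (dC d).factorial)) ≤ M := by
    refine le_trans (sum_le_sum fun d _ => ?_) (hM p.support)
    rw [mul_div_assoc |MvPowerSeries.coeff d f|]
    refine mul_le_mul_of_nonneg_right ?_ (by positivity)
    rw [hp, MvPowerSeries.coeff_truncTotal_eq_ite]
    split_ifs
    · exact le_rfl
    · simp
  have hx' := hx.add_mul hE z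
  refine ⟨le_trans (le_of_eq (N_congr ?_)) (k1.trans k4), fun r hr => ?_⟩
  · rw [← ev_coe, ← ev_sub hx]
    exact (hg.mono (by omega)).dvd_ev hx
  · refine le_trans (le_of_eq ?_) (k3.trans k4)
    rw [N_congr (u := r) (v := r')]
    have e1 := (hg.mono (Nat.le_succ _)).dvd_ev hx'
    have e2 := (hg.mono (Nat.le_succ _)).dvd_ev hx
    have e3 : (X : ℝ⟦X⟧) ^ (2 * E + n) ∣ X ^ E * ∑ i, z i *
        ev x (MvPowerSeries.pderiv ℝ i (f - (p : MvPowerSeries (ι ⊕ κ) ℝ))) :=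
      (dvd_sum fun i _ => ((hg.pderiv i).dvd_ev hx).mul_left _).mul_left _
    obtain ⟨e, he⟩ := dvd_sub (dvd_sub e1 e2) e3
    refine ⟨e, X_pow_mul_cancel (k := 2 * E) ?_⟩
    simp only [map_sub, ev_sub hx, ev_sub hx', MvPowerSeries.pderiv_coe, ev_coe, mul_sub,
      sum_sub_distrib] at he
    linear_combination he - hr + k2

end Vale.Agent.P218G
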