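import Mathlib

/-!
# P218, formal arcs: evaluation of power series along arcs, Taylor formula, Newton method
-/

namespace Vale.Agent.P218G

open PowerSeries

section

variable {σ : Type} [Fintype σ] {K S : Type} [CommRing K] [CommRing S] [Algebra K S]

/-- arcs through the origin -/
def Z0 (a : σ → S⟦X⟧) : Prop := ∀ i, constantCoeff (a i) = 0

/-- the value of a power series along an arc -/
noncomputable def ev (a : σ → S⟦X⟧) (f : MvPowerSeries σ K) : S⟦X⟧ := MvPowerSeries.subst a f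

theorem Z0.hasSubst {a : σ → S⟦X⟧} (ha : Z0 a) : MvPowerSeries.HasSubst a :=
  MvPowerSeries.hasSubst_of_constantCoeff_zero ha

/-- evaluation along an arc as a homomorphism -/
noncomputable def evh {a : σ → S⟦X⟧} (ha : Z0 a) : MvPowerSeries σ K →ₐ[K] S⟦X⟧ :=
  MvPowerSeries.substAlgHom ha.hasSubst

theorem evh_apply {a : σ → S⟦X⟧} (ha : Z0 a) (f : MvPowerSeries σ K) : evh ha f = ev a f :=
  MvPowerSeries.substAlgHom_apply ha.hasSubst f

variable {a : σ → S⟦X⟧}

theorem ev_add (ha : Z0 a) (f g : MvPowerSeries σ K) : ev a (f + g) = ev a f + ev a g := by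
  simp only [← evh_apply ha, map_add]

theorem ev_sub (ha : Z0 a) (f g : MvPowerSeries σ K) : ev a (f - g) = ev a f - ev a g := by
  simp only [← evh_apply ha, map_sub]

theorem ev_mul (ha : Z0 a) (f g : MvPowerSeries σ K) : ev a (f * g) = ev a f * ev a g := by
  simp only [← evh_apply ha, map_mul]

theorem ev_pow (ha : Z0 a) (f : MvPowerSeries σ K) (n : ℕ) : ev a (f ^ n) = ev a f ^ n := by
  simp only [← evh_apply ha, map_pow]

theorem ev_zero (ha : Z0 a) : ev a (0 : MvPowerSeries σ K) = 0 := by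
  simp only [← evh_apply ha, map_zero]

theorem ev_one (ha : Z0 a) : ev a (1 : MvPowerSeries σ K) = 1 := by
  simp only [← evh_apply ha, map_one]

theorem ev_sum (ha : Z0 a) {ι : Type} (s : Finset ι) (f : ι → MvPowerSeries σ K) :
    ev a (∑ i ∈ s, f i) = ∑ i ∈ s, ev a (f i) := by
  simp only [← evh_apply ha, map_sum]

theorem ev_X (ha : Z0 a) (i : σ) : ev a (MvPowerSeries.X i : MvPowerSeries σ K) = a i :=
  MvPowerSeries.subst_X ha.hasSubst i

omit [Fintype σ] in
theorem ev_coe (a : σ → S⟦X⟧) (p : MvPolynomial σ K) :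
    ev a (p : MvPowerSeries σ K) = MvPolynomial.aeval a p :=
  MvPowerSeries.subst_coe p

/-- vanishing to order `L` -/
def Ord (L : ℕ) (f : MvPowerSeries σ K) : Prop :=
  ∀ d : σ →₀ ℕ, d.degree < L → MvPowerSeries.coeff d f = 0

theorem ord_sub_trunc (L : ℕ) (f : MvPowerSeries σ K) :
    Ord L (f - ((f.truncTotal L : MvPolynomial σ K) : MvPowerSeries σ K)) := by
  intro d hd
  rw [map_sub, MvPolynomial.coeff_coe, MvPowerSeries.coeff_truncTotal _ hd, sub_self]

omit [Fintype σ] in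
theorem Ord.pderiv {L : ℕ} {f : MvPowerSeries σ K} (h : Ord (L + 1) f) (i : σ) :
    Ord L (MvPowerSeries.pderiv K i f) := by
  intro d hd
  rw [MvPowerSeries.coeff_pderiv, h, zero_mul]
  rw [map_add, Finsupp.degree_single]
  omega

omit [Fintype σ] in
theorem Ord.mono {L L' : ℕ} {f : MvPowerSeries σ K} (h : Ord L f) (hL : L' ≤ L) : Ord L' f :=
  fun d hd => h d (hd.trans_le hL)

omit [Fintype σ] in
theorem Z0.dvd_prod (ha : Z0 a) (d : σ →₀ ℕ) :
    (X : S⟦X⟧) ^ d.degree ∣ d.prod fun s e => a s ^ e := by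
  rw [Finsupp.degree_apply, Finsupp.prod, ← Finset.prod_pow_eq_pow_sum]
  exact Finset.prod_dvd_prod_of_dvd _ _ fun i _ => pow_dvd_pow_of_dvd (X_dvd_iff.2 (ha i)) _

theorem Ord.dvd_ev {L : ℕ} {f : MvPowerSeries σ K} (h : Ord L f) (ha : Z0 a) :
    (X : S⟦X⟧) ^ L ∣ ev a f := by
  rw [X_pow_dvd_iff]
  intro m hm
  have h1 := MvPowerSeries.coeff_subst ha.hasSubst f (Finsupp.single () m)
  change MvPowerSeries.coeff (Finsupp.single () m) (MvPowerSeries.subst a f) = 0
  rw [h1, finsum_eq_zero_of_forall_eq_zero]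
  intro d
  by_cases hd : d.degree < L
  · rw [h d hd, zero_smul]
  · have h2 := X_pow_dvd_iff.1 (ha.dvd_prod d) m (by omega)
    have h3 : MvPowerSeries.coeff (Finsupp.single () m) (d.prod fun s e => a s ^ e) = 0 := h2
    rw [h3, smul_zero]

/-- approximation by polynomials -/
theorem exists_approx (f : MvPowerSeries σ K) (L : ℕ) :
    ∃ (p : MvPolynomial σ K) (g : MvPowerSeries σ K), f = p + g ∧ Ord L g :=
  ⟨f.truncTotal L, _, (add_sub_cancel _ _).symm, ord_sub_trunc L f⟩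

theorem eq_zero_of_dvd {f : S⟦X⟧} (h : ∀ n, (X : S⟦X⟧) ^ n ∣ f) : f = 0 := by
  ext n
  exact X_pow_dvd_iff.1 (h (n + 1)) n (by omega)

omit [Fintype σ] in
theorem aeval_sub_dvd {R : Type} [CommRing R] [Algebra K R] {b c : σ → R} {τ : R}
    (h : ∀ i, τ ∣ b i - c i) (p : MvPolynomial σ K) :
    τ ∣ MvPolynomial.aeval b p - MvPolynomial.aeval c p := by
  induction p using MvPolynomial.induction_on with
  | C r => simp
  | add p q hp hq =>
    have h1 := dvd_add hp hq
    rw [map_add, map_add]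
    rwa [← add_sub_add_comm] at h1
  | mul_X p j hp =>
    rw [map_mul, map_mul, MvPolynomial.aeval_X, MvPolynomial.aeval_X]
    have h1 : MvPolynomial.aeval b p * b j - MvPolynomial.aeval c p * c j =
        (MvPolynomial.aeval b p - MvPolynomial.aeval c p) * b j +
          MvPolynomial.aeval c p * (b j - c j) := by ring
    rw [h1]
    exact dvd_add (hp.mul_right _) ((h j).mul_left _)

theorem ev_sub_dvd {b : σ → S⟦X⟧} (ha : Z0 a) (hb : Z0 b) {n : ℕ}
    (h : ∀ i, (X : S⟦X⟧) ^ n ∣ a i - b i) (f : MvPowerSeries σ K) :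
    (X : S⟦X⟧) ^ n ∣ ev a f - ev b f := by
  obtain ⟨p, g, rfl, hg⟩ := exists_approx f n
  rw [ev_add ha, ev_add hb, ev_coe, ev_coe, add_sub_add_comm]
  exact dvd_add (aeval_sub_dvd h p) (dvd_sub (hg.dvd_ev ha) (hg.dvd_ev hb))

theorem aeval_taylor {R : Type} [CommRing R] [Algebra K R] (x v w : σ → R) (τ ρ : R)
    (h : ∀ i, ρ ∣ v i - w i) (p : MvPolynomial σ K) :
    τ ^ 2 * ρ ∣ MvPolynomial.aeval (fun i => x i + τ * v i) p -
      MvPolynomial.aeval (fun i => x i + τ * w i) p -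
      τ * ∑ i, (v i - w i) * MvPolynomial.aeval x (MvPolynomial.pderiv i p) := by
  classical
  induction p using MvPolynomial.induction_on with
  | C r => simp
  | add p q hp hq =>
    have h1 := dvd_add hp hq
    simp only [map_add, mul_add, Finset.sum_add_distrib]
    refine (dvd_iff_dvd_of_dvd_sub ?_).1 h1
    ring_nf
    exact dvd_zero _
  | mul_X p j hp =>
    obtain ⟨e, he⟩ : τ ∣ MvPolynomial.aeval (fun i => x i + τ * w i) p - MvPolynomial.aeval x p :=
      aeval_sub_dvd (fun i => ⟨w i, by ring⟩) p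
    obtain ⟨s, hs⟩ : ρ ∣ ∑ i, (v i - w i) * MvPolynomial.aeval x (MvPolynomial.pderiv i p) :=
      Finset.dvd_sum fun i _ => (h i).mul_right _
    obtain ⟨u, hu⟩ := h j
    obtain ⟨E, hE⟩ := hp
    have h1 : ∑ i, (v i - w i) * MvPolynomial.aeval x (MvPolynomial.pderiv i (p * MvPolynomial.X j))
        = (∑ i, (v i - w i) * MvPolynomial.aeval x (MvPolynomial.pderiv i p)) * x j +
          (v j - w j) * MvPolynomial.aeval x p := by
      simp only [Derivation.leibniz, smul_eq_mul, map_add, map_mul, MvPolynomial.aeval_X, mul_add,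
        Finset.sum_add_distrib, Finset.sum_mul]
      rw [add_comm]
      congr 1
      · exact Finset.sum_congr rfl fun i _ => by ring
      · rw [Finset.sum_eq_single j]
        · simp
        · intro i _ hij
          rw [MvPolynomial.pderiv_X_of_ne (Ne.symm hij)]
          simp
        · simp
    rw [h1, map_mul, map_mul, MvPolynomial.aeval_X, MvPolynomial.aeval_X, hs, hu]
    rw [hs] at hE
    refine ⟨E * (x j + τ * v j) + s * v j + u * e, ?_⟩
    have h2 : v j = w j + ρ * u := by rw [← hu]; ring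
    rw [h2]
    linear_combination (x j + τ * (w j + ρ * u)) * hE + τ * ρ * u * he

omit [Fintype σ] in
theorem Z0.add_mul (ha : Z0 a) {D : ℕ} (hD : 0 < D) (v : σ → S⟦X⟧) :
    Z0 fun i => a i + X ^ D * v i := by
  intro i
  rw [map_add, map_mul, map_pow, constantCoeff_X, ha i, zero_pow hD.ne', zero_mul, add_zero]

/-- Taylor formula of second order along arcs, in Lipschitz form -/
theorem ev_taylor (ha : Z0 a) {D : ℕ} (hD : 0 < D) (v w : σ → S⟦X⟧) {n : ℕ}
    (h : ∀ i, (X : S⟦X⟧) ^ n ∣ v i - w i) (f : MvPowerSeries σ K) :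
    (X : S⟦X⟧) ^ (2 * D + n) ∣ ev (fun i => a i + X ^ D * v i) f -
      ev (fun i => a i + X ^ D * w i) f -
      X ^ D * ∑ i, (v i - w i) * ev a (MvPowerSeries.pderiv K i f) := by
  obtain ⟨p, g, rfl, hg⟩ := exists_approx f (2 * D + n + 1)
  have h1 := aeval_taylor a v w (X ^ D) (X ^ n) h p
  rw [← pow_mul, ← pow_add, mul_comm D 2] at h1
  have h2 := (hg.mono (Nat.le_succ _)).dvd_ev (ha.add_mul hD v)
  have h3 := (hg.mono (Nat.le_succ _)).dvd_ev (ha.add_mul hD w)
  have h4 : (X : S⟦X⟧) ^ (2 * D + n) ∣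
      X ^ D * ∑ i, (v i - w i) * ev a (MvPowerSeries.pderiv K i g) :=
    (Finset.dvd_sum fun i _ => ((hg.pderiv i).dvd_ev ha).mul_left _).mul_left _
  have h5 := dvd_add h1 (dvd_sub (dvd_sub h2 h3) h4)
  rw [ev_add (ha.add_mul hD v), ev_add (ha.add_mul hD w), ev_coe, ev_coe]
  simp only [map_add, ev_add ha, MvPowerSeries.pderiv_coe, ev_coe, mul_add,
    Finset.sum_add_distrib]
  refine (dvd_iff_dvd_of_dvd_sub ?_).1 h5
  ring_nf
  exact dvd_zero _

/-- formal contractions have a fixed point -/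
theorem exists_fix {ι : Type} (Φ : (ι → S⟦X⟧) → ι → S⟦X⟧)
    (h : ∀ (n : ℕ) (v w : ι → S⟦X⟧), (∀ i, (X : S⟦X⟧) ^ n ∣ v i - w i) →
      ∀ i, (X : S⟦X⟧) ^ (n + 1) ∣ Φ v i - Φ w i) : ∃ v, Φ v = v := by
  let u : ℕ → ι → S⟦X⟧ := fun n => Φ^[n] 0
  have hu : ∀ n, u (n + 1) = Φ (u n) := fun n => Function.iterate_succ_apply' Φ n 0
  have h1 : ∀ n i, (X : S⟦X⟧) ^ n ∣ u (n + 1) i - u n i := by
    intro n
    induction n with
    | zero => intro i; simp
    | succ n ih =>
      intro i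
      have := h n _ _ ih i
      rwa [← hu, ← hu] at this
  have h2 : ∀ n k i, (X : S⟦X⟧) ^ n ∣ u (n + k) i - u n i := by
    intro n k i
    induction k with
    | zero => simp
    | succ k ih =>
      have h3 := dvd_add ((pow_dvd_pow X (Nat.le_add_right n k)).trans (h1 (n + k) i)) ih
      rwa [sub_add_sub_cancel] at h3
  let v : ι → S⟦X⟧ := fun i => mk fun k => coeff k (u (k + 1) i)
  have h3 : ∀ n i, (X : S⟦X⟧) ^ n ∣ v i - u n i := by
    intro n i
    rw [X_pow_dvd_iff]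
    intro m hm
    obtain ⟨k, rfl⟩ := Nat.exists_eq_add_of_le (Nat.succ_le_of_lt hm)
    have h4 := X_pow_dvd_iff.1 (h2 (m + 1) k i) m (by omega)
    rw [map_sub] at h4 ⊢
    simp only [v, coeff_mk]
    rw [sub_eq_zero] at h4 ⊢
    exact h4.symm
  refine ⟨v, funext fun i => sub_eq_zero.1 (eq_zero_of_dvd fun n => ?_)⟩
  have h4 := dvd_sub (h n _ _ (h3 n) i) (h3 (n + 1) i)
  rw [← hu] at h4
  have h5 : Φ v i - u (n + 1) i - (v i - u (n + 1) i) = Φ v i - v i := by ring
  rw [h5] at h4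
  exact (pow_dvd_pow X (Nat.le_succ n)).trans h4

/-- Newton method: `N` is a right inverse of the Jacobian matrix up to the factor `X ^ d` -/
theorem newton [DecidableEq σ] (ha : Z0 a) (H : σ → MvPowerSeries σ K) (N : σ → σ → S⟦X⟧)
    {d D : ℕ} (hD : d < D)
    (hN : ∀ k l, ∑ i, N i l * ev a (MvPowerSeries.pderiv K i (H k)) =
      if k = l then X ^ d else 0) (u : σ → S⟦X⟧) :
    ∃ v : σ → S⟦X⟧, ∀ k,
      ev (fun i => a i + X ^ D * v i) (H k) = ev a (H k) + X ^ (D + d) * u k := by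
  have hD0 : 0 < D := by omega
  have h0 : ∀ (v : σ → S⟦X⟧) (k : σ), ∃ r : S⟦X⟧, ev (fun i => a i + X ^ D * v i) (H k) -
      ev a (H k) - X ^ D * ∑ i, v i * ev a (MvPowerSeries.pderiv K i (H k)) = X ^ (2 * D) * r := by
    intro v k
    have := ev_taylor ha hD0 v 0 (n := 0) (fun i => by simp) (H k)
    simp only [Pi.zero_apply, mul_zero, add_zero, sub_zero] at this
    exact this
  choose r hr using h0
  have hlip : ∀ (n : ℕ) (v w : σ → S⟦X⟧), (∀ i, (X : S⟦X⟧) ^ n ∣ v i - w i) →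
      ∀ k, (X : S⟦X⟧) ^ n ∣ r v k - r w k := by
    intro n v w hvw k
    obtain ⟨e, he⟩ := ev_taylor ha hD0 v w hvw (H k)
    refine ⟨e, X_pow_mul_cancel (k := 2 * D) ?_⟩
    rw [mul_sub, ← hr, ← hr, ← mul_assoc, ← pow_add, ← he]
    simp only [sub_mul, Finset.sum_sub_distrib]
    ring
  let L : (σ → S⟦X⟧) → σ → S⟦X⟧ := fun w i => ∑ l, N i l * w l
  obtain ⟨e, rfl⟩ := Nat.exists_eq_add_of_lt hD
  obtain ⟨w, hw⟩ := exists_fix (fun w k => u k - X ^ (e + 1) * r (L w) k) (by
    intro n v w hvw k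
    have h1 : ∀ i, (X : S⟦X⟧) ^ n ∣ L v i - L w i := by
      intro i
      simp only [L]
      rw [← Finset.sum_sub_distrib]
      refine Finset.dvd_sum fun l _ => ?_
      rw [← mul_sub]
      exact (hvw l).mul_left _
    obtain ⟨c, hc⟩ := hlip n _ _ h1 k
    refine ⟨-(X ^ e * c), ?_⟩
    linear_combination (-X ^ (e + 1)) * hc)
  refine ⟨L w, fun k => ?_⟩
  have h1 : ∑ i, L w i * ev a (MvPowerSeries.pderiv K i (H k)) = X ^ d * w k := by
    simp only [L, Finset.sum_mul]
    rw [Finset.sum_comm]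
    have h2 : ∀ l, ∑ i, N i l * w l * ev a (MvPowerSeries.pderiv K i (H k)) =
        (if k = l then X ^ d else 0) * w l := by
      intro l
      rw [← hN, Finset.sum_mul]
      exact Finset.sum_congr rfl fun i _ => by ring
    simp only [h2, ite_mul, zero_mul, Finset.sum_ite_eq, Finset.mem_univ, if_true]
  have h2 := hr (L w) k
  have h3 : u k - X ^ (e + 1) * r (L w) k = w k := congrFun hw k
  rw [h1] at h2
  linear_combination h2 - X ^ (d + e + 1 + d) * h3

end

end Vale.Agent.P218G
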