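import Vale.Agent.P218G.Wt

/-!
# P218, Gevrey arcs: the ring of series that are convergent in `a` and Gevrey in `c`
-/

namespace Vale.Agent.P218G

open Filter Finset Topology

variable {ι κ : Type} [Fintype ι] [Fintype κ]

/-- degree in the first group of variables -/
def dA (d : ι ⊕ κ →₀ ℕ) : ℕ := ∑ i, d (Sum.inl i)

/-- degree in the second group of variables -/
def dC (d : ι ⊕ κ →₀ ℕ) : ℕ := ∑ j, d (Sum.inr j)

/-- convergent in the first group of variables, Gevrey of order one and type at most `A0` in the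
second group -/
def Gev (A0 : ℝ) (f : MvPowerSeries (ι ⊕ κ) ℝ) : Prop :=
  ∀ A, A0 < A → ∃ C R : ℝ, 0 < R ∧ ∀ d, |MvPowerSeries.coeff d f| ≤
    C * R ^ dA d * A ^ dC d * (dC d).factorial

omit [Fintype κ] in
theorem dA_add (d e : ι ⊕ κ →₀ ℕ) : dA (d + e) = dA d + dA e := by
  simp [dA, sum_add_distrib]

omit [Fintype ι] in
theorem dC_add (d e : ι ⊕ κ →₀ ℕ) : dC (d + e) = dC d + dC e := by
  simp [dC, sum_add_distrib]

theorem prod_elim {M : Type} [CommMonoid M] (x y : M) (d : ι ⊕ κ →₀ ℕ) :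
    ∏ i, Sum.elim (fun _ => x) (fun _ => y) i ^ d i = x ^ dA d * y ^ dC d := by
  rw [Fintype.prod_sum_type, dA, dC, ← prod_pow_eq_pow_sum, ← prod_pow_eq_pow_sum]
  rfl

theorem geo {σ : Type} [Fintype σ] {x : σ → ℝ} (h0 : ∀ i, 0 ≤ x i) (h1 : ∀ i, x i < 1)
    (T : Finset (σ →₀ ℕ)) : ∑ d ∈ T, ∏ i, x i ^ d i ≤ ∏ i, (1 - x i)⁻¹ := by
  classical
  obtain ⟨n, hn⟩ : ∃ n, ∀ d ∈ T, ∀ i, d i < n := by
    refine ⟨(T.sup fun d => univ.sup d) + 1, fun d hd i => Nat.lt_succ_of_le ?_⟩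
    exact (le_sup (f := d) (mem_univ i)).trans (le_sup (f := fun d : σ →₀ ℕ => univ.sup d) hd)
  calc ∑ d ∈ T, ∏ i, x i ^ d i = ∑ e ∈ T.image (fun d : σ →₀ ℕ => (d : σ → ℕ)), ∏ i, x i ^ e i := by
        rw [sum_image fun a _ b _ h => DFunLike.coe_injective h]
    _ ≤ ∑ e ∈ Fintype.piFinset fun _ : σ => range n, ∏ i, x i ^ e i := by
        refine sum_le_sum_of_subset_of_nonneg (fun e he => ?_)
          fun e _ _ => prod_nonneg fun i _ => pow_nonneg (h0 i) _
        obtain ⟨d, hd, rfl⟩ := mem_image.1 he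
        exact Fintype.mem_piFinset.2 fun i => mem_range.2 (hn d hd i)
    _ = ∏ i, ∑ j ∈ range n, x i ^ j := (prod_univ_sum _ fun i j => x i ^ j).symm
    _ ≤ ∏ i, (1 - x i)⁻¹ := by
        refine prod_le_prod (fun i _ => sum_nonneg fun j _ => pow_nonneg (h0 i) _) fun i _ => ?_
        rw [← tsum_geometric_of_lt_one (h0 i) (h1 i)]
        exact (summable_geometric_of_lt_one (h0 i) (h1 i)).sum_le_tsum _
          fun j _ => pow_nonneg (h0 i) _

theorem geo2 {x y : ℝ} (hx0 : 0 ≤ x) (hx : x < 1) (hy0 : 0 ≤ y) (hy : y < 1) :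
    ∃ M : ℝ, ∀ T : Finset (ι ⊕ κ →₀ ℕ), ∑ d ∈ T, x ^ dA d * y ^ dC d ≤ M := by
  refine ⟨∏ i : ι ⊕ κ, (1 - Sum.elim (fun _ => x) (fun _ => y) i)⁻¹, fun T => ?_⟩
  simp only [← prod_elim]
  exact geo (by rintro (i | i) <;> simpa) (by rintro (i | i) <;> simpa) T

theorem lin_le {θ : ℝ} (hθ : 1 < θ) : ∃ c : ℝ, 0 < c ∧ ∀ k : ℕ, (k + 1 : ℝ) ≤ c * θ ^ k := by
  refine ⟨1 + (θ - 1)⁻¹, by have := sub_pos.2 hθ; positivity, fun k => ?_⟩
  have h1 := one_add_mul_sub_le_pow (by linarith : -1 ≤ θ) k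
  have h2 : 0 < θ - 1 := sub_pos.2 hθ
  have h3 : (k : ℝ) ≤ (θ - 1)⁻¹ * θ ^ k := by
    rw [inv_mul_eq_div, le_div_iff₀ h2]
    linarith
  have h4 : 1 ≤ θ ^ k := one_le_pow₀ hθ.le
  linarith

variable {A0 : ℝ} {f g : MvPowerSeries (ι ⊕ κ) ℝ}

theorem C_nonneg {A C R : ℝ} (h : ∀ d, |MvPowerSeries.coeff d f| ≤
    C * R ^ dA d * A ^ dC d * (dC d).factorial) : 0 ≤ C := by
  have := (abs_nonneg _).trans (h 0)
  simpa [dA, dC] using this

theorem Gev.add (hA : 0 ≤ A0) (hf : Gev A0 f) (hg : Gev A0 g) : Gev A0 (f + g) := by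
  intro A hA'
  obtain ⟨C, R, hR, h1⟩ := hf A hA'
  obtain ⟨C', R', hR', h2⟩ := hg A hA'
  refine ⟨C + C', R + R', by positivity, fun d => ?_⟩
  have hC := C_nonneg h1
  have hC' := C_nonneg h2
  have hA1 : 0 < A := by linarith
  rw [map_add]
  refine (abs_add_le _ _).trans ((add_le_add (h1 d) (h2 d)).trans ?_)
  rw [add_mul, add_mul, add_mul]
  gcongr <;> linarith

theorem gev_monomial (hA : 0 ≤ A0) (e : ι ⊕ κ →₀ ℕ) (c : ℝ) :
    Gev A0 (MvPowerSeries.monomial e c) := by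
  classical
  intro A hA'
  have hA1 : 0 < A := by linarith
  refine ⟨|c| / (A ^ dC e * (dC e).factorial), 1, one_pos, fun d => ?_⟩
  rw [MvPowerSeries.coeff_monomial]
  split_ifs with h
  · subst h
    apply le_of_eq
    field_simp
    simp
  · rw [abs_zero]
    positivity

theorem Gev.mul (hA : 0 ≤ A0) (hf : Gev A0 f) (hg : Gev A0 g) : Gev A0 (f * g) := by
  classical
  intro A hA'
  obtain ⟨A', hA2, hA3⟩ := exists_between hA'
  have h0 : 0 < A' := by linarith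
  have hA1 : 0 < A := by linarith
  obtain ⟨C, R, hR, h1⟩ := hf A' (by linarith)
  obtain ⟨C', R', hR', h2⟩ := hg A' (by linarith)
  have hC := C_nonneg h1
  have hC' := C_nonneg h2
  obtain ⟨M, hM⟩ := geo2 (ι := ι) (κ := κ) (x := 1 / 2) (y := A' / A) (by norm_num) (by norm_num)
    (by positivity) (by rw [div_lt_one hA1]; linarith)
  refine ⟨C * C' * M, 2 * (R + R'), by positivity, fun d => ?_⟩
  rw [MvPowerSeries.coeff_mul]
  refine (abs_sum_le_sum_abs _ _).trans ?_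
  have h3 : ∀ p ∈ antidiagonal d, |MvPowerSeries.coeff p.1 f * MvPowerSeries.coeff p.2 g| ≤
      C * C' * (2 * (R + R')) ^ dA d * A ^ dC d * (dC d).factorial *
        ((1 / 2) ^ dA p.2 * (A' / A) ^ dC p.2) := by
    intro p hp
    rw [abs_mul, ← mem_antidiagonal.1 hp, dA_add, dC_add]
    refine (mul_le_mul (h1 _) (h2 _) (abs_nonneg _) (by positivity)).trans ?_
    have k1 : R ^ dA p.1 ≤ (2 * (R + R')) ^ dA p.1 := by gcongr; linarith
    have k2 : R' ^ dA p.2 ≤ (R + R') ^ dA p.2 := by gcongr; linarith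
    have k3 : A' ^ dC p.1 ≤ A ^ dC p.1 := by gcongr
    have k4 : ((dC p.1).factorial * (dC p.2).factorial : ℝ) ≤ (dC p.1 + dC p.2).factorial := by
      exact_mod_cast Nat.le_of_dvd (Nat.factorial_pos _)
        (Nat.factorial_mul_factorial_dvd_factorial_add _ _)
    calc C * R ^ dA p.1 * A' ^ dC p.1 * (dC p.1).factorial *
          (C' * R' ^ dA p.2 * A' ^ dC p.2 * (dC p.2).factorial)
        = C * C' * R ^ dA p.1 * R' ^ dA p.2 * A' ^ dC p.1 * A' ^ dC p.2 *
          ((dC p.1).factorial * (dC p.2).factorial) := by ring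
      _ ≤ C * C' * (2 * (R + R')) ^ dA p.1 * (R + R') ^ dA p.2 * A ^ dC p.1 * A' ^ dC p.2 *
          (dC p.1 + dC p.2).factorial := by gcongr
      _ = _ := by
          simp only [pow_add, mul_pow, div_pow, one_pow]
          field_simp
  refine (sum_le_sum h3).trans ?_
  rw [← mul_sum]
  have h4 : ∑ p ∈ antidiagonal d, (1 / 2 : ℝ) ^ dA p.2 * (A' / A) ^ dC p.2 ≤ M := by
    refine le_trans (le_of_eq ?_) (hM ((antidiagonal d).image Prod.snd))
    rw [sum_image]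
    intro p hp q hq hpq
    have k1 := mem_antidiagonal.1 hp
    have k2 := mem_antidiagonal.1 hq
    refine Prod.ext ?_ hpq
    rw [← k2, hpq] at k1
    exact add_right_cancel k1
  refine (mul_le_mul_of_nonneg_left h4 (by positivity)).trans (le_of_eq ?_)
  ring

theorem Gev.pderiv (hA : 0 ≤ A0) (hf : Gev A0 f) (i : ι ⊕ κ) :
    Gev A0 (MvPowerSeries.pderiv ℝ i f) := by
  classical
  intro A hA'
  have hA1 : 0 < A := by linarith
  rcases i with i | j
  · obtain ⟨C, R, hR, h1⟩ := hf A hA'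
    have hC := C_nonneg h1
    refine ⟨C * R, 2 * R, by positivity, fun d => ?_⟩
    have k1 : dA (Finsupp.single (Sum.inl i) 1 : ι ⊕ κ →₀ ℕ) = 1 := by
      simp [dA, Finsupp.single_apply]
    have k2 : dC (Finsupp.single (Sum.inl i) 1 : ι ⊕ κ →₀ ℕ) = 0 := by
      simp [dC]
    have k3 : ((d (Sum.inl i) : ℝ) + 1) ≤ 2 ^ dA d := by
      have k4 : d (Sum.inl i) ≤ dA d := single_le_sum (f := fun i => d (Sum.inl i))
        (fun _ _ => Nat.zero_le _) (mem_univ i)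
      exact_mod_cast Nat.succ_le_of_lt (k4.trans_lt Nat.lt_two_pow_self)
    have k4 := h1 (d + Finsupp.single (Sum.inl i) 1)
    rw [dA_add, dC_add, k1, k2, add_zero] at k4
    rw [MvPowerSeries.coeff_pderiv, abs_mul, abs_of_nonneg (by positivity : (0 : ℝ) ≤ _ + 1)]
    refine (mul_le_mul k4 k3 (by positivity) (by positivity)).trans (le_of_eq ?_)
    rw [mul_pow]
    ring
  · obtain ⟨A', hA2, hA3⟩ := exists_between hA'
    have h0 : 0 < A' := by linarith
    obtain ⟨C, R, hR, h1⟩ := hf A' (by linarith)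
    have hC := C_nonneg h1
    have h2 : 1 < A / A' := by rw [one_lt_div h0]; linarith
    obtain ⟨c, hc, h3⟩ := lin_le (Real.lt_sqrt_of_sq_lt (by simpa using h2) : 1 < √(A / A'))
    refine ⟨C * A' * c ^ 2, R, hR, fun d => ?_⟩
    have k1 : dA (Finsupp.single (Sum.inr j) 1 : ι ⊕ κ →₀ ℕ) = 0 := by
      simp [dA]
    have k2 : dC (Finsupp.single (Sum.inr j) 1 : ι ⊕ κ →₀ ℕ) = 1 := by
      simp [dC, Finsupp.single_apply]
    have k3 : ((d (Sum.inr j) : ℝ) + 1) ≤ dC d + 1 := by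
      have k4 : d (Sum.inr j) ≤ dC d := single_le_sum (f := fun j => d (Sum.inr j))
        (fun _ _ => Nat.zero_le _) (mem_univ j)
      exact_mod_cast Nat.succ_le_succ k4
    have k4 := h1 (d + Finsupp.single (Sum.inr j) 1)
    rw [dA_add, dC_add, k1, k2, add_zero] at k4
    rw [MvPowerSeries.coeff_pderiv, abs_mul, abs_of_nonneg (by positivity : (0 : ℝ) ≤ _ + 1)]
    refine (mul_le_mul k4 k3 (by positivity) (by positivity)).trans ?_
    have k5 : ((dC d : ℝ) + 1) ^ 2 ≤ c ^ 2 * (A / A') ^ dC d := by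
      calc ((dC d : ℝ) + 1) ^ 2 ≤ (c * √(A / A') ^ dC d) ^ 2 := by
            gcongr
            exact h3 _
        _ = _ := by rw [mul_pow, ← pow_mul, mul_comm (dC d), pow_mul, Real.sq_sqrt (by positivity)]
    calc C * R ^ dA d * A' ^ (dC d + 1) * ((dC d + 1).factorial : ℕ) * ((dC d : ℝ) + 1)
        = C * A' * R ^ dA d * A' ^ dC d * (dC d).factorial * ((dC d : ℝ) + 1) ^ 2 := by
          rw [Nat.factorial_succ]
          push_cast
          ring
      _ ≤ C * A' * R ^ dA d * A' ^ dC d * (dC d).factorial * (c ^ 2 * (A / A') ^ dC d) := by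
          gcongr
      _ = _ := by
          rw [div_pow]
          field_simp

/-- the Gevrey series form a subalgebra -/
def gevAlg (hA : 0 ≤ A0) : Subalgebra ℝ (MvPowerSeries (ι ⊕ κ) ℝ) where
  carrier := {f | Gev A0 f}
  mul_mem' := fun hf hg => Gev.mul hA hf hg
  add_mem' := fun hf hg => Gev.add hA hf hg
  algebraMap_mem' := fun c => gev_monomial hA 0 c

/-- the majorant of a Gevrey series -/
theorem Gev.major (hA : 0 ≤ A0) (hf : Gev A0 f) {A1 θ : ℝ} (hθ : 1 ≤ θ) (h1 : θ * A0 < A1) :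
    ∀ᶠ ρ in 𝓝[>] (0 : ℝ), ∃ M : ℝ, ∀ T : Finset (ι ⊕ κ →₀ ℕ),
      ∑ d ∈ T, |MvPowerSeries.coeff d f| * (ρ ^ dA d * θ ^ dC d) /
        (A1 ^ dC d * (dC d).factorial) ≤ M := by
  have hθ0 : 0 < θ := by linarith
  have hA1 : 0 < A1 := lt_of_le_of_lt (by positivity) h1
  have h2 : A0 < A1 / θ := by rw [lt_div_iff₀ hθ0]; linarith
  obtain ⟨A, h3, h4⟩ := exists_between h2
  have hA2 : 0 < A := by linarith
  obtain ⟨C, R, hR, h5⟩ := hf A h3
  have hC := C_nonneg h5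
  obtain ⟨M, hM⟩ := geo2 (ι := ι) (κ := κ) (x := 1 / 2) (y := θ * A / A1) (by norm_num)
    (by norm_num) (by positivity) (by rw [div_lt_one hA1]; rw [lt_div_iff₀ hθ0] at h4; linarith)
  filter_upwards [Ioo_mem_nhdsGT (by positivity : (0 : ℝ) < 1 / (2 * R))] with ρ hρ
  refine ⟨C * M, fun T => le_trans ?_ (mul_le_mul_of_nonneg_left (hM T) hC)⟩
  rw [mul_sum]
  refine sum_le_sum fun d _ => ?_
  have h6 : R * ρ ≤ 1 / 2 := by
    have := hρ.2
    rw [lt_div_iff₀ (by positivity)] at this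
    linarith
  have h7 := hρ.1
  rw [div_le_iff₀ (by positivity)]
  calc |MvPowerSeries.coeff d f| * (ρ ^ dA d * θ ^ dC d)
      ≤ C * R ^ dA d * A ^ dC d * (dC d).factorial * (ρ ^ dA d * θ ^ dC d) := by
        gcongr
        exact h5 d
    _ = C * (R * ρ) ^ dA d * (θ * A) ^ dC d * (dC d).factorial := by
        rw [mul_pow, mul_pow]
        ring
    _ ≤ C * (1 / 2) ^ dA d * (θ * A) ^ dC d * (dC d).factorial := by gcongr
    _ = _ := by
        rw [div_pow (θ * A)]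
        field_simp

end Vale.Agent.P218G
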