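import Mathlib

/-!
# Formal power series: local maps and Weierstrass division
-/

noncomputable section

namespace Vale.Agent.P218G.Gb

open MvPowerSeries

variable {k : Type*} [Field k] {σ : Type*} [Finite σ]

/-- the ideal of the variables -/
abbrev mx (σ k : Type*) [Field k] : Ideal (MvPowerSeries σ k) := Ideal.span (Set.range X)

theorem mem_mx_pow {N : ℕ} {f : MvPowerSeries σ k} (h : truncTotal N f = 0) : f ∈ mx σ k ^ N := by
  have e : Ideal.map (toAdicCompletionAlgEquiv σ k).toRingEquiv (mx σ k) =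
      (MvPolynomial.idealOfVars σ k).map (algebraMap ..) := by
    simp_rw [Ideal.map_span, ← Set.range_comp]
    congr 2; ext1
    simp [AdicCompletion.algebraMap_apply, ← MvPolynomial.coe_X, toAdicCompletion_coe]
  rw [← Ideal.apply_mem_of_equiv_iff (f := (toAdicCompletionAlgEquiv σ k).toRingEquiv),
    Ideal.map_pow, e, ← Ideal.map_pow, ← Submodule.restrictScalars_mem (MvPolynomial σ k),
    ← Ideal.smul_top_eq_map, AdicCompletion.pow_smul_top_eq_ker_eval
      (MvPolynomial.idealOfVars_fg σ k), LinearMap.mem_ker, AdicCompletion.eval_apply]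
  exact (toAdicCompletion_apply_eq_mk_truncTotal (n := N) (p := f)).trans (by rw [h]; rfl)

theorem sub_trunc_mem (N : ℕ) (f : MvPowerSeries σ k) :
    f - (truncTotal N f : MvPolynomial σ k) ∈ mx σ k ^ N := mem_mx_pow (by
  ext d
  rw [coeff_truncTotal_eq_ite]
  split_ifs with h
  · simp [coeff_truncTotal _ h]
  · rfl)

theorem mem_mx {f : MvPowerSeries σ k} : f ∈ mx σ k ↔ constantCoeff f = 0 := by
  refine ⟨fun h => ?_, fun h => pow_one (mx σ k) ▸ mem_mx_pow ?_⟩
  · refine (Ideal.span_le (I := RingHom.ker constantCoeff)).2 ?_ h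
    rintro _ ⟨i, rfl⟩
    simp
  · ext d
    rw [coeff_truncTotal_eq_ite]
    split_ifs with h'
    · rw [(Finsupp.degree_eq_zero_iff d).1 (Nat.lt_one_iff.1 h')]; exact h
    · rfl

theorem max_eq : IsLocalRing.maximalIdeal (MvPowerSeries σ k) = mx σ k := by
  ext f
  rw [mem_mx, IsLocalRing.mem_maximalIdeal, mem_nonunits_iff, isUnit_iff_constantCoeff,
    isUnit_iff_ne_zero, not_not]

theorem adic : IsAdicComplete (IsLocalRing.maximalIdeal (MvPowerSeries σ k))
    (MvPowerSeries σ k) := by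
  rw [max_eq]; infer_instance

section
variable {T : Type*} [CommRing T] [Algebra k T]

omit [Finite σ] in
theorem map_coe (φ : MvPowerSeries σ k →ₐ[k] T) (p : MvPolynomial σ k) :
    φ p = MvPolynomial.aeval (fun i => φ (X i)) p :=
  DFunLike.congr_fun (MvPolynomial.algHom_ext (f := φ.comp (MvPolynomial.coeToMvPowerSeries.algHom k))
    (g := MvPolynomial.aeval fun i => φ (X i)) fun i => by simp) p

omit [Finite σ] in
theorem map_mx_pow (φ : MvPowerSeries σ k →ₐ[k] T) {J : Ideal T} (h : ∀ i, φ (X i) ∈ J) {N : ℕ}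
    {f : MvPowerSeries σ k} (hf : f ∈ mx σ k ^ N) : φ f ∈ J ^ N := by
  refine Ideal.pow_right_mono (I := (mx σ k).map φ) ?_ N
    (Ideal.map_pow φ _ N ▸ Ideal.mem_map_of_mem φ hf)
  rw [Ideal.map_span, Ideal.span_le]
  rintro _ ⟨_, ⟨i, rfl⟩, rfl⟩
  exact h i

/-- local maps are determined by the images of the variables -/
theorem hom_ext {J : Ideal T} [IsHausdorff J T] {φ ψ : MvPowerSeries σ k →ₐ[k] T}
    (h : ∀ i, φ (X i) ∈ J) (e : ∀ i, φ (X i) = ψ (X i)) : φ = ψ := by
  ext f
  refine sub_eq_zero.1 (IsHausdorff.haus' (I := J) _ fun N => ?_)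
  have h1 := sub_mem (map_mx_pow φ h (sub_trunc_mem N f))
    (map_mx_pow ψ (fun i => e i ▸ h i) (sub_trunc_mem N f))
  rw [map_sub, map_sub, map_coe, map_coe, funext e, sub_sub_sub_cancel_right] at h1
  rw [SModEq.zero, smul_eq_mul, Ideal.mul_top]
  exact h1

end

/-- a series does not vanish on some line -/
theorem exists_dir [Infinite k] {f : MvPowerSeries σ k} (hf : f ≠ 0) (i₀ : σ) :
    ∃ v : σ → k, v i₀ ≠ 0 ∧ ∀ κ : MvPowerSeries σ k →ₐ[k] PowerSeries k,
      (∀ i, κ (X i) = PowerSeries.C (v i) * PowerSeries.X) → κ f ≠ 0 := by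
  classical
  have := Fintype.ofFinite σ
  obtain ⟨m, hm⟩ := ENat.ne_top_iff_exists.1 (order_eq_top_iff.not.2 hf)
  obtain ⟨⟨d, h1, h2⟩, h3⟩ := order_eq_nat.1 hm.symm
  obtain ⟨p, hp⟩ : ∃ p, p = truncTotal (m + 1) f := ⟨_, rfl⟩
  have h4 : p ≠ 0 := fun e => h1 (by
    rw [← coeff_truncTotal (n := m + 1) _ (by omega), ← hp, e]; rfl)
  have h5 : ∀ e ∈ p.support, e.degree = m := fun e he => by
    rw [MvPolynomial.mem_support_iff, hp, coeff_truncTotal_eq_ite] at he
    split_ifs at he with h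
    · exact le_antisymm (by omega) (not_lt.1 fun h' => he (h3 e h'))
    · exact (he rfl).elim
  obtain ⟨v, hv⟩ : ∃ v, MvPolynomial.eval v (MvPolynomial.X i₀ * p) ≠ 0 := by
    by_contra h
    simp only [not_exists, not_not] at h
    exact mul_ne_zero (MvPolynomial.X_ne_zero i₀) h4 (MvPolynomial.funext fun v => h v)
  rw [map_mul, MvPolynomial.eval_X] at hv
  refine ⟨v, left_ne_zero_of_mul hv, fun κ hκ e => right_ne_zero_of_mul hv ?_⟩
  have h6 : κ p = PowerSeries.C (MvPolynomial.eval v p) * PowerSeries.X ^ m := by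
    rw [map_coe, MvPolynomial.aeval_def, MvPolynomial.eval₂_eq', MvPolynomial.eval_eq', map_sum,
      Finset.sum_mul]
    refine Finset.sum_congr rfl fun e he => ?_
    simp only [hκ, mul_pow, Finset.prod_mul_distrib, Finset.prod_pow_eq_pow_sum, map_mul, map_prod,
      map_pow, ← Finsupp.degree_eq_sum, h5 e he, mul_assoc]
    rfl
  have h7 := map_mx_pow κ (J := Ideal.span {PowerSeries.X})
    (fun i => hκ i ▸ Ideal.mul_mem_left _ _ (Ideal.mem_span_singleton_self _))
    (sub_trunc_mem (m + 1) f)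
  rw [map_sub, e, ← hp, h6, Ideal.span_singleton_pow, Ideal.mem_span_singleton, zero_sub, dvd_neg,
    PowerSeries.X_pow_dvd_iff] at h7
  simpa using h7 m m.lt_succ_self

/-- **Weierstrass**: modulo a non zero series, the series are polynomials in one variable. -/
theorem weier [Infinite k] {n : ℕ} {f : MvPowerSeries (Fin (n + 1)) k} (hf : f ≠ 0) :
    ∃ (ψ : MvPowerSeries (Fin n) k →ₐ[k] MvPowerSeries (Fin (n + 1)) k)
      (y : MvPowerSeries (Fin (n + 1)) k) (m : ℕ), ∀ g, ∃ (q : MvPowerSeries (Fin (n + 1)) k)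
        (r : Polynomial (MvPowerSeries (Fin n) k)), r.degree < m ∧
          g = f * q + r.eval₂ (ψ : _ →+* _) y := by
  obtain ⟨v, h0, hv⟩ := exists_dir hf 0
  have ha : HasSubst (Fin.cons (C (v 0) * X 0) fun j => X j.succ + C (v j.succ) * X 0 :
      Fin (n + 1) → MvPowerSeries (Fin (n + 1)) k) :=
    hasSubst_of_constantCoeff_zero fun i => by cases i using Fin.cases <;> simp
  have hb : HasSubst (Fin.cons (C (v 0)⁻¹ * X 0) fun j => X j.succ - C (v j.succ * (v 0)⁻¹) * X 0 :
      Fin (n + 1) → MvPowerSeries (Fin (n + 1)) k) :=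
    hasSubst_of_constantCoeff_zero fun i => by cases i using Fin.cases <;> simp
  obtain ⟨α, a1, a2⟩ : ∃ α : MvPowerSeries (Fin (n + 1)) k →ₐ[k] MvPowerSeries (Fin (n + 1)) k,
      α (X 0) = C (v 0) * X 0 ∧ ∀ j : Fin n, α (X j.succ) = X j.succ + C (v j.succ) * X 0 :=
    ⟨substAlgHom ha, substAlgHom_X ha _, fun _ => substAlgHom_X ha _⟩
  obtain ⟨β, b1, b2⟩ : ∃ β : MvPowerSeries (Fin (n + 1)) k →ₐ[k] MvPowerSeries (Fin (n + 1)) k,
      β (X 0) = C (v 0)⁻¹ * X 0 ∧
        ∀ j : Fin n, β (X j.succ) = X j.succ - C (v j.succ * (v 0)⁻¹) * X 0 :=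
    ⟨substAlgHom hb, substAlgHom_X hb _, fun _ => substAlgHom_X hb _⟩
  have bc : ∀ c, β (C c) = C c := β.commutes
  have e : ∀ g, β (α g) = g := DFunLike.congr_fun (hom_ext (J := mx _ k) (φ := AlgHom.id k _)
    (ψ := β.comp α) (fun i => Ideal.subset_span ⟨i, rfl⟩) fun i => by
      cases i using Fin.cases with
      | zero =>
        rw [AlgHom.comp_apply, a1, map_mul, bc, b1, ← mul_assoc, ← map_mul, mul_inv_cancel₀ h0,
          map_one, one_mul, AlgHom.id_apply]
      | succ j => simp [a2, b1, b2, bc, mul_assoc]).symm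
  have := adic (σ := Fin n) (k := k)
  have hg : (finSuccEquiv k n (α f)).map (IsLocalRing.residue _) ≠ 0 := fun h => by
    obtain ⟨c, hc⟩ : ∃ c : PowerSeries (MvPowerSeries (Fin n) k) →ₐ[k] PowerSeries k,
        ∀ g, c g = PowerSeries.map constantCoeff g := ⟨PowerSeries.mapAlgHom
      { (constantCoeff : MvPowerSeries (Fin n) k →+* k) with commutes' := constantCoeff_C },
        fun _ => rfl⟩
    refine hv (c.comp ((finSuccEquiv k n).toAlgHom.comp α)) (fun i => ?_) ?_
    · cases i using Fin.cases <;> simp [a1, a2, hc]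
    · ext j
      have := congrArg (PowerSeries.coeff j) h
      rw [PowerSeries.coeff_map, map_zero, IsLocalRing.residue_eq_zero_iff, max_eq, mem_mx] at this
      simpa [hc] using this
  let γ := β.comp (finSuccEquiv k n).symm.toAlgHom
  refine ⟨γ.comp (IsScalarTower.toAlgHom k _ _), γ PowerSeries.X, ((finSuccEquiv k n (α f)).map
    (Ideal.Quotient.mk (IsLocalRing.maximalIdeal _))).order.toNat, fun g => ?_⟩
  obtain ⟨q, r, h1, h2⟩ := (finSuccEquiv k n (α g)).exists_isWeierstrassDivision hg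
  refine ⟨γ q, r, h1, ?_⟩
  have h3 := congrArg γ h2
  have h4 : ∀ g, γ (finSuccEquiv k n (α g)) = g := fun g => by simp [γ, e]
  rw [map_add, map_mul, h4, h4] at h3
  refine h3.trans (congrArg _ ?_)
  exact DFunLike.congr_fun (Polynomial.ringHom_ext' (f := (γ : _ →+* _).comp
    Polynomial.coeToPowerSeries.ringHom) (g := Polynomial.eval₂RingHom
      ((γ.comp (IsScalarTower.toAlgHom k (MvPowerSeries (Fin n) k) _) : _ →ₐ[k] _) : _ →+* _)
      (γ PowerSeries.X)) (RingHom.ext fun a => by simp) (by simp)) r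

end Vale.Agent.P218G.Gb
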