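import Vale.Agent.P218G.Green1

/-!
# Approximate formal arcs give an exact formal arc (Greenberg)
-/

noncomputable section

namespace Vale.Agent.P218G.Gb

open Filter Polynomial

section newton
variable {V : Type*} [CommRing V] (I : Ideal V) [IsAdicComplete I V]

theorem exists_fix (T : V → V) (hT : ∀ n a b, a - b ∈ I ^ n → T a - T b ∈ I ^ (n + 1)) :
    ∃ a, T a = a := by
  have h1 : ∀ n, T^[n + 1] 0 - T^[n] 0 ∈ I ^ n := fun n => by
    induction n with
    | zero => simp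
    | succ n ih =>
      rw [Function.iterate_succ_apply' T (n + 1), Function.iterate_succ_apply' T n]
      exact hT n _ _ (Function.iterate_succ_apply' T n 0 ▸ ih)
  have h2 : ∀ {m n}, m ≤ n → T^[m] 0 ≡ T^[n] 0 [SMOD (I ^ m • ⊤ : Submodule V V)] := by
    intro m n h
    induction n, h using Nat.le_induction with
    | base => rfl
    | succ n h ih =>
      refine ih.trans (SModEq.symm (SModEq.sub_mem.2 ?_))
      rw [smul_eq_mul, Ideal.mul_top]
      exact Ideal.pow_le_pow_right h (h1 n)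
  obtain ⟨a, ha⟩ := IsPrecomplete.prec' (I := I) _ h2
  simp only [SModEq.sub_mem, smul_eq_mul, Ideal.mul_top] at ha
  refine ⟨a, sub_eq_zero.1 (IsHausdorff.haus' (I := I) _ fun n => ?_)⟩
  rw [SModEq.zero, smul_eq_mul, Ideal.mul_top]
  have := sub_mem (ha (n + 1)) (hT n _ _ (ha n))
  rw [Function.iterate_succ_apply' T n, sub_sub_sub_cancel_left] at this
  exact Ideal.pow_le_pow_right n.le_succ this

/-- **Newton** -/
theorem newton (Q : V[X]) (z e : V) (he : e ∈ I) (h : Q.eval z = Q.derivative.eval z ^ 2 * e) :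
    ∃ w, Q.eval (z + Q.derivative.eval z * e * w) = 0 := by
  obtain ⟨D, hD⟩ : ∃ D, D = Q.derivative.eval z := ⟨_, rfl⟩
  obtain ⟨H, hH⟩ : ∃ H : V[X], ∀ u, Q.eval (z + u) = Q.eval z + D * u + u ^ 2 * H.eval u := by
    refine ⟨(taylor z Q).divX.divX, fun u => ?_⟩
    have e1 := congrArg (eval u) (taylor z Q).divX_mul_X_add
    have e2 := congrArg (eval u) (taylor z Q).divX.divX_mul_X_add
    rw [coeff_divX, taylor_coeff_one] at e2
    rw [taylor_coeff_zero, taylor_eval, add_comm u] at e1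
    simp only [eval_add, eval_mul, eval_X, eval_C] at e1 e2
    rw [← e1, ← e2, hD]; ring
  obtain ⟨w, hw⟩ := exists_fix I (fun w => -1 - e * (X ^ 2 * H.comp (C (D * e) * X)).eval w)
    fun n a b hab => by
      rw [sub_sub_sub_cancel_left, ← mul_sub, pow_succ']
      obtain ⟨c, hc⟩ := sub_dvd_eval_sub b a (X ^ 2 * H.comp (C (D * e) * X))
      rw [hc]
      exact Ideal.mul_mem_mul he (Ideal.mul_mem_right _ _ (neg_sub a b ▸ neg_mem hab))
  refine ⟨w, ?_⟩
  simp only [eval_mul, eval_pow, eval_X, eval_comp, eval_C] at hw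
  rw [← hD, hH, h, ← hD]
  linear_combination (-D ^ 2 * e) * hw

end newton

/-- a polynomial of least degree which vanishes at `z` -/
theorem exists_min {T D : Type*} [CommRing T] [IsDomain T] [CharZero T] [CommRing D]
    (V : Type*) [CommRing V] [IsDomain V] (j : T →+* D) (hj : Function.Injective j) {z : D}
    (hz : ∃ h : T[X], h ≠ 0 ∧ h.eval₂ j z = 0) :
    ∃ Q : T[X], Q.leadingCoeff ≠ 0 ∧ Q.eval₂ j z = 0 ∧ Q.derivative.eval₂ j z ≠ 0 ∧
      ∀ ψ : T[X] →+* V, ψ (C Q.leadingCoeff) ≠ 0 → ψ Q = 0 →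
        ∀ h : T[X], h.eval₂ j z = 0 → ψ h = 0 := by
  classical
  obtain ⟨Q, ⟨h0, h1⟩, h2⟩ := WellFounded.has_min (InvImage.wf natDegree wellFounded_lt)
    {h : T[X] | h ≠ 0 ∧ h.eval₂ j z = 0} hz
  have h3 : ∀ h : T[X], h.eval₂ j z = 0 → h.natDegree < Q.natDegree → h = 0 :=
    fun h a b => not_not.1 fun c => h2 h ⟨c, a⟩ b
  have h4 : 0 < Q.natDegree := Nat.pos_of_ne_zero fun e => by
    rw [eq_C_of_natDegree_eq_zero e, eval₂_C, map_eq_zero_iff _ hj] at h1
    exact h0 (by rw [eq_C_of_natDegree_eq_zero e, h1, C_0])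
  refine ⟨Q, leadingCoeff_ne_zero.2 h0, h1, fun e => h4.ne' (derivative_eq_zero.1
    (h3 _ e (natDegree_derivative_lt h4.ne'))), fun ψ a b h => ?_⟩
  induction hn : h.natDegree using Nat.strong_induction_on generalizing h with
  | _ n ih =>
    intro c
    rcases lt_or_ge h.natDegree Q.natDegree with d | d
    · rw [h3 h c d, map_zero]
    have e := ih _ (hn ▸ natDegree_cancelLeads_lt_of_natDegree_le_natDegree d (h4.trans_le d))
      (Q.cancelLeads h) rfl (by simp [cancelLeads, eval₂_sub, eval₂_mul, c, h1])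
    simpa [cancelLeads, b, Nat.sub_eq_zero_of_le d, a] using e

section flat
variable {V : Type*} [CommRing V] [IsDomain V] (U : Ultrafilter ℕ) (τ : ℕ → V)

/-- the sequences which are divisible by all powers of `τ` -/
def Flat : Ideal (ℕ → V) where
  carrier := {f | ∀ N : ℕ, ∀ᶠ i in U, τ i ^ N ∣ f i}
  add_mem' h h' N := ((h N).and (h' N)).mono fun _ e => dvd_add e.1 e.2
  zero_mem' _ := Eventually.of_forall fun _ => dvd_zero _
  smul_mem' _ _ h N := (h N).mono fun _ e => e.mul_left _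

variable {U τ} [ValuationRing V] {f g : ℕ → V}

theorem not_flat (h : f ∉ Flat U τ) : ∃ N : ℕ, ∀ᶠ i in U, f i ∣ τ i ^ N := by
  obtain ⟨N, hN⟩ := not_forall.1 h
  exact ⟨N, (Ultrafilter.eventually_not.2 hN).mono fun i hi =>
    (ValuationRing.dvd_total _ _).resolve_right hi⟩

theorem flat_prime (h0 : ∀ i, τ i ≠ 0) (h1 : ∀ i, ¬ IsUnit (τ i)) : (Flat U τ).IsPrime := by
  refine ⟨fun e => ?_, fun {f g} h => ?_⟩
  · obtain ⟨i, hi⟩ := ((Ideal.eq_top_iff_one _).1 e 1).exists
    exact h1 i (isUnit_of_dvd_one (pow_one (τ i) ▸ hi))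
  · by_contra hc
    obtain ⟨N, hN⟩ := not_flat (not_or.1 hc).1
    obtain ⟨M, hM⟩ := not_flat (not_or.1 hc).2
    obtain ⟨i, a, b, c⟩ := (hN.and (hM.and (h (N + M + 1)))).exists
    have := c.trans (mul_dvd_mul a b)
    rw [← pow_add, pow_succ] at this
    exact h1 i (isUnit_of_dvd_one ((mul_dvd_mul_iff_left (pow_ne_zero (N + M) (h0 i))).1
      (by rwa [mul_one])))

omit [IsDomain V] [ValuationRing V] in
theorem mk_congr (h : f =ᶠ[U] g) : Ideal.Quotient.mk (Flat U τ) f = Ideal.Quotient.mk _ g :=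
  Ideal.Quotient.eq.2 fun _ => h.mono fun i e => by simp [e]

/-- flat values can be corrected to exact roots -/
theorem flat_root (I : Ideal V) [IsAdicComplete I V] (h0 : ∀ i, τ i ≠ 0) (h1 : ∀ i, τ i ∈ I)
    (Q : ℕ → V[X]) (z : ℕ → V) (a : (fun i => (Q i).eval (z i)) ∈ Flat U τ)
    (b : (fun i => (Q i).derivative.eval (z i)) ∉ Flat U τ) :
    ∃ z' : ℕ → V, z' - z ∈ Flat U τ ∧ ∀ᶠ i in U, (Q i).eval (z' i) = 0 := by
  obtain ⟨N, hN⟩ := not_flat b
  obtain ⟨z', hz⟩ := Eventually.choice (l := U) (r := fun i y => (Q i).eval y = 0 ∧ ∃ w,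
      (Q i).derivative.eval (z i) * (y - z i) = (Q i).eval (z i) * w) (by
    filter_upwards [hN, a (N * 2 + 1)] with i ⟨c, hc⟩ ⟨d, hd⟩
    have e : (Q i).eval (z i) = (Q i).derivative.eval (z i) ^ 2 * (c ^ 2 * d * τ i) := by
      rw [hd, pow_succ, pow_mul, hc]; ring
    obtain ⟨w, hw⟩ := newton I (Q i) (z i) _ (I.mul_mem_left _ (h1 i)) e
    exact ⟨_, hw, w, by rw [e]; ring⟩)
  refine ⟨z', fun M => ?_, hz.mono fun _ h => h.1⟩
  filter_upwards [hz, hN, a (N + M)] with i ⟨_, w, hw⟩ ⟨c, hc⟩ ⟨d, hd⟩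
  have h2 : (Q i).derivative.eval (z i) ≠ 0 := left_ne_zero_of_mul (hc ▸ pow_ne_zero N (h0 i))
  refine ⟨c * d * w, mul_left_cancel₀ h2 ?_⟩
  rw [Pi.sub_apply, hw, hd, pow_add, hc]; ring

end flat

section lift
variable {k V : Type*} [Field k] [CommRing V] [IsDomain V] [ValuationRing V] [Algebra k V]
  {U : Ultrafilter ℕ} {τ : ℕ → V}

variable (U τ) in
/-- The map `p` to the sequences modulo the flat ones is given by a sequence of maps. -/
def Lift {S : Type*} [CommRing S] [Algebra k S] (p : S →ₐ[k] (ℕ → V) ⧸ Flat U τ) : Prop :=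
  ∃ q : ℕ → S →ₐ[k] V, ∀ s, Ideal.Quotient.mk (Flat U τ) (fun i => q i s) = p s

theorem Lift.step [CharZero k] (I : Ideal V) [IsAdicComplete I V] (h0 : ∀ i, τ i ≠ 0)
    (h1 : ∀ i, τ i ∈ I) (h2 : ∀ i, ¬ IsUnit (τ i)) {T S : Type*} [CommRing T] [Algebra k T]
    [CommRing S] [Algebra k S] (j : T →ₐ[k] S) (p : S →ₐ[k] (ℕ → V) ⧸ Flat U τ)
    (hp : Function.Injective p) (hj : Function.Injective j) (h : Lift U τ (p.comp j)) (z : S)
    (hz : ∃ h : T[X], h ≠ 0 ∧ h.eval₂ (j : T →+* S) z = 0)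
    (hs : ∀ s, ∃ h : T[X], h.eval₂ (j : T →+* S) z = s) : Lift U τ p := by
  have := flat_prime (U := U) h0 h2
  have := (hp.comp hj).isDomain (p.comp j)
  have : CharZero T := charZero_of_injective_algebraMap (algebraMap k T).injective
  obtain ⟨φ, hφ⟩ := h
  obtain ⟨Q, a1, a2, a3, a4⟩ := exists_min V (j : T →+* S) hj hz
  obtain ⟨y, hy⟩ := Ideal.Quotient.mk_surjective (p z)
  have key : ∀ (h : T[X]) (y : ℕ → V), Ideal.Quotient.mk (Flat U τ) y = p z →
      Ideal.Quotient.mk (Flat U τ) (fun i => h.eval₂ (φ i : T →+* V) (y i)) =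
        p (h.eval₂ (j : T →+* S) z) := fun h y hy => by
    induction h using Polynomial.induction_on' with
    | add a b ha hb => simp only [eval₂_add, map_add, ← ha, ← hb]; rfl
    | monomial n a =>
      simp only [eval₂_monomial, map_mul, map_pow, ← hy]
      rw [show p ((j : T →+* S) a) = _ from (hφ a).symm]; rfl
  obtain ⟨y', b1, b2⟩ := flat_root (U := U) I h0 h1 (fun i => Q.map (φ i : T →+* V)) y
    (by simp only [eval_map]; rw [← Ideal.Quotient.eq_zero_iff_mem, key Q y hy, a2, map_zero])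
    (by simp only [derivative_map, eval_map]
        rw [← Ideal.Quotient.eq_zero_iff_mem, key _ y hy, map_eq_zero_iff _ hp]; exact a3)
  have hy' := (Ideal.Quotient.eq.2 b1).trans hy
  obtain ⟨N, hN⟩ := not_flat (U := U) (τ := τ) (f := fun i => φ i Q.leadingCoeff) (by
    rw [← Ideal.Quotient.eq_zero_iff_mem, hφ,
      map_eq_zero_iff _ (show Function.Injective (p.comp j) from hp.comp hj)]; exact a1)
  have sj : Function.Surjective (eval₂AlgHom j z fun _ => Commute.all _ _) := hs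
  obtain ⟨q, hq⟩ := Eventually.choice (l := U) (r := fun i (q : S →ₐ[k] V) => ∀ h : T[X],
      q (h.eval₂ (j : T →+* S) z) = h.eval₂ (φ i : T →+* V) (y' i)) (by
    filter_upwards [b2, hN] with i c1 c2
    refine ⟨AlgHom.liftOfSurjective _ sj (eval₂AlgHom (φ i) (y' i) fun _ => Commute.all _ _)
      fun h hh => ?_, fun h => AlgHom.liftOfSurjective_apply _ sj _ _ h⟩
    refine a4 (eval₂RingHom (φ i : T →+* V) (y' i)) ?_ (by rwa [eval_map] at c1) h hh
    rw [coe_eval₂RingHom, eval₂_C]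
    exact ne_zero_of_dvd_ne_zero (pow_ne_zero N (h0 i)) c2)
  refine ⟨q, fun s => ?_⟩
  obtain ⟨h, rfl⟩ := hs s
  exact (mk_congr (hq.mono fun i hi => hi h)).trans (key h y' hy')

theorem lift_range [CharZero k] (I : Ideal V) [IsAdicComplete I V] (h0 : ∀ i, τ i ≠ 0)
    (h1 : ∀ i, τ i ∈ I) (h2 : ∀ i, ¬ IsUnit (τ i)) (n : ℕ) :
    ∀ p : MvPowerSeries (Fin n) k →ₐ[k] (ℕ → V) ⧸ Flat U τ, Lift U τ p → Lift U τ p.range.val := by
  have := flat_prime (U := U) h0 h2
  have inj : ∀ {n} (p : MvPowerSeries (Fin n) k →ₐ[k] (ℕ → V) ⧸ Flat U τ), Lift U τ p →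
      Function.Injective p → Lift U τ p.range.val := fun p ⟨q, hq⟩ hp =>
    ⟨fun i => (q i).comp (AlgEquiv.ofInjective p hp).symm.toAlgHom, fun s => (hq _).trans
      (congrArg Subtype.val ((AlgEquiv.ofInjective p hp).apply_symm_apply s))⟩
  induction n with
  | zero =>
    refine fun p h => inj p h ((injective_iff_map_eq_zero _).2 fun f hf => not_not.1 fun e => ?_)
    refine not_isUnit_zero (hf ▸ IsUnit.map p (MvPowerSeries.isUnit_iff_constantCoeff.2
      (isUnit_iff_ne_zero.2 fun c => e ?_)))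
    ext d
    rw [Subsingleton.elim d 0]; exact c
  | succ n ih =>
    intro p h
    by_cases hp : Function.Injective p
    · exact inj p h hp
    obtain ⟨f, a1, a2⟩ : ∃ f, p f = 0 ∧ f ≠ 0 := by
      simpa [injective_iff_map_eq_zero] using hp
    obtain ⟨ψ, y, m, hw⟩ := weier a2
    have le : (p.comp ψ).range ≤ p.range := fun _ ⟨a, ha⟩ => ⟨ψ a, ha⟩
    have key : ∀ g, ∃ r : (p.comp ψ).range[X], r.degree < m ∧ r.eval₂ (Subalgebra.inclusion le :
        (p.comp ψ).range →+* p.range) (p.rangeRestrict y) = p.rangeRestrict g := fun g => by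
      obtain ⟨q, r, b1, b2⟩ := hw g
      refine ⟨r.map ((p.comp ψ).rangeRestrict : _ →+* _), degree_map_le.trans_lt b1, ?_⟩
      have e : p.rangeRestrict f = 0 := Subtype.ext a1
      rw [b2, map_add, map_mul, e, zero_mul, zero_add, eval₂_map]
      exact (hom_eval₂ r _ (p.rangeRestrict : _ →+* p.range) y).symm
    refine Lift.step I h0 h1 h2 (Subalgebra.inclusion le) _ Subtype.val_injective
      (Subalgebra.inclusion_injective le)
      (ih (p.comp ψ) (h.imp' (fun q i => (q i).comp ψ) fun q hq s => hq _)) (p.rangeRestrict y) ?_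
      fun ⟨_, g, rfl⟩ => (key g).imp fun r hr => hr.2
    obtain ⟨r, b1, b2⟩ := key (y ^ m)
    exact ⟨X ^ m - r, (monic_X_pow_sub b1).ne_zero, by rw [eval₂_sub, eval₂_X_pow, b2, map_pow,
      sub_self]⟩

end lift

/-- **Greenberg**: if `g` vanishes along formal arcs to arbitrarily high order relative to `s`,
then `g` vanishes along a formal arc along which `s` does not vanish. -/
theorem greenberg {k ι κ : Type*} [Field k] [CharZero k] [Finite ι] (g : κ → MvPowerSeries ι k)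
    (s : MvPowerSeries ι k) (hs : MvPowerSeries.constantCoeff s = 0)
    (h : ∀ N : ℕ, ∃ γ : ι → PowerSeries k, (∀ i, PowerSeries.constantCoeff (γ i) = 0) ∧
      s.subst γ ≠ 0 ∧ ∀ l, (s.subst γ : PowerSeries k) ^ N ∣ (g l).subst γ) :
    ∃ γ : ι → PowerSeries k, (∀ i, PowerSeries.constantCoeff (γ i) = 0) ∧
      s.subst γ ≠ 0 ∧ ∀ l, ((g l).subst γ : PowerSeries k) = 0 := by
  choose γ h1 h2 h3 using h
  have sb : ∀ {γ : ι → PowerSeries k}, (∀ i, PowerSeries.constantCoeff (γ i) = 0) →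
    MvPowerSeries.HasSubst γ := fun h => MvPowerSeries.hasSubst_of_constantCoeff_zero h
  obtain ⟨φ, hφ⟩ : ∃ φ : ℕ → MvPowerSeries ι k →ₐ[k] PowerSeries k, ∀ N f, f.subst (γ N) = φ N f :=
    ⟨fun N => MvPowerSeries.substAlgHom (sb (h1 N)), fun N f =>
      (MvPowerSeries.substAlgHom_apply _ f).symm⟩
  have h4 : ∀ N, PowerSeries.X ∣ φ N s := fun N => PowerSeries.X_dvd_iff.2
    (hφ N s ▸ MvPowerSeries.constantCoeff_subst_eq_zero (sb (h1 N)) (h1 N) hs)
  simp only [hφ] at h2 h3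
  have h5 : ∀ N, ¬ IsUnit (φ N s) := fun N e =>
    PowerSeries.X_prime.not_isUnit (isUnit_of_dvd_unit (h4 N) e)
  let p := (Ideal.Quotient.mkₐ k (Flat (hyperfilter ℕ) fun N => φ N s)).comp (AlgHom.pi φ)
  obtain ⟨n, ⟨e⟩⟩ := Finite.exists_equiv_fin ι
  let α := MvPowerSeries.renameEquiv k e
  obtain ⟨q, hq⟩ := lift_range (Ideal.span {PowerSeries.X}) h2
    (fun N => Ideal.mem_span_singleton.2 (h4 N)) h5 n (p.comp α.symm.toAlgHom)
    ⟨fun N => (φ N).comp α.symm.toAlgHom, fun _ => rfl⟩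
  let r := (p.comp α.symm.toAlgHom).rangeRestrict.comp α.toAlgHom
  have h6 : ∀ f, (r f).1 = p f := fun f => congrArg p (α.symm_apply_apply f)
  have h7 : ∀ f M, ∀ᶠ N in hyperfilter ℕ, φ N s ^ M ∣ q N (r f) - φ N f := fun f =>
    Ideal.Quotient.eq.1 ((hq (r f)).trans (h6 f))
  obtain ⟨N, a, c, hc⟩ := ((eventually_all.2 fun i => h7 (MvPowerSeries.X i) 1).and (h7 s 2)).exists
  have h8 : ∀ i, PowerSeries.X ∣ q N (r (MvPowerSeries.X i)) := fun i => by
    have := ((h4 N).trans (pow_one (φ N s) ▸ a i)).add (PowerSeries.X_dvd_iff.2 (h1 N i))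
    rwa [← hφ, MvPowerSeries.subst_X (sb (h1 N)), sub_add_cancel] at this
  have h9 := fun i => PowerSeries.X_dvd_iff.1 (h8 i)
  have h10 : ∀ f, q N (r f) = f.subst fun i => q N (r (MvPowerSeries.X i)) := fun f =>
    (DFunLike.congr_fun (hom_ext (φ := (q N).comp r) (ψ := MvPowerSeries.substAlgHom (sb h9))
      (J := Ideal.span {PowerSeries.X}) (fun i => Ideal.mem_span_singleton.2 (h8 i))
        fun i => (MvPowerSeries.substAlgHom_X (sb h9) i).symm) f).trans
      (MvPowerSeries.substAlgHom_apply _ f)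
  refine ⟨_, h9, fun e => h5 N (IsUnit.of_mul_eq_one (-c) (mul_left_cancel₀ (h2 N) ?_)),
    fun l => ?_⟩
  · rw [h10, e] at hc
    linear_combination hc
  · rw [← h10, show r (g l) = 0 from Subtype.ext ((h6 _).trans
      (Ideal.Quotient.eq_zero_iff_mem.2 fun M => ?_)), map_zero]
    exact Nat.hyperfilter_le_atTop ((eventually_ge_atTop M).mono fun N hN =>
      (pow_dvd_pow _ hN).trans (h3 N l))

end Vale.Agent.P218G.Gb
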