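import Vale.Agent.P218G.Prim

/-!
# P218, formal arcs: approximate arcs of arbitrarily high order give an exact arc
-/

namespace Vale.Agent.P218G

open PowerSeries Filter

section

variable {σ : Type} [Fintype σ] {K : Type} [Field K]

theorem exists_unit {f : K⟦X⟧} (hf : f ≠ 0) : ∃ (d : ℕ) (U : K⟦X⟧), IsUnit U ∧ f = X ^ d * U :=
  ⟨_, _, isUnit_divided_by_X_pow_order hf, X_pow_order_mul_divXPowOrder.symm⟩

theorem le_of_X_pow_dvd {a b : ℕ} {U : K⟦X⟧} (hU : IsUnit U) (h : (X : K⟦X⟧) ^ a ∣ X ^ b * U) :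
    a ≤ b := by
  by_contra hc
  push Not at hc
  have h1 := X_pow_dvd_iff.1 h b hc
  have h2 := coeff_X_pow_mul U b 0
  rw [zero_add, h1, coeff_zero_eq_constantCoeff_apply] at h2
  exact (isUnit_iff_ne_zero.1 (isUnit_iff_constantCoeff.1 hU)) h2.symm

theorem exists_decomp (f : MvPowerSeries σ K) : ∃ g : σ → MvPowerSeries σ K,
    f = MvPowerSeries.C (MvPowerSeries.constantCoeff f) + ∑ i, g i * MvPowerSeries.X i := by
  have h1 : f - MvPowerSeries.C (MvPowerSeries.constantCoeff f) ∈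
      IsLocalRing.maximalIdeal (MvPowerSeries σ K) := by
    rw [IsLocalRing.mem_maximalIdeal, mem_nonunits_iff, MvPowerSeries.isUnit_iff_constantCoeff]
    simp
  rw [max_eq_span, Ideal.mem_span_range_iff_exists_fun] at h1
  obtain ⟨g, hg⟩ := h1
  exact ⟨g, by rw [hg]; ring⟩

omit [Fintype σ] in
theorem ev_C {a : σ → K⟦X⟧} (c : K) : ev a (MvPowerSeries.C c : MvPowerSeries σ K) = C c :=
  MvPowerSeries.subst_C c

/-- every homomorphism to the power series in one variable is the evaluation along an arc -/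
theorem hom_eq_ev (Ψ : MvPowerSeries σ K →+* K⟦X⟧) (hC : ∀ c, Ψ (MvPowerSeries.C c) = C c) :
    Z0 (fun i => Ψ (MvPowerSeries.X i)) ∧
      ∀ f, Ψ f = ev (fun i => Ψ (MvPowerSeries.X i)) f := by
  have h0 : Z0 (fun i => Ψ (MvPowerSeries.X i)) := by
    intro i
    by_contra hne
    have h1 : IsUnit (MvPowerSeries.X i - MvPowerSeries.C
        (constantCoeff (Ψ (MvPowerSeries.X i))) : MvPowerSeries σ K) := by
      rw [MvPowerSeries.isUnit_iff_constantCoeff]
      simpa using hne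
    have h2 := isUnit_iff_constantCoeff.1 (h1.map Ψ)
    simp [hC] at h2
  refine ⟨h0, fun f => sub_eq_zero.1 (eq_zero_of_dvd fun n => ?_)⟩
  induction n generalizing f with
  | zero => simp
  | succ n ih =>
    obtain ⟨g, hg⟩ := exists_decomp f
    rw [hg, map_add, ev_add h0, hC, ev_C, map_sum, ev_sum h0, add_sub_add_left_eq_sub,
      ← Finset.sum_sub_distrib]
    refine Finset.dvd_sum fun i _ => ?_
    rw [map_mul, ev_mul h0, ev_X h0, ← sub_mul, pow_succ]
    exact mul_dvd_mul (ih _) (X_dvd_iff.2 (h0 i))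

/-- the ideal of series that are flat along a sequence of arcs -/
def flat (a : ℕ → σ → K⟦X⟧) (ha : ∀ N, Z0 (a N)) (s : MvPowerSeries σ K) :
    Ideal (MvPowerSeries σ K) where
  carrier := {f | ∀ n : ℕ, ∀ᶠ N in hyperfilter ℕ, ev (a N) s ^ n ∣ ev (a N) f}
  zero_mem' := fun n => Eventually.of_forall fun N => by rw [ev_zero (ha N)]; exact dvd_zero _
  add_mem' := fun {f g} hf hg n => by
    filter_upwards [hf n, hg n] with N h1 h2
    rw [ev_add (ha N)]
    exact dvd_add h1 h2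
  smul_mem' := fun c f hf n => by
    filter_upwards [hf n] with N h1
    rw [smul_eq_mul, ev_mul (ha N)]
    exact h1.mul_left _

theorem notMem_flat {a : ℕ → σ → K⟦X⟧} {ha : ∀ N, Z0 (a N)} {s f : MvPowerSeries σ K}
    (h : f ∉ flat a ha s) : ∃ n : ℕ, ∀ᶠ N in hyperfilter ℕ, ev (a N) f ∣ ev (a N) s ^ n := by
  have h1 : ¬ ∀ n : ℕ, ∀ᶠ N in hyperfilter ℕ, ev (a N) s ^ n ∣ ev (a N) f := h
  push Not at h1
  obtain ⟨n, hn⟩ := h1
  refine ⟨n, ?_⟩
  filter_upwards [hn] with N hN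
  exact (ValuationRing.dvd_total _ _).resolve_right hN

theorem not_pow_succ_dvd {s : K⟦X⟧} (h0 : s ≠ 0) (h1 : X ∣ s) (n : ℕ) : ¬ s ^ (n + 1) ∣ s ^ n := by
  intro h
  have h2 : s ^ n * s ∣ s ^ n * 1 := by rwa [← pow_succ, mul_one]
  have h3 := h1.trans ((mul_dvd_mul_iff_left (pow_ne_zero n h0)).1 h2)
  simp [X_dvd_iff] at h3

/-- the relative form of the theorem of Greenberg for formal power series -/
theorem greenberg [CharZero K] (I : Set (MvPowerSeries σ K)) (s : MvPowerSeries σ K)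
    (hs : MvPowerSeries.constantCoeff s = 0)
    (h : ∀ N : ℕ, ∃ a : σ → K⟦X⟧, Z0 a ∧ ev a s ≠ 0 ∧ ∀ g ∈ I, ev a s ^ N ∣ ev a g) :
    ∃ a : σ → K⟦X⟧, Z0 a ∧ ev a s ≠ 0 ∧ ∀ g ∈ I, ev a g = 0 := by
  classical
  choose a ha hs0 hI using h
  have hs1 : ∀ N, X ∣ ev (a N) s := by
    intro N
    have h1 : Ord 1 s := by
      intro d hd
      rw [(Finsupp.degree_eq_zero_iff d).1 (by omega)]
      exact hs
    simpa using h1.dvd_ev (ha N)
  set P := flat a ha s with hP
  have hsP : s ∉ P := by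
    intro h
    obtain ⟨N, hN⟩ := (h 2).exists
    exact not_pow_succ_dvd (hs0 N) (hs1 N) 1 (by simpa using hN)
  have hprime : P.IsPrime := by
    refine ⟨fun h => hsP (h ▸ Submodule.mem_top), fun {f g} hfg => ?_⟩
    by_contra hc
    push Not at hc
    obtain ⟨n, hn⟩ := notMem_flat hc.1
    obtain ⟨m, hm⟩ := notMem_flat hc.2
    obtain ⟨N, ⟨h1, h2⟩, h3⟩ := ((hn.and hm).and (hfg (n + m + 1))).exists
    rw [ev_mul (ha N)] at h3
    have h4 := h3.trans (mul_dvd_mul h1 h2)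
    rw [← pow_add] at h4
    exact not_pow_succ_dvd (hs0 N) (hs1 N) _ h4
  have hIP : ∀ g ∈ I, g ∈ P := by
    intro g hg n
    filter_upwards [Nat.hyperfilter_le_atTop (eventually_ge_atTop n)] with N hN
    exact (pow_dvd_pow _ hN).trans (hI N g hg)
  -- Noether normalisation
  let e := MvPowerSeries.renameEquiv K (Fintype.equivFin σ).symm
  let π := Ideal.Quotient.mk P
  have hπ : Function.Surjective π := Ideal.Quotient.mk_surjective
  obtain ⟨d, φ0, hfin, hinj⟩ := noether (Fintype.card σ) (π.comp e.toRingEquiv.toRingHom)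
    (RingHom.Finite.of_surjective _ (hπ.comp e.surjective)) (by simp)
  let φ : MvPowerSeries (Fin d) K →ₐ[K] MvPowerSeries σ K := e.toAlgHom.comp φ0
  let _ : Algebra (MvPowerSeries (Fin d) K) (MvPowerSeries σ K ⧸ P) :=
    ((π.comp e.toRingEquiv.toRingHom).comp φ0.toRingHom).toAlgebra
  have halg : ∀ x, algebraMap (MvPowerSeries (Fin d) K) (MvPowerSeries σ K ⧸ P) x = π (φ x) :=
    fun x => rfl
  have hF : Module.Finite (MvPowerSeries (Fin d) K) (MvPowerSeries σ K ⧸ P) := hfin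
  have hFa : FaithfulSMul (MvPowerSeries (Fin d) K) (MvPowerSeries σ K ⧸ P) :=
    (faithfulSMul_iff_algebraMap_injective _ _).2 hinj
  have hdom : IsDomain (MvPowerSeries (Fin d) K) := NoZeroDivisors.to_isDomain _
  have hchar : CharZero (MvPowerSeries (Fin d) K) :=
    charZero_of_injective_algebraMap (algebraMap K _).injective
  obtain ⟨η, Q, δ, hδ, hQ0, hQ1, hQ2, hQ3⟩ :=
    exists_prim (A := MvPowerSeries (Fin d) K) (B := MvPowerSeries σ K ⧸ P)
  obtain ⟨y, rfl⟩ := hπ η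
  have hlift : ∀ G : Polynomial (MvPowerSeries (Fin d) K),
      Polynomial.aeval (π y) G = π (G.eval₂ φ.toRingHom y) := by
    intro G
    rw [Polynomial.hom_eval₂]
    rfl
  have hev : ∀ N (G : Polynomial (MvPowerSeries (Fin d) K)), ev (a N) (G.eval₂ φ.toRingHom y) =
      G.eval₂ ((evh (ha N)).toRingHom.comp φ.toRingHom) (ev (a N) y) := by
    intro N G
    rw [← evh_apply (ha N), ← evh_apply (ha N)]
    exact Polynomial.hom_eval₂ G φ.toRingHom (evh (ha N)).toRingHom y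
  obtain ⟨G, hG⟩ := hQ3 (π s)
  have m1 : Q.eval₂ φ.toRingHom y ∈ P := by
    rw [← Ideal.Quotient.eq_zero_iff_mem, ← hlift, hQ0]
  have m2 : (Polynomial.derivative Q).eval₂ φ.toRingHom y ∉ P := by
    rw [← Ideal.Quotient.eq_zero_iff_mem, ← hlift]
    exact hQ1
  have m3 : φ δ ∉ P := by
    rw [← Ideal.Quotient.eq_zero_iff_mem]
    exact fun h => hδ (hinj (h.trans (map_zero _).symm))
  have m4 : G.eval₂ φ.toRingHom y - φ δ * s ∈ P := by
    rw [← Ideal.Quotient.eq_zero_iff_mem, map_sub, ← hlift, ← hG, map_mul, halg, sub_self]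
  obtain ⟨n1, hn1⟩ := notMem_flat m2
  obtain ⟨n2, hn2⟩ := notMem_flat m3
  obtain ⟨N, ⟨k1, k2⟩, k3, k4⟩ := ((hn1.and hn2).and
    ((m1 (2 * (n1 + n2) + 2)).and (m4 (2 * (n1 + n2) + 2)))).exists
  let θ := (evh (K := K) (ha N)).toRingHom.comp φ.toRingHom
  have hθ : ∀ x, θ x = ev (a N) (φ x) := fun x => evh_apply (ha N) _
  rw [hev] at k1 k3
  rw [ev_sub (ha N), ev_mul (ha N), hev, ← hθ] at k4
  rw [← hθ] at k2
  obtain ⟨m, u, hu, hsu⟩ := exists_unit (hs0 N)
  have hm : 0 < m := by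
    have := hs1 N
    rw [hsu] at this
    exact le_of_X_pow_dvd (a := 1) hu (by rwa [pow_one])
  have hpow : ∀ n, ev (a N) s ^ n = X ^ (m * n) * u ^ n := fun n => by
    rw [hsu, mul_pow, pow_mul]
  have hne : ∀ n, ev (a N) s ^ n ≠ 0 := fun n => pow_ne_zero _ (hs0 N)
  obtain ⟨c, U, hU, hc⟩ := exists_unit (ne_zero_of_dvd_ne_zero (hne _) k1)
  have hc1 : c ≤ m * n1 := by
    rw [hc, hpow] at k1
    exact le_of_X_pow_dvd (hu.pow _) ((Dvd.intro _ rfl).trans k1)
  have hX : ∀ j, j ≤ m * (2 * (n1 + n2) + 2) → (X : K⟦X⟧) ^ j ∣ ev (a N) s ^ (2 * (n1 + n2) + 2) :=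
    fun j hj => by
      rw [hpow]
      exact (pow_dvd_pow X hj).mul_right _
  obtain ⟨w, hw⟩ := hensel (Q.map θ) (ev (a N) y) U (d := c) (D := m * (n1 + n2 + 1) + 1)
    (by nlinarith) hU (by rw [Polynomial.derivative_map, Polynomial.eval_map]; exact hc)
    (by rw [Polynomial.eval_map]; exact (hX _ (by nlinarith)).trans k3)
  rw [Polynomial.eval_map] at hw
  have hθδ : θ δ ≠ 0 := ne_zero_of_dvd_ne_zero (hne _) k2
  obtain ⟨ρ, hρ⟩ := exists_ext hQ2 hQ3 θ hθδ hw
  have hρ1 : ∀ x, ρ (π (φ x)) = θ x := fun x => by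
    have := hρ (Polynomial.C x)
    rwa [Polynomial.aeval_C, Polynomial.eval₂_C, halg] at this
  obtain ⟨hz, hΨ⟩ := hom_eq_ev (ρ.comp π) (fun c => by
    have h1 : φ (MvPowerSeries.C c) = MvPowerSeries.C c := φ.commutes c
    rw [RingHom.comp_apply, ← h1, hρ1, hθ, h1, ev_C])
  refine ⟨_, hz, fun h0 => ?_, fun g hg => ?_⟩
  · rw [← hΨ, RingHom.comp_apply] at h0
    have h1 := hρ G
    rw [← hG, map_mul, h0, mul_zero] at h1
    have h2 : (X : K⟦X⟧) ^ (m * (n1 + n2 + 1) + 1) ∣ G.eval₂ θ (ev (a N) y) := by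
      have h3 := Polynomial.sub_dvd_eval_sub (ev (a N) y)
        (ev (a N) y + X ^ (m * (n1 + n2 + 1) + 1) * w) (G.map θ)
      rw [Polynomial.eval_map, Polynomial.eval_map, ← h1, sub_zero] at h3
      exact Dvd.dvd.trans ⟨-w, by ring⟩ h3
    have h3 := dvd_sub h2 ((hX _ (by nlinarith)).trans k4)
    rw [sub_sub_cancel] at h3
    have h4 := h3.trans (mul_dvd_mul_right k2 _)
    rw [← pow_succ, hpow] at h4
    have h5 := le_of_X_pow_dvd (hu.pow _) h4
    nlinarith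
  · rw [← hΨ, RingHom.comp_apply, Ideal.Quotient.eq_zero_iff_mem.2 (hIP g hg), map_zero]

end

end Vale.Agent.P218G
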