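import Vale.Agent.P218G.Stat
import Vale.Agent.P218G.A0
import Vale.Agent.P218L.Loj2

/-!
# P218: the scalar Lojasiewicz inequality for the family of reduced functionals
-/

namespace Vale.Agent.P218G

open Filter Finset Topology Metric Vale.Agent.P218S

variable {α ι : Type} [Fintype α] [Fintype ι]

omit [Fintype α] in
theorem zc_spec (x : α ⊕ ι → ℝ) {ε : ℝ} (h0 : 0 < ε) (h1 : ε < 1) :
    0 < zc x ε ∧ ‖fun j => x (Sum.inr j)‖ * zc x ε ^ 3 ≤ 1 ∧ ε ≤ Real.exp (-zc x ε ^ 2 / 16) ∧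
      (Real.exp (-zc x ε ^ 2 / 16) = ε ∨ ‖fun j => x (Sum.inr j)‖ * zc x ε ^ 3 = 1) := by
  have h2 : 0 < 16 * Real.log ε⁻¹ := mul_pos (by norm_num) (Real.log_pos (one_lt_inv₀ h0 |>.2 h1))
  have h3 : 0 < (√(16 * Real.log ε⁻¹))⁻¹ := inv_pos.2 (Real.sqrt_pos.2 h2)
  have h4 : (‖fun j => x (Sum.inr j)‖ ^ (3⁻¹ : ℝ)) ^ 3 = ‖fun j => x (Sum.inr j)‖ := by
    exact_mod_cast Real.rpow_inv_natCast_pow (n := 3) (norm_nonneg _) (by norm_num)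
  have h5 : Real.exp (-(√(16 * Real.log ε⁻¹))⁻¹⁻¹ ^ 2 / 16) = ε := by
    rw [inv_inv, Real.sq_sqrt h2.le, Real.log_inv,
      show -(16 * -Real.log ε) / 16 = Real.log ε by ring, Real.exp_log h0]
  have h6 := Real.rpow_nonneg (norm_nonneg fun j => x (Sum.inr j)) 3⁻¹
  rw [zc]
  generalize ‖fun j => x (Sum.inr j)‖ ^ (3⁻¹ : ℝ) = a at *
  generalize (√(16 * Real.log ε⁻¹))⁻¹ = b at *
  have h7 : 0 < max a b := lt_max_of_lt_right h3
  rw [← h4, ← mul_pow, ← h5]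
  refine ⟨inv_pos.2 h7, pow_le_one₀ (by positivity) ?_, Real.exp_le_exp.2 ?_, ?_⟩
  · rw [mul_inv_le_iff₀ h7, one_mul]
    exact le_max_left _ _
  · have := pow_le_pow_left₀ (by positivity) (inv_anti₀ h3 (le_max_right a b)) 2
    linarith
  · rcases le_total a b with h | h
    · exact Or.inl (by rw [max_eq_right h])
    · exact Or.inr (by rw [max_eq_left h, mul_inv_cancel₀ (h3.trans_le h).ne', one_pow])

theorem zc_top (Z : ℝ) : ∃ s : ℝ, 0 < s ∧ s < 1 ∧ ∀ (x : α ⊕ ι → ℝ) (ε : ℝ), ‖x‖ ≤ s → 0 < ε →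
    ε ≤ s → Z ≤ zc x ε := by
  wlog hZ : 1 ≤ Z generalizing Z
  · obtain ⟨s, h1, h2, h3⟩ := this 1 le_rfl
    exact ⟨s, h1, h2, fun x ε k1 k2 k3 => by linarith [h3 x ε k1 k2 k3]⟩
  have h0 : Real.exp (-Z ^ 2 / 16) < 1 := Real.exp_lt_one_iff.2 (by nlinarith)
  refine ⟨min (Real.exp (-Z ^ 2 / 16)) (Z ^ 3)⁻¹, by positivity, min_lt_of_left_lt h0,
    fun x ε k1 k2 k3 => ?_⟩
  rw [le_min_iff] at k1 k3
  obtain ⟨h1, -, -, h2 | h2⟩ := zc_spec x k2 (k3.1.trans_lt h0)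
  · have h3 := Real.exp_le_exp.1 (h2.le.trans k3.1)
    exact (pow_le_pow_iff_left₀ (by linarith) h1.le two_ne_zero).1 (by linarith)
  · refine (pow_le_pow_iff_left₀ (n := 3) (by linarith) h1.le (by norm_num)).1 ?_
    have h3 : ‖fun j => x (Sum.inr j)‖ ≤ (Z ^ 3)⁻¹ := le_trans
      ((pi_norm_le_iff_of_nonneg (norm_nonneg _)).2 fun j => norm_le_pi_norm x _) k1.2
    have h4 := mul_le_mul_of_nonneg_right h3 (pow_pos h1 3).le
    rwa [h2, le_inv_mul_iff₀ (by positivity), mul_one] at h4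

omit [Fintype α] in
theorem zc_cont {p : (α ⊕ ι → ℝ) × ℝ} (h0 : 0 < p.2) (h1 : p.2 < 1) :
    ContinuousAt (fun q : (α ⊕ ι → ℝ) × ℝ => zc q.1 q.2) p := by
  have h2 : 0 < √(16 * Real.log p.2⁻¹) :=
    Real.sqrt_pos.2 (mul_pos (by norm_num) (Real.log_pos (one_lt_inv₀ h0 |>.2 h1)))
  refine ContinuousAt.inv₀ (ContinuousAt.sup (ContinuousAt.rpow_const (by fun_prop)
    (Or.inr (by norm_num))) (ContinuousAt.inv₀ ?_ h2.ne')) (lt_max_of_lt_right (inv_pos.2 h2)).ne'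
  exact (continuousAt_const.mul ((continuousAt_snd.inv₀ h0.ne').log (inv_pos.2 h0).ne')).sqrt

theorem ev_pow_gauss {a : ℝ} (ha : 0 < a) (k : ℕ) :
    ∀ᶠ Z : ℝ in atTop, Real.exp (-Z ^ 2 / a) * Z ^ k ≤ 1 := by
  filter_upwards [ev_quad (inv_pos.2 ha) k 0, eventually_ge_atTop 0] with Z h1 h2
  have h3 : Z ^ k ≤ Real.exp Z ^ k := pow_le_pow_left₀ h2 (by linarith [Real.add_one_le_exp Z]) _
  refine (mul_le_mul_of_nonneg_left h3 (Real.exp_pos _).le).trans ?_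
  rw [← Real.exp_nat_mul, ← Real.exp_add, Real.exp_le_one_iff, div_eq_inv_mul]
  linarith

theorem rpow_max_le {y a D ε p : ℝ} (hy : 0 ≤ y) (ha : 1 ≤ a) (hD : 0 ≤ D) (h0 : 0 < ε)
    (h1 : ε ≤ 1) (hp : 1 ≤ p) (hp3 : p ≤ 3) (h : y ≤ a * max D ε) :
    y ^ p ≤ a ^ 3 * (D ^ p + ε) := by
  refine (Real.rpow_le_rpow hy h (by linarith)).trans ?_
  rw [Real.mul_rpow (by linarith) (le_max_of_le_left hD)]
  refine mul_le_mul (by exact_mod_cast Real.rpow_le_rpow_of_exponent_le ha hp3) ?_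
    (Real.rpow_nonneg (le_max_of_le_left hD) _) (by positivity)
  rcases le_total D ε with h2 | h2
  · rw [max_eq_right h2]
    linarith [Real.rpow_nonneg hD p, Real.rpow_le_self_of_le_one h0.le h1 hp]
  · rw [max_eq_left h2]
    linarith

theorem norm_rp {σ : Type} [Fintype σ] (x : σ → ℝ) : ‖rp x‖ = ‖x‖ := by
  simp [rp, Pi.norm_def]

theorem norm_fderiv_re {σ : Type} [Fintype σ] {g : (σ → ℂ) → ℂ} {x : σ → ℝ}
    (h : DifferentiableAt ℂ g (rp x)) :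
    ‖fderiv ℝ (fun y => (g (rp y)).re) x‖ ≤ ‖fderiv ℂ g (rp x)‖ := by
  have h1 := Complex.reCLM.hasFDerivAt.comp x
    ((h.hasFDerivAt.restrictScalars ℝ).comp x (P218L.rl (ι := σ)).hasFDerivAt)
  have h2 : fderiv ℝ (fun y => (g (rp y)).re) x = _ := h1.fderiv
  rw [h2]
  refine ContinuousLinearMap.opNorm_le_bound _ (norm_nonneg _) fun v => ?_
  rw [← norm_rp v]
  exact (Complex.abs_re_le_norm _).trans ((fderiv ℂ g (rp x)).le_opNorm (rp v))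

variable {f : (ι → ℝ) → (α ⊕ ι → ℂ) → ℂ} {r : ℝ}

theorem WF.err' (h : WF f r) (hr : 0 < r) {M : ℕ} (hM : 2 ≤ M) {s : ℝ} (hs : 0 < s)
    (hg : DifferentiableOn ℂ (sm (jt M f)) (ball 0 s)) : ∃ C : ℝ, 0 ≤ C ∧ ∀ᶠ Z : ℝ in atTop,
    ∀ x : α ⊕ ι → ℝ, ‖x‖ ≤ min s r / 4 → ‖fun j => x (Sum.inr j)‖ * Z ^ 3 ≤ 1 →
      ‖f (fun _ => Z) (rp x) - sm (jt M f) (rp x)‖ ≤
        C * (‖fun j => x (Sum.inr j)‖ ^ M + Real.exp (-Z ^ 2 / 16)) ∧
      ‖fderiv ℂ (f fun _ => Z) (rp x) - fderiv ℂ (sm (jt M f)) (rp x)‖ ≤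
        C * (‖fun j => x (Sum.inr j)‖ ^ M + Real.exp (-Z ^ 2 / 16)) := by
  obtain ⟨C, hC, h1⟩ := h.err hr M
  have hs' : 0 < min s r := lt_min hs hr
  refine ⟨C * (2 ^ (M + 1) + 1), by positivity, ?_⟩
  filter_upwards [h1, h 2 one_lt_two, ev_pow_gauss (a := 32) (by norm_num) 3,
    eventually_ge_atTop 4, ev_quad hs' 0 4] with Z k1 k2 k3 k4 k5 x l1 l2
  set c := ‖fun j => x (Sum.inr j)‖ with hc
  set w := Real.exp (-Z ^ 2 / 32) with hw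
  have hc0 : 0 ≤ c := norm_nonneg _
  have hw0 : 0 < w := Real.exp_pos _
  have hw1 : w ≤ 1 := Real.exp_le_one_iff.2 (by nlinarith)
  have hw4 : Real.exp (-Z ^ 2 / 16) = w ^ 2 := by
    rw [hw, ← Real.exp_nat_mul]
    congr 1
    push_cast
    ring
  have hw6 : Real.exp (-(3 / 16) * Z ^ 2) = w ^ 6 := by
    rw [hw, ← Real.exp_nat_mul]
    congr 1
    push_cast
    ring
  obtain ⟨τ, t1, t2, t3, t4⟩ : ∃ τ, c ≤ τ ∧ w ≤ τ ∧ τ * Z ^ 3 ≤ 1 ∧ τ ^ M ≤ c ^ M + w ^ 2 := by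
    rcases le_total c w with h2 | h2
    · exact ⟨w, h2, le_rfl, k3, (pow_le_pow_of_le_one hw0.le hw1 hM).trans
        (le_add_of_nonneg_left (by positivity))⟩
    · exact ⟨c, le_rfl, h2, l2, le_add_of_nonneg_right (by positivity)⟩
  have t0 : 0 < τ := hw0.trans_le t2
  have hT : 0 < Z ^ 2 := by positivity
  have t5 : 2 * Z ^ 2 * (2 * τ) ≤ 1 := by nlinarith [mul_pos t0 hT]
  have t6 : τ ≤ min s r / 4 := by
    refine le_of_mul_le_mul_right ?_ hT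
    nlinarith
  have t7 : τ ≤ 1 := by nlinarith
  have b0 : ∀ y ∈ ball (rp x) τ, ‖y‖ < min s r / 2 := fun y hy => by
    have := norm_lt_of_mem_ball hy
    rw [norm_rp] at this
    linarith
  have b1 : ∀ y ∈ ball (rp x) τ, ∀ i, ‖y (Sum.inl i)‖ ≤ r / 2 := fun y hy i => by
    linarith [b0 y hy, norm_le_pi_norm y (Sum.inl i), min_le_right s r]
  have b2 : ∀ y ∈ ball (rp x) τ, ∀ j, ‖y (Sum.inr j)‖ ≤ 2 * τ := fun y hy j => by
    have m1 := (norm_le_pi_norm (y - rp x) (Sum.inr j)).trans (mem_ball_iff_norm.1 hy).le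
    have m2 : ‖rp x (Sum.inr j)‖ ≤ c :=
      (Complex.norm_real _).trans_le (norm_le_pi_norm (fun j => x (Sum.inr j)) j)
    rw [Pi.sub_apply] at m1
    linarith [norm_le_norm_add_norm_sub' (y (Sum.inr j)) (rp x (Sum.inr j))]
  have b3 : DifferentiableOn ℂ (f fun _ => Z) (ball (rp x) τ) := by
    refine (k2 _ (const_mem_cut le_rfl (by linarith))).1.mono ?_
    rintro y hy (i | i)
    · exact (b1 y hy i).trans_lt (half_lt_self hr)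
    · refine (b2 y hy i).trans_lt ?_
      change 2 * τ < (2 * Z ^ 2 / 2)⁻¹
      rw [← one_div, lt_div_iff₀ (by positivity)]
      linarith
  have b4 : DifferentiableOn ℂ (sm (jt M f)) (ball (rp x) τ) := hg.mono fun y hy =>
    mem_ball_zero_iff.2 (by linarith [b0 y hy, min_le_left s r])
  have b5 : ∀ y ∈ ball (rp x) τ, ‖f (fun _ => Z) y - sm (jt M f) y‖ ≤
      C * (2 ^ (M + 1) + 1) * (c ^ M + w ^ 2) * τ := fun y hy => by
    refine (k1 _ y (by positivity) t5 (b1 y hy) (b2 y hy)).trans ?_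
    rw [hw6, mul_assoc, mul_assoc, mul_pow, pow_succ τ]
    refine mul_le_mul_of_nonneg_left ?_ hC
    have m1 : w ^ 6 ≤ (c ^ M + w ^ 2) * τ := by
      calc w ^ 6 = w ^ 2 * w ^ 3 * w := by ring
        _ ≤ (c ^ M + w ^ 2) * 1 * τ := by
          gcongr
          · exact le_add_of_nonneg_left (by positivity)
          · exact pow_le_one₀ hw0.le hw1
        _ = _ := by ring
    have m2 : 2 ^ (M + 1) * (τ ^ M * τ) ≤ 2 ^ (M + 1) * ((c ^ M + w ^ 2) * τ) := by gcongr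
    linarith
  have hx := ball_mem_nhds (rp x) t0
  rw [hw4, ← fderiv_fun_sub (b3.differentiableAt hx) (b4.differentiableAt hx)]
  exact ⟨(b5 _ (mem_ball_self t0)).trans (mul_le_of_le_one_right (by positivity) t7),
    (P268.norm_fderiv_le_of_ball t0 (b3.fun_sub b4) b5).trans_eq (mul_div_cancel_right₀ _ t0.ne')⟩

theorem endgame {c D G u ε V p C₀ C₁ C₂ K₀ : ℝ} {N : ℕ} (c0 : 0 ≤ c) (D0 : 0 ≤ D) (G0 : 0 ≤ G)
    (ε0 : 0 < ε) (ε1 : ε ≤ 1) (c1 : c ≤ 1) (c2 : c ≤ (4 * C₁ * C₀ + 1)⁻¹) (h0 : 1 ≤ C₀)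
    (h1 : 0 ≤ C₁) (h2 : 0 ≤ C₂) (p1 : 1 ≤ p) (p2 : p ≤ 2) (hK : G ≤ K₀) (hN : c ^ N ≤ C₀ * G)
    (hE : -(C₁ * (c ^ (3 * N + 4) + u)) ≤ D - G ∧ D - G ≤ C₁ * (c ^ (3 * N + 4) + u))
    (hu : u ≤ ε + c ^ (3 * N + 4)) (hV : V ≤ C₁ * (c ^ (3 * N + 4) + u) + C₂ * G ^ p) :
    D ≤ K₀ + 3 * C₁ + (C₁ * (2 * (C₀ * (2 + 2 * C₁)) ^ 3 + 1) + C₂ * (2 + 2 * C₁) ^ 3) +
      (1 + (C₀ * (2 + 2 * C₁)) ^ 3) ∧
    V ≤ (K₀ + 3 * C₁ + (C₁ * (2 * (C₀ * (2 + 2 * C₁)) ^ 3 + 1) + C₂ * (2 + 2 * C₁) ^ 3) +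
      (1 + (C₀ * (2 + 2 * C₁)) ^ 3)) * (D ^ p + ε) ∧
    u ≤ (K₀ + 3 * C₁ + (C₁ * (2 * (C₀ * (2 + 2 * C₁)) ^ 3 + 1) + C₂ * (2 + 2 * C₁) ^ 3) +
      (1 + (C₀ * (2 + 2 * C₁)) ^ 3)) * (D ^ 3 + ε) := by
  have K0 : 0 ≤ K₀ := G0.trans hK
  have a2 : C₁ * (c ^ (3 * N + 4) + u) ≤ C₁ * (2 * c ^ (3 * N + 4) + ε) :=
    mul_le_mul_of_nonneg_left (by linarith) h1
  have a3 : 4 * C₁ * c ^ (3 * N + 4) ≤ G := by
    have m1 : c ^ (3 * N + 4) ≤ c * (C₀ * G) :=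
      ((pow_le_pow_of_le_one c0 c1 (by omega)).trans_eq (pow_succ' c N)).trans
        (mul_le_mul_of_nonneg_left hN c0)
    rw [← one_div, le_div_iff₀ (by positivity)] at c2
    linarith [mul_le_mul_of_nonneg_left m1 h1, mul_le_mul_of_nonneg_right c2 G0, mul_nonneg c0 G0]
  have a4 : G ≤ (2 + 2 * C₁) * max D ε := by
    linarith [le_max_left D ε, mul_le_mul_of_nonneg_left (le_max_right D ε) h1, hE.1]
  have a5 : ∀ p : ℝ, 1 ≤ p → p ≤ 3 →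
      c ^ (3 * N + 4) ≤ (C₀ * (2 + 2 * C₁)) ^ 3 * (D ^ p + ε) := fun p m1 m2 => by
    refine le_trans ?_ (rpow_max_le (pow_nonneg c0 N) (one_le_mul_of_one_le_of_one_le h0
      (by linarith)) D0 ε0 ε1 m1 m2
      (hN.trans (by rw [mul_assoc]; exact mul_le_mul_of_nonneg_left a4 (by linarith))))
    refine (pow_le_pow_of_le_one c0 c1 (by omega : N * 3 ≤ _)).trans ?_
    rw [pow_mul, ← Real.rpow_natCast]
    exact Real.rpow_le_rpow_of_exponent_ge' (pow_nonneg c0 N) (pow_le_one₀ c0 c1) (by linarith)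
      (by exact_mod_cast m2)
  have a6 := mul_le_mul_of_nonneg_left
    (rpow_max_le G0 (by linarith) D0 ε0 ε1 p1 (by linarith) a4) h2
  have a7 := mul_le_mul_of_nonneg_left (a5 _ p1 (by linarith)) h1
  have a8 := a5 3 (by norm_num) le_rfl
  rw [Real.rpow_ofNat] at a8
  have a9 := Real.rpow_nonneg D0 p
  have a10 := mul_le_mul_of_nonneg_left (pow_le_one₀ (n := 3 * N + 4) c0 c1) h1
  have b0 : 0 ≤ (C₀ * (2 + 2 * C₁)) ^ 3 := by positivity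
  have b1 : 0 ≤ C₂ * (2 + 2 * C₁) ^ 3 := by positivity
  rw [← mul_assoc] at a6
  generalize D ^ p = P at *
  generalize c ^ (3 * N + 4) = e at *
  generalize (C₀ * (2 + 2 * C₁)) ^ 3 = b at *
  generalize C₂ * (2 + 2 * C₁) ^ 3 = a at *
  refine ⟨by linarith [mul_nonneg h1 b0, hE.2, mul_le_mul_of_nonneg_left ε1 h1], ?_, ?_⟩
  · have m1 : 0 ≤ (K₀ + 3 * C₁ + (1 + b)) * (P + ε) := by positivity
    linarith [mul_nonneg h1 a9]
  · have m1 : 0 ≤ (K₀ + 3 * C₁ + (C₁ * (2 * b + 1) + a)) * (D ^ 3 + ε) := by positivity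
    linarith [pow_nonneg D0 3]

theorem WF.loj (h : WF f r) (hr : 0 < r) (hf : RealF f) (hH : HH (jet f)) : LojF f := by
  obtain ⟨N, hN⟩ := hH
  obtain ⟨C₀', h0⟩ := hN (3 * N + 4) (by omega)
  have e1 : (sumF (truncC (3 * N + 4) (jet f)) : (α ⊕ ι → ℂ) → ℂ) = sm (jt (3 * N + 4) f) :=
    funext (h.sumF_eq hr hf _)
  have e2 : ∀ x : α ⊕ ι → ℝ, sm (jt (3 * N + 4) f) (rp x) =
      (sumF (truncC (3 * N + 4) (jet f)) x : ℝ) := fun x => e1 ▸ Cv.sumF_ofReal (𝕜 := ℂ) _ x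
  have e3 : (sumF (truncC (3 * N + 4) (jet f)) : (α ⊕ ι → ℝ) → ℝ) =
      fun y => (sm (jt (3 * N + 4) f) (rp y)).re := funext fun y => by rw [e2, Complex.ofReal_re]
  have e4 : sm (jt (3 * N + 4) f) 0 = (sumF (truncC (3 * N + 4) (jet f)) (0 : α ⊕ ι → ℝ) : ℝ) := by
    rw [← e2]
    congr 1
  have hg : AnalyticAt ℂ (sm (jt (3 * N + 4) f)) 0 :=
    e1 ▸ (Cv.conv_truncC zero_le_two (h.gev hr) _).sumF_analyticAt
  obtain ⟨θ, C₂, h1, h2, h3, h4⟩ := P218L.loj_complex hg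
  obtain ⟨s, hs, h5⟩ := Metric.eventually_nhds_iff_ball.1 (h4.and (hg.eventually_analyticAt.and
    (hg.fderiv.continuousAt.norm.eventually (gt_mem_nhds (lt_add_one _)))))
  obtain ⟨s', hs', h6⟩ := Metric.eventually_nhds_iff_ball.1 h0
  obtain ⟨C₁, h7, h8⟩ := h.err' hr (M := 3 * N + 4) (by omega) hs
    fun y hy => (h5 y hy).2.1.differentiableAt.differentiableWithinAt
  obtain ⟨Z₀, h9⟩ := eventually_atTop.1 (h8.and (ev_pow_gauss (a := 16) (by norm_num)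
    (3 * (3 * N + 4))))
  obtain ⟨s₁, h10, h11, h12⟩ := zc_top (α := α) (ι := ι) Z₀
  obtain ⟨C₀, h13, h14⟩ : ∃ C₀, 1 ≤ C₀ ∧ C₀' ≤ C₀ := ⟨max 1 C₀', le_max_left _ _, le_max_right _ _⟩
  set K₀ := ‖fderiv ℂ (sm (jt (3 * N + 4) f)) 0‖ + 1
  have hK : 0 ≤ K₀ := by positivity
  have hθ : 0 < θ := by linarith
  have p1 : 1 ≤ θ⁻¹ := (one_le_inv₀ hθ).2 h2.le
  have p2 : θ⁻¹ ≤ 2 := by
    rw [inv_le_comm₀ hθ two_pos]
    linarith
  refine ⟨sumF (truncC (3 * N + 4) (jet f)) (0 : α ⊕ ι → ℝ), θ⁻¹ / 2, K₀ + 3 * C₁ +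
    (C₁ * (2 * (C₀ * (2 + 2 * C₁)) ^ 3 + 1) + C₂ * (2 + 2 * C₁) ^ 3) +
    (1 + (C₀ * (2 + 2 * C₁)) ^ 3), min (min (min s r / 4) (s' / 2)) (min s₁ (4 * C₁ * C₀ + 1)⁻¹),
    by linarith [(one_lt_inv₀ hθ).2 h2], by linarith, by positivity, by positivity, ?_,
    fun x ε k1 k2 k3 => ?_⟩
  · obtain ⟨C, -, k1⟩ := h.err hr (3 * N + 4)
    rw [← e4, tendsto_iff_norm_sub_tendsto_zero]
    refine squeeze_zero' (.of_forall fun _ => norm_nonneg _) (k1.mono fun Z hZ => ?_)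
      (tendsto_gauss (η := 3 / 16) (by norm_num) C)
    simpa using hZ 0 0 le_rfl (by simp) (fun i => by simpa using (half_pos hr).le) fun j => by simp
  simp only [le_min_iff] at k1 k3
  obtain ⟨z1, z2, -, z3⟩ := zc_spec x k2 (k3.2.1.trans_lt h11)
  obtain ⟨z4, z5⟩ := h9 _ (h12 x ε k1.2.1 k2 k3.2.1)
  obtain ⟨z6, z7⟩ := z4 x k1.1.1 z2
  have hx : rp x ∈ ball (0 : α ⊕ ι → ℂ) s := by
    rw [mem_ball_zero_iff, norm_rp]
    linarith [k1.1.1, min_le_left s r]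
  obtain ⟨⟨-, z8⟩, z9, z10⟩ := h5 _ hx
  have z11 := (h6 x (mem_ball_zero_iff.2 (by linarith [k1.1.2]))).trans
    (mul_le_mul h14 (e3 ▸ norm_fderiv_re z9.differentiableAt) (norm_nonneg _) (by linarith))
  have z12 : ‖fun j => x (Sum.inr j)‖ ≤ ‖x‖ :=
    (pi_norm_le_iff_of_nonneg (norm_nonneg _)).2 fun j => norm_le_pi_norm x _
  have z13 := norm_sub_le_norm_sub_add_norm_sub (f (fun _ => zc x ε) (rp x))
    (sm (jt (3 * N + 4) f) (rp x)) (sm (jt (3 * N + 4) f) 0)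
  have z14 := abs_le.1 ((abs_norm_sub_norm_le _ _).trans z7)
  have a1 : Real.exp (-zc x ε ^ 2 / 16) ≤ ε + ‖fun j => x (Sum.inr j)‖ ^ (3 * N + 4) := by
    have m0 := pow_nonneg (norm_nonneg fun j => x (Sum.inr j)) (3 * N + 4)
    rcases z3 with z3 | z3
    · linarith
    · have m1 := mul_le_mul_of_nonneg_left z5 m0
      rw [pow_mul, mul_left_comm, ← mul_pow, z3, one_pow] at m1
      linarith
  rw [← e4, mul_div_cancel₀ _ two_ne_zero]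
  exact endgame (norm_nonneg _) (norm_nonneg _) (norm_nonneg _) k2 (k3.2.1.trans h11.le)
    (z12.trans (k1.2.1.trans h11.le)) (z12.trans k1.2.2) h13 h7 h3.le p1 p2 z10.le z11 z14 a1
    (z13.trans (add_le_add z6 z8))

/-- the scalar part of section 8 -/
theorem hlf (α ι : Type) [Fintype α] [Fintype ι] (hS : SADDLE (α ⊕ ι → ℂ) ι) : HLF α ι :=
  fun _ _ _ F hf H => (wf_fam F).loj F.r_pos hf
    (hh_jet hS (arc_of (a0s α ι)) (wf_fam F) F.r_pos hf H)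

end Vale.Agent.P218G
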