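import Vale.Agent.P218G.Grn

/-!
# P218, formal arcs: moving an arc along the leaves of a foliation
-/

namespace Vale.Agent.P218G

open PowerSeries

section

variable {σ : Type} [Fintype σ] {K S S' : Type} [CommRing K] [CommRing S] [Algebra K S]
  [CommRing S'] [Algebra K S']

omit [Fintype σ] in
theorem Z0.map {a : σ → S⟦X⟧} (ha : Z0 a) (φ : S →ₐ[K] S') : Z0 fun i => mapAlgHom φ (a i) := by
  intro i
  change constantCoeff (mapAlgHom φ (a i)) = 0
  rw [mapAlgHom_apply, ← coeff_zero_eq_constantCoeff_apply, coeff_map,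
    coeff_zero_eq_constantCoeff_apply, ha i, map_zero]

theorem mapAlgHom_X (φ : S →ₐ[K] S') : mapAlgHom φ (X : S⟦X⟧) = X := by
  rw [mapAlgHom_apply, map_X]

theorem ev_map {a : σ → S⟦X⟧} (ha : Z0 a) (φ : S →ₐ[K] S') (f : MvPowerSeries σ K) :
    mapAlgHom φ (ev a f) = ev (fun i => mapAlgHom φ (a i)) f := by
  refine sub_eq_zero.1 (eq_zero_of_dvd fun n => ?_)
  obtain ⟨p, g, rfl, hg⟩ := exists_approx f n
  rw [ev_add ha, ev_add (ha.map φ), ev_coe, ev_coe, map_add,
    MvPolynomial.comp_aeval_apply, add_sub_add_left_eq_sub]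
  refine dvd_sub ?_ (hg.dvd_ev (ha.map φ))
  have := map_dvd (mapAlgHom φ) (hg.dvd_ev ha)
  rwa [map_pow, mapAlgHom_X] at this

/-- uniqueness in the Newton method -/
theorem newton_unique [DecidableEq σ] {a : σ → S⟦X⟧} (ha : Z0 a) (H : σ → MvPowerSeries σ K)
    (N : σ → σ → S⟦X⟧) {d D : ℕ} (hD : d < D)
    (hN : ∀ j i, ∑ k, N j k * ev a (MvPowerSeries.pderiv K i (H k)) =
      if j = i then X ^ d else 0) {v : σ → S⟦X⟧}
    (hv : ∀ k, ev (fun i => a i + X ^ D * v i) (H k) = ev a (H k)) (j : σ) : v j = 0 := by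
  refine eq_zero_of_dvd fun n => ?_
  induction n generalizing j with
  | zero => simp
  | succ n ih =>
    have h1 : ∀ k, (X : S⟦X⟧) ^ (2 * D + n) ∣
        X ^ D * ∑ i, v i * ev a (MvPowerSeries.pderiv K i (H k)) := by
      intro k
      have := ev_taylor ha (by omega : 0 < D) v 0 (n := n) (fun i => by simpa using ih i) (H k)
      simp only [Pi.zero_apply, mul_zero, add_zero, sub_zero] at this
      rw [hv, sub_self, zero_sub] at this
      exact dvd_neg.1 this
    have h2 := Finset.dvd_sum (s := Finset.univ) fun k _ => (h1 k).mul_left (N j k)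
    have h3 : ∑ k, N j k * (X ^ D * ∑ i, v i * ev a (MvPowerSeries.pderiv K i (H k))) =
        X ^ (D + d) * v j := by
      simp only [Finset.mul_sum]
      rw [Finset.sum_comm]
      have h4 : ∀ i, ∑ k, N j k * (X ^ D * (v i * ev a (MvPowerSeries.pderiv K i (H k)))) =
          X ^ D * v i * if j = i then X ^ d else 0 := by
        intro i
        rw [← hN, Finset.mul_sum]
        exact Finset.sum_congr rfl fun k _ => by ring
      simp only [h4, mul_ite, mul_zero, Finset.sum_ite_eq, Finset.mem_univ, if_true]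
      ring
    rw [h3] at h2
    obtain ⟨c, hc⟩ := h2
    obtain ⟨e, rfl⟩ := Nat.exists_eq_add_of_lt hD
    refine ⟨X ^ e * c, X_pow_mul_cancel (k := d + e + 1 + d) ?_⟩
    rw [hc]
    ring

/-- derivative with respect to the parameter -/
noncomputable def dl (F : (Polynomial K)⟦X⟧) : (Polynomial K)⟦X⟧ :=
  mk fun k => Polynomial.derivative (coeff k F)

theorem dl_add (F G : (Polynomial K)⟦X⟧) : dl (F + G) = dl F + dl G := by
  ext1 k
  simp [dl]

theorem dl_mul (F G : (Polynomial K)⟦X⟧) : dl (F * G) = dl F * G + F * dl G := by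
  ext1 k
  simp [dl, coeff_mul, Finset.sum_add_distrib]

theorem dl_map (f : K⟦X⟧) : dl (mapAlgHom (Algebra.ofId K (Polynomial K)) f) = 0 := by
  ext1 k
  simp [dl, mapAlgHom_apply]

theorem dl_C (q : Polynomial K) : dl (C q) = C (Polynomial.derivative q) := by
  ext1 k
  simp only [dl, coeff_mk, coeff_C]
  split_ifs <;> simp

theorem dvd_dl {F : (Polynomial K)⟦X⟧} {n : ℕ} (h : X ^ n ∣ F) : X ^ n ∣ dl F := by
  rw [X_pow_dvd_iff] at h ⊢
  intro m hm
  simp [dl, h m hm]

theorem dl_aeval (a : σ → (Polynomial K)⟦X⟧) (p : MvPolynomial σ K) :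
    dl (MvPolynomial.aeval a p) =
      ∑ i, dl (a i) * MvPolynomial.aeval a (MvPolynomial.pderiv i p) := by
  classical
  induction p using MvPolynomial.induction_on with
  | C r => simp [PowerSeries.algebraMap_apply, dl_C]
  | add p q hp hq => simp only [map_add, dl_add, hp, hq, mul_add, Finset.sum_add_distrib]
  | mul_X p j hp =>
    have h1 : ∑ i, dl (a i) * (MvPolynomial.aeval a p *
        MvPolynomial.aeval a (MvPolynomial.pderiv i (MvPolynomial.X j : MvPolynomial σ K))) =
        MvPolynomial.aeval a p * dl (a j) := by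
      rw [Finset.sum_eq_single j]
      · rw [MvPolynomial.pderiv_X_self, map_one, mul_one, mul_comm]
      · intro i _ hij
        rw [MvPolynomial.pderiv_X_of_ne (Ne.symm hij), map_zero, mul_zero, mul_zero]
      · simp
    simp only [Derivation.leibniz, smul_eq_mul, map_add, map_mul, MvPolynomial.aeval_X, mul_add,
      Finset.sum_add_distrib, dl_mul, hp, Finset.sum_mul, h1]
    rw [add_comm, add_right_inj]
    exact Finset.sum_congr rfl fun i _ => by ring

theorem dl_ev {a : σ → (Polynomial K)⟦X⟧} (ha : Z0 a) (f : MvPowerSeries σ K) :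
    dl (ev a f) = ∑ i, dl (a i) * ev a (MvPowerSeries.pderiv K i f) := by
  classical
  refine sub_eq_zero.1 (eq_zero_of_dvd fun n => ?_)
  obtain ⟨p, g, rfl, hg⟩ := exists_approx f (n + 1)
  simp only [map_add, ev_add ha, MvPowerSeries.pderiv_coe, ev_coe, mul_add,
    Finset.sum_add_distrib, dl_add, dl_aeval, add_sub_add_left_eq_sub]
  exact dvd_sub (dvd_dl ((hg.mono (Nat.le_succ n)).dvd_ev ha))
    (Finset.dvd_sum fun i _ => ((hg.pderiv i).dvd_ev ha).mul_left _)

theorem C_X_dvd {F : (Polynomial K)⟦X⟧} (h : mapAlgHom (Polynomial.aeval (0 : K)) F = 0) :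
    C Polynomial.X ∣ F := by
  refine ⟨mk fun k => (coeff k F).divX, ?_⟩
  ext1 k
  have h1 := congrArg (coeff k) h
  rw [mapAlgHom_apply, coeff_map, map_zero] at h1
  have h2 : (coeff k F).coeff 0 = 0 := by
    rw [Polynomial.coeff_zero_eq_aeval_zero]
    exact h1
  rw [coeff_C_mul, coeff_mk]
  conv_lhs => rw [← (coeff k F).X_mul_divX_add, h2, map_zero, add_zero]

theorem eq_zero_of_C_X_dvd {F : (Polynomial K)⟦X⟧} (h : ∀ j : ℕ, C Polynomial.X ^ j ∣ F) :
    F = 0 := by
  ext k j
  obtain ⟨G, hG⟩ := h (j + 1)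
  rw [hG, ← map_pow, coeff_C_mul, map_zero, Polynomial.coeff_zero]
  exact Polynomial.X_pow_dvd_iff.1 (Dvd.intro _ rfl) j (Nat.lt_succ_self j)

/-- the Jacobian matrix -/
noncomputable def jac (H : σ → MvPowerSeries σ K) : Matrix σ σ (MvPowerSeries σ K) :=
  Matrix.of fun k i => MvPowerSeries.pderiv K i (H k)

theorem jac_adj [DecidableEq σ] (H : σ → MvPowerSeries σ K) (k l : σ) :
    ∑ i, (jac H).adjugate i l * MvPowerSeries.pderiv K i (H k) =
      if k = l then (jac H).det else 0 := by
  have h := congrFun (congrFun (Matrix.mul_adjugate (jac H)) k) l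
  rw [Matrix.mul_apply, Matrix.smul_apply, Matrix.one_apply, smul_ite, smul_eq_mul, mul_one,
    smul_zero] at h
  rw [← h]
  exact Finset.sum_congr rfl fun i _ => mul_comm _ _

theorem adj_jac [DecidableEq σ] (H : σ → MvPowerSeries σ K) (j i : σ) :
    ∑ k, (jac H).adjugate j k * MvPowerSeries.pderiv K i (H k) =
      if j = i then (jac H).det else 0 := by
  have h := congrFun (congrFun (Matrix.adjugate_mul (jac H)) j) i
  rw [Matrix.mul_apply, Matrix.smul_apply, Matrix.one_apply, smul_ite, smul_eq_mul, mul_one,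
    smul_zero] at h
  exact h

end

section

variable {σ : Type} [Fintype σ] [DecidableEq σ] {K : Type} [Field K] [CharZero K]

theorem move {a : σ → K⟦X⟧} (ha : Z0 a) (P : Set (MvPowerSeries σ K))
    (hP : ∀ g ∈ P, ev a g = 0) (H : σ → MvPowerSeries σ K) (hdet : ev a (jac H).det ≠ 0)
    (hD : ∀ l, ev a (H l) ≠ 0 → ∀ g ∈ P,
      ∑ i, (jac H).adjugate i l * MvPowerSeries.pderiv K i g ∈ P) (p : ℕ) :
    ∃ b : σ → K⟦X⟧, Z0 b ∧ (∀ i, X ^ p ∣ b i - a i) ∧ (∀ g ∈ P, ev b g = 0) ∧
      (∀ k, ∃ q : Polynomial K, ev b (H k) = q) ∧ ev b (jac H).det ≠ 0 := by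
  obtain ⟨d, U, hU, hdU⟩ := exists_unit hdet
  obtain ⟨V, hV⟩ := hU.exists_right_inv
  set D := d + 1 + p with hDd
  have hdD : d < D := by omega
  let ι : K⟦X⟧ →ₐ[K] (Polynomial K)⟦X⟧ := mapAlgHom (Algebra.ofId K (Polynomial K))
  let e : K → ((Polynomial K)⟦X⟧ →ₐ[K] K⟦X⟧) := fun c => mapAlgHom (Polynomial.aeval c)
  have he : ∀ c f, e c (ι f) = f := by
    intro c f
    ext k
    simp [e, ι, mapAlgHom_apply]
  have heX : ∀ c, e c X = X := fun c => mapAlgHom_X _
  have heC : ∀ c, e c (C Polynomial.X) = C c := by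
    intro c
    simp [e, mapAlgHom_apply]
  let u : σ → K⟦X⟧ := fun k => -mk fun i => coeff (i + (D + d)) (ev a (H k))
  have hN : ∀ k l, ∑ i, V * ev a ((jac H).adjugate i l) * ev a (MvPowerSeries.pderiv K i (H k)) =
      if k = l then X ^ d else 0 := by
    intro k l
    simp only [mul_assoc, ← ev_mul ha]
    rw [← Finset.mul_sum, ← ev_sum ha, jac_adj]
    split_ifs
    · rw [hdU]
      linear_combination X ^ d * hV
    · rw [ev_zero ha, mul_zero]
  have hN' : ∀ j i, ∑ k, V * ev a ((jac H).adjugate j k) * ev a (MvPowerSeries.pderiv K i (H k)) =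
      if j = i then X ^ d else 0 := by
    intro k l
    simp only [mul_assoc, ← ev_mul ha]
    rw [← Finset.mul_sum, ← ev_sum ha, adj_jac]
    split_ifs
    · rw [hdU]
      linear_combination X ^ d * hV
    · rw [ev_zero ha, mul_zero]
  have ha' : Z0 fun i => ι (a i) := ha.map _
  have hι : ∀ f : MvPowerSeries σ K, ev (fun i => ι (a i)) f = ι (ev a f) := fun f =>
    (ev_map ha _ f).symm
  obtain ⟨v, hv⟩ := newton ha' H (fun i l => ι (V * ev a ((jac H).adjugate i l))) hdD (by
    intro k l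
    simp only [hι, ← map_mul]
    rw [← map_sum, hN]
    split_ifs
    · rw [map_pow, mapAlgHom_X]
    · rw [map_zero]) fun k => C Polynomial.X * ι (u k)
  set Γ : σ → (Polynomial K)⟦X⟧ := fun i => ι (a i) + X ^ D * v i with hΓ
  have hΓ0 : Z0 Γ := ha'.add_mul (by omega) v
  have hsp : ∀ c (f : MvPowerSeries σ K),
      e c (ev Γ f) = ev (fun i => a i + X ^ D * e c (v i)) f := by
    intro c f
    have h1 : (fun i => e c (Γ i)) = fun i => a i + X ^ D * e c (v i) := by
      funext i
      simp only [hΓ, map_add, map_mul, map_pow, he, heX]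
    rw [← h1]
    exact ev_map hΓ0 _ f
  have hH : ∀ c k, ev (fun i => a i + X ^ D * e c (v i)) (H k) =
      ev a (H k) + X ^ (D + d) * (C c * u k) := by
    intro c k
    rw [← hsp, hv, hι]
    simp only [map_add, map_mul, map_pow, he, heX, heC]
  have h0 : ∀ f : MvPowerSeries σ K, e 0 (ev Γ f) = ev a f := by
    intro f
    have h1 := newton_unique ha H (fun j k => V * ev a ((jac H).adjugate j k)) hdD hN'
      (v := fun i => e 0 (v i)) (fun k => by simpa using hH 0 k)
    rw [hsp]
    simp only [h1, mul_zero, add_zero]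
  have hdl : ∀ g : MvPowerSeries σ K, ev Γ (jac H).det * dl (ev Γ g) =
      ∑ l, X ^ (D + d) * ι (u l) *
        ev Γ (∑ i, (jac H).adjugate i l * MvPowerSeries.pderiv K i g) := by
    intro g
    have h1 : ∀ l, X ^ (D + d) * ι (u l) =
        ∑ j, dl (Γ j) * ev Γ (MvPowerSeries.pderiv K j (H l)) := by
      intro l
      have h2 : (X : (Polynomial K)⟦X⟧) ^ (D + d) = ι (X ^ (D + d)) := by
        rw [map_pow, mapAlgHom_X]
      rw [← dl_ev hΓ0, hv, hι, dl_add, dl_map, h2, dl_mul, dl_map, dl_mul, dl_map, dl_C]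
      simp
    have h2 : ∀ i, ev Γ (jac H).det * dl (Γ i) =
        ∑ l, X ^ (D + d) * ι (u l) * ev Γ ((jac H).adjugate i l) := by
      intro i
      simp only [h1, Finset.sum_mul]
      rw [Finset.sum_comm]
      have h3 : ∀ j, ∑ l, dl (Γ j) * ev Γ (MvPowerSeries.pderiv K j (H l)) *
          ev Γ ((jac H).adjugate i l) = dl (Γ j) * if i = j then ev Γ (jac H).det else 0 := by
        intro j
        have h4 := congrArg (ev Γ) (adj_jac H i j)
        rw [ev_sum hΓ0, apply_ite (ev Γ), ev_zero hΓ0] at h4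
        rw [← h4, Finset.mul_sum]
        exact Finset.sum_congr rfl fun l _ => by rw [ev_mul hΓ0]; ring
      simp only [h3, mul_ite, mul_zero, Finset.sum_ite_eq, Finset.mem_univ, if_true]
      ring
    rw [dl_ev hΓ0, Finset.mul_sum]
    simp only [← mul_assoc, h2, Finset.sum_mul, ev_sum hΓ0, ev_mul hΓ0, Finset.mul_sum]
    rw [Finset.sum_comm]
  have hind : ∀ j : ℕ, ∀ g ∈ P, C Polynomial.X ^ (j + 1) ∣ ev Γ g := by
    intro j
    induction j with
    | zero =>
      intro g hg
      rw [zero_add, pow_one]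
      exact C_X_dvd ((h0 g).trans (hP g hg))
    | succ j ih =>
      intro g hg
      obtain ⟨F, hF⟩ := ih g hg
      obtain ⟨W, hW⟩ : C Polynomial.X ^ (j + 1) ∣ ev Γ (jac H).det * dl (ev Γ g) := by
        rw [hdl]
        refine Finset.dvd_sum fun l _ => ?_
        by_cases hl : ev a (H l) = 0
        · have : u l = 0 := by
            ext k
            simp [u, hl]
          rw [this, map_zero, mul_zero, zero_mul]
          exact dvd_zero _
        · exact (ih _ (hD l hl g hg)).mul_left _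
      rw [hF, dl_mul, ← map_pow, dl_C, Polynomial.derivative_X_pow, Nat.add_sub_cancel] at hW
      have h1 : (C Polynomial.X ^ j : (Polynomial K)⟦X⟧) ≠ 0 :=
        pow_ne_zero _ fun h => Polynomial.X_ne_zero (C_injective (h.trans (map_zero _).symm))
      have h2 : ev Γ (jac H).det * (C (Polynomial.C ((j + 1 : ℕ) : K)) * F +
          C Polynomial.X * dl F) = C Polynomial.X * W := by
        apply mul_left_cancel₀ h1
        rw [map_mul, map_pow, map_pow] at hW
        linear_combination hW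
      have h3 := congrArg (e 0) h2
      have h4 : e 0 (C (Polynomial.C ((j + 1 : ℕ) : K))) = C ((j + 1 : ℕ) : K) := by
        simp [e, mapAlgHom_apply]
      simp only [map_mul, map_add, heC, map_zero, zero_mul, add_zero, h0, h4] at h3
      have h5 : (C ((j + 1 : ℕ) : K) : K⟦X⟧) ≠ 0 := fun h =>
        Nat.cast_ne_zero.2 (Nat.succ_ne_zero j) (C_injective (h.trans (map_zero _).symm))
      have h6 := (mul_eq_zero.1 ((mul_eq_zero.1 h3).resolve_left hdet)).resolve_left h5
      rw [hF, pow_succ _ (j + 1)]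
      exact mul_dvd_mul_left _ (C_X_dvd h6)
  have hb : Z0 fun i => a i + X ^ D * e 1 (v i) := ha.add_mul (by omega) _
  have hba : ∀ i, (X : K⟦X⟧) ^ D ∣ a i + X ^ D * e 1 (v i) - a i := fun i => ⟨e 1 (v i), by ring⟩
  refine ⟨_, hb, fun i => (pow_dvd_pow X (by omega)).trans (hba i), fun g hg => ?_, fun k => ?_,
    fun h => ?_⟩
  · rw [← hsp, eq_zero_of_C_X_dvd fun j => (pow_dvd_pow _ (Nat.le_succ j)).trans (hind j g hg),
      map_zero]
  · refine ⟨trunc (D + d) (ev a (H k)), ?_⟩
    rw [hH]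
    have h1 := eq_X_pow_mul_shift_add_trunc (D + d) (ev a (H k))
    simp only [u, map_one]
    linear_combination h1
  · have h1 := ev_sub_dvd hb ha hba (jac H).det
    rw [h, zero_sub, dvd_neg, hdU] at h1
    have := le_of_X_pow_dvd hU h1
    omega

end

end Vale.Agent.P218G
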