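import Vale.Agent.P218S.Defs

/-!
# P218: statement of the scalar Lojasiewicz inequality for the family of reduced functionals
-/

namespace Vale.Agent.P218G

open Filter Topology Vale.Agent.P218S

variable {α ι : Type} [Fintype α] [Fintype ι]

/-- the normal coordinates of the cylindrical ends -/
noncomputable def cpr (α ι : Type) (j : ι) : (α ⊕ ι → ℂ) →L[ℂ] ℂ :=
  ContinuousLinearMap.proj (Sum.inr j)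

/-- real points -/
def rp {σ : Type} (x : σ → ℝ) : σ → ℂ := fun i => x i

/-- two families with the same limit jets -/
def Near (f g : (ι → ℝ) → (α ⊕ ι → ℂ) → ℂ) : Prop :=
  ∃ r : ℝ, 0 < r ∧ ∀ N : ℕ, ∀ᶠ Z : ℝ in atTop, ∀ x : α ⊕ ι → ℂ, ‖x‖ < r →
    (∀ j, ‖x (Sum.inr j)‖ < Z⁻¹ ^ 2) → ‖f (fun _ => Z) x - g (fun _ => Z) x‖ ≤ Z⁻¹ ^ N

/-- real values at real points -/
def RealF (f : (ι → ℝ) → (α ⊕ ι → ℂ) → ℂ) : Prop :=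
  ∃ r : ℝ, 0 < r ∧ ∀ᶠ Z : ℝ in atTop, ∀ x : α ⊕ ι → ℝ, ‖x‖ < r →
    (∀ j, ‖x (Sum.inr j)‖ < Z⁻¹ ^ 2) → (f (fun _ => Z) (rp x)).im = 0

/-- the cut height `min (|c| ^ (-1/3)) (sqrt (16 log (1 / ε)))` -/
noncomputable def zc (x : α ⊕ ι → ℝ) (ε : ℝ) : ℝ :=
  (max (‖fun j => x (Sum.inr j)‖ ^ (3⁻¹ : ℝ)) (√(16 * Real.log ε⁻¹))⁻¹)⁻¹

/-- the Lojasiewicz inequality with the rule `zc` for the cut -/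
def LojF (f : (ι → ℝ) → (α ⊕ ι → ℂ) → ℂ) : Prop :=
  ∃ F γ K r : ℝ, 1 / 2 < γ ∧ γ ≤ 1 ∧ 0 < r ∧ 0 ≤ K ∧
    Tendsto (fun Z : ℝ => f (fun _ => Z) 0) atTop (𝓝 (F : ℂ)) ∧
    ∀ (x : α ⊕ ι → ℝ) (ε : ℝ), ‖x‖ ≤ r → 0 < ε → ε ≤ r →
      ‖fderiv ℂ (f fun _ => zc x ε) (rp x)‖ ≤ K ∧
      ‖f (fun _ => zc x ε) (rp x) - F‖ ≤
        K * (‖fderiv ℂ (f fun _ => zc x ε) (rp x)‖ ^ (2 * γ) + ε) ∧
      Real.exp (-(zc x ε) ^ 2 / 16) ≤ K * (‖fderiv ℂ (f fun _ => zc x ε) (rp x)‖ ^ 3 + ε)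

/-- the statement of section 8, scalar part -/
def HLF (α ι : Type) [Fintype α] [Fintype ι] : Prop :=
  ∀ (κ : ι → ℝ) (ν₀ δ₀ : ℝ) (F₀ : Fam (cpr α ι) κ ν₀ δ₀), RealF F₀.f →
    (∀ δ : ℝ, 0 < δ → ∀ ν₁ : ℝ, ∃ ν, ν₁ ≤ ν ∧ ∃ F : Fam (cpr α ι) κ ν δ, Near F₀.f F.f) →
    LojF F₀.f

end Vale.Agent.P218G
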