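import Vale.Agent.P218G.Ser
import Vale.Agent.P218G.Defs

/-!
# P218: the limit jets of a family of reduced functionals
-/

namespace Vale.Agent.P218G

open Filter Finset Topology Metric Vale.Agent.P218S

variable {α ι : Type} [Fintype α] [Fintype ι]

/-- polyradius -/
noncomputable def rad (α ι : Type) (r T : ℝ) : α ⊕ ι → ℝ := Sum.elim (fun _ => r) fun _ => T⁻¹

omit [Fintype α] [Fintype ι] in
theorem rad_pos {r T : ℝ} (hr : 0 < r) (hT : 0 < T) (i : α ⊕ ι) : 0 < rad α ι r T i := by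
  rcases i with i | i
  · exact hr
  · exact inv_pos.2 hT

theorem bd_rad {c : (α ⊕ ι →₀ ℕ) → ℂ} {B r T : ℝ} (hr : 0 < r) (hT : 0 < T) :
    Bd c B (rad α ι r T) ↔ ∀ d, ‖c d‖ ≤ r⁻¹ ^ dA d * (B * T ^ dC d) := by
  refine forall_congr' fun d => ?_
  rw [rad, prod_elim, ← le_div_iff₀ (by positivity)]
  apply iff_of_eq
  congr 1
  simp only [inv_pow]
  field_simp

theorem ev_quad {a : ℝ} (ha : 0 < a) (b c : ℝ) : ∀ᶠ Z : ℝ in atTop, b * Z + c ≤ a * Z ^ 2 := by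
  filter_upwards [eventually_ge_atTop 1, eventually_ge_atTop ((|b| + |c|) / a)] with Z h1 h2
  rw [div_le_iff₀ ha] at h2
  nlinarith [le_abs_self b, le_abs_self c, abs_nonneg c]

omit [Fintype ι] in
theorem const_mem_cut {Z y : ℝ} (h1 : Z ≤ y) (h2 : y ≤ Z + 1) :
    (fun _ => y) ∈ (Cut Z : Set (ι → ℝ)) := fun _ => ⟨h1, h2⟩

/-- what is used about a family -/
def WF (f : (ι → ℝ) → (α ⊕ ι → ℂ) → ℂ) (r : ℝ) : Prop :=
  ∀ θ : ℝ, 1 < θ → ∀ᶠ Z : ℝ in atTop, ∀ W ∈ (Cut Z : Set (ι → ℝ)),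
    DifferentiableOn ℂ (f W) (PD (rad α ι r (θ * Z ^ 2 / 2))) ∧
      ∀ x ∈ PD (rad α ι r (θ * Z ^ 2 / 2)), ‖f W x‖ ≤ Real.exp Z ∧
        ∀ W' ∈ (Cut Z : Set (ι → ℝ)), ‖f W x - f W' x‖ ≤ Real.exp (-(Z ^ 2 / 4) / θ)

theorem pd_sub_dom (κ : ι → ℝ) (ν : ℝ) {r θ : ℝ} (hr : 0 < r) (hθ : 1 < θ) :
    ∀ᶠ Z : ℝ in atTop, ∀ W ∈ (Cut Z : Set (ι → ℝ)),
      PD (rad α ι r (θ * Z ^ 2 / 2)) ⊆ Dom (cpr α ι) κ ν r W := by
  have h1 : 0 < (θ - 1) / 2 := by linarith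
  filter_upwards [eventually_ge_atTop 1, ev_quad (a := r * θ / 2) (by positivity) 0 1,
    eventually_all.2 fun l => ev_quad h1 5 (9 / 2 + |κ l + 3 * ν / 2|)] with Z k1 k2 k3 W hW x hx
  have hT : 0 < θ * Z ^ 2 / 2 := by positivity
  refine ⟨(pi_norm_lt_iff hr).2 ?_, fun l => ?_⟩
  · rintro (i | i)
    · exact hx (Sum.inl i)
    · refine (hx (Sum.inr i)).trans_le ?_
      change (θ * Z ^ 2 / 2)⁻¹ ≤ r
      rw [inv_le_iff_one_le_mul₀ hT]
      linarith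
  · have h2 : ‖x (Sum.inr l)‖ < (θ * Z ^ 2 / 2)⁻¹ := hx (Sum.inr l)
    rw [← one_div, lt_div_iff₀ hT] at h2
    have h3 := hW l
    have h4 : 0 ≤ Real.log (W l) := Real.log_nonneg (by linarith [h3.1])
    have h5 : Real.log (W l) ≤ W l := Real.log_le_self (by linarith [h3.1])
    have h6 : |tipv (κ l) (W l) + 3 * ν / 2| ≤ θ * Z ^ 2 / 2 := by
      rw [tipv, Real.log_pow, abs_le]
      constructor <;>
        nlinarith [k3 l, h3.1, h3.2, le_abs_self (κ l + 3 * ν / 2), neg_abs_le (κ l + 3 * ν / 2)]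
    refine (norm_sub_le _ _).trans_lt ?_
    rw [norm_mul, Complex.norm_real, Real.norm_eq_abs]
    have h7 : ‖(1 / 4 : ℂ)‖ = 1 / 4 := by simp
    have h8 := mul_le_mul_of_nonneg_left h6 (norm_nonneg (x (Sum.inr l)))
    change ‖x (Sum.inr l)‖ * _ + _ < _
    linarith

theorem wf_fam {κ : ι → ℝ} {ν δ : ℝ} (F : Fam (cpr α ι) κ ν δ) : WF F.f F.r := by
  intro θ hθ
  have h0 : 0 < 1 / 4 - 1 / 4 / θ := by
    rw [sub_pos, div_lt_iff₀ (by linarith)]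
    linarith
  filter_upwards [F.hol, pd_sub_dom (α := α) κ ν F.r_pos hθ, eventually_ge_atTop 1,
    ev_quad h0 F.p (Fintype.card ι)] with Z k1 k2 k3 k4 W hW
  refine ⟨(k1 W hW).1.mono (k2 W hW), fun x hx => ⟨((k1 W hW).2 x (k2 W hW hx)).1, fun W' hW' => ?_⟩⟩
  have hc : Convex ℝ (Cut Z : Set (ι → ℝ)) := by
    have : (Cut Z : Set (ι → ℝ)) = Set.pi Set.univ fun _ => Set.Icc Z (Z + 1) :=
      Set.ext fun V => ⟨fun h i _ => h i, fun h i => h i trivial⟩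
    rw [this]
    exact convex_pi fun _ _ => convex_Icc _ _
  have h1 := hc.norm_image_sub_le_of_norm_hasFDerivWithin_le
    (C := Fintype.card ι * (Z ^ F.p * Real.exp (-(Z ^ 2 / 4))))
    (fun V hV => ((k1 V hV).2 x (k2 V hV hx)).2.1.hasFDerivWithinAt) (fun V hV => by
      refine (norm_sum_le _ _).trans ?_
      rw [← nsmul_eq_mul, ← card_univ]
      refine sum_le_card_nsmul _ _ _ fun j _ => ?_
      refine ContinuousLinearMap.opNorm_le_bound _ (by positivity) fun v => ?_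
      rw [ContinuousLinearMap.smulRight_apply, norm_smul, mul_comm]
      refine mul_le_mul ((((k1 V hV).2 x (k2 V hV hx)).2.2 j).trans ?_) (norm_le_pi_norm v j)
        (norm_nonneg _) (by positivity)
      refine mul_le_mul_of_nonneg_left (Real.exp_le_exp.2 ?_) (by positivity)
      nlinarith [(hV j).1]) hW' hW
  have h2 : ‖W - W'‖ ≤ 1 := (pi_norm_le_iff_of_nonneg zero_le_one).2 fun l => by
    rw [Pi.sub_apply, Real.norm_eq_abs, abs_le]
    constructor <;> linarith [(hW l).1, (hW l).2, (hW' l).1, (hW' l).2]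
  refine h1.trans ((mul_le_of_le_one_right (by positivity) h2).trans ?_)
  have h3 : (Fintype.card ι : ℝ) ≤ Real.exp (Fintype.card ι) := by
    linarith [Real.add_one_le_exp (Fintype.card ι : ℝ)]
  have h4 : Z ^ F.p ≤ Real.exp Z ^ F.p :=
    pow_le_pow_left₀ (by linarith) (by linarith [Real.add_one_le_exp Z]) _
  calc _ ≤ Real.exp (Fintype.card ι) * (Real.exp Z ^ F.p * Real.exp (-(Z ^ 2 / 4))) := by gcongr
    _ ≤ _ := by
      rw [← Real.exp_nat_mul, ← Real.exp_add, ← Real.exp_add, Real.exp_le_exp]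
      have : -(Z ^ 2 / 4) / θ = -(1 / 4 / θ * Z ^ 2) := by ring
      linarith

/-- the power series of a function -/
noncomputable def ser {σ : Type} [Fintype σ] (g : (σ → ℂ) → ℂ) : (σ →₀ ℕ) → ℂ :=
  Classical.epsilon fun c => IsSer c g

theorem master {θ A η : ℝ} (hθ : 0 < θ) (hA : 0 < A) (h : η + θ / (2 * A) ≤ 1 / 4 / θ) (y : ℝ)
    (k : ℕ) : Real.exp (-(y ^ 2 / 4) / θ) * (θ * y ^ 2 / 2) ^ k ≤
      A ^ k * k.factorial * Real.exp (-η * y ^ 2) := by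
  have h1 := Real.pow_div_factorial_le_exp (x := θ / (2 * A) * y ^ 2) (by positivity) k
  rw [div_le_iff₀ (by positivity)] at h1
  have h2 : θ * y ^ 2 / 2 = A * (θ / (2 * A) * y ^ 2) := by field_simp
  have h3 : Real.exp (-(y ^ 2 / 4) / θ) * Real.exp (θ / (2 * A) * y ^ 2) ≤
      Real.exp (-η * y ^ 2) := by
    rw [← Real.exp_add, Real.exp_le_exp]
    have : -(y ^ 2 / 4) / θ = -(1 / 4 / θ * y ^ 2) := by ring
    nlinarith [mul_le_mul_of_nonneg_right h (sq_nonneg y)]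
  calc _ = A ^ k * (Real.exp (-(y ^ 2 / 4) / θ) * (θ / (2 * A) * y ^ 2) ^ k) := by
        rw [h2, mul_pow]
        ring
    _ ≤ A ^ k * (Real.exp (-(y ^ 2 / 4) / θ) * (Real.exp (θ / (2 * A) * y ^ 2) * k.factorial)) := by
        gcongr
    _ = A ^ k * k.factorial * (Real.exp (-(y ^ 2 / 4) / θ) * Real.exp (θ / (2 * A) * y ^ 2)) := by
        ring
    _ ≤ _ := by gcongr

theorem tel {u : ℝ → ℂ} {Z' : ℝ} (n : ℕ) : ∀ Z β : ℝ, Z ≤ Z' → Z' ≤ Z + n + 1 →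
    (∀ y y', Z ≤ y → y ≤ y' → y' ≤ y + 1 → y' ≤ Z' → ‖u y - u y'‖ ≤ β * Real.exp (Z - y)) →
    ‖u Z - u Z'‖ ≤ 2 * β := by
  have h0 : ∀ Z β : ℝ, Z ≤ Z' → Z' ≤ Z + 1 →
      (∀ y y', Z ≤ y → y ≤ y' → y' ≤ y + 1 → y' ≤ Z' → ‖u y - u y'‖ ≤ β * Real.exp (Z - y)) →
      ‖u Z - u Z'‖ ≤ 2 * β := by
    intro Z β h1 h2 H
    have h3 := H Z Z' le_rfl h1 h2 le_rfl
    rw [sub_self, Real.exp_zero, mul_one] at h3
    linarith [norm_nonneg (u Z - u Z')]
  induction n with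
  | zero => exact fun Z β h1 h2 => h0 Z β h1 (by simpa using h2)
  | succ n ih =>
    intro Z β h1 h2 H
    rcases le_total Z' (Z + 1) with h3 | h3
    · exact h0 Z β h1 h3 H
    · have h4 := H Z (Z + 1) le_rfl (by linarith) le_rfl h3
      rw [sub_self, Real.exp_zero, mul_one] at h4
      have h5 := ih (Z + 1) (β * Real.exp (-1)) h3 (by push_cast at h2; linarith)
        fun y y' k1 k2 k3 k4 => (H y y' (by linarith) k2 k3 k4).trans (le_of_eq (by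
          rw [mul_assoc, ← Real.exp_add]
          congr 2
          ring))
      have h6 : Real.exp (-1) ≤ 1 / 2 := by
        rw [Real.exp_neg, ← one_div]
        exact one_div_le_one_div_of_le two_pos (by linarith [Real.add_one_le_exp 1])
      have h7 : 0 ≤ β := (norm_nonneg _).trans h4
      nlinarith [norm_sub_le_norm_sub_add_norm_sub (u Z) (u (Z + 1)) (u Z')]

variable {f : (ι → ℝ) → (α ⊕ ι → ℂ) → ℂ} {r θ A η : ℝ}

theorem WF.bd (h : WF f r) (hr : 0 < r) (hθ : 1 < θ) : ∀ᶠ Z : ℝ in atTop,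
    ∀ W ∈ (Cut Z : Set (ι → ℝ)), IsSer (ser (f W)) (f W) ∧
      Bd (ser (f W)) (Real.exp Z) (rad α ι r (θ * Z ^ 2 / 2)) ∧
      (∀ x ∈ PD (rad α ι r (θ * Z ^ 2 / 2)), sm (ser (f W)) x = f W x) ∧
      ∀ W' ∈ (Cut Z : Set (ι → ℝ)), ∀ d, ‖ser (f W) d - ser (f W') d‖ ≤
        r⁻¹ ^ dA d * (Real.exp (-(Z ^ 2 / 4) / θ) * (θ * Z ^ 2 / 2) ^ dC d) := by
  filter_upwards [h θ hθ, eventually_ge_atTop 1] with Z k1 k2
  have hT : 0 < θ * Z ^ 2 / 2 := by positivity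
  have hρ := rad_pos (α := α) (ι := ι) hr hT
  have h1 : ∀ W ∈ (Cut Z : Set (ι → ℝ)), IsSer (ser (f W)) (f W) := fun W hW =>
    Classical.epsilon_spec (exists_ser hρ (k1 W hW).1 fun x hx => ((k1 W hW).2 x hx).1)
  intro W hW
  have h2 := (h1 W hW).bd hρ (k1 W hW).1 fun x hx => ((k1 W hW).2 x hx).1
  exact ⟨h1 W hW, h2.1, h2.2, fun W' hW' => (bd_rad hr hT).1 (((h1 W hW).sub (h1 W' hW')).bd hρ
    ((k1 W hW).1.sub (k1 W' hW').1) fun x hx => ((k1 W hW).2 x hx).2 W' hW').1⟩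

theorem WF.inc (h : WF f r) (hr : 0 < r) (hθ : 1 < θ) (hθ2 : θ ≤ 2) (hA : 0 < A) (hη : 0 < η)
    (H : η + θ / (2 * A) ≤ 1 / 4 / θ) : ∀ᶠ Z : ℝ in atTop, ∀ Z', Z ≤ Z' → ∀ d L j, dC d = L + j →
      ‖ser (f fun _ => Z) d - ser (f fun _ => Z') d‖ ≤ 2 * (r⁻¹ ^ dA d *
        (A ^ L * L.factorial * Real.exp (-η * Z ^ 2) * (Z' ^ 2) ^ j)) := by
  obtain ⟨Y, hY⟩ := eventually_atTop.1 (h.bd hr hθ)
  filter_upwards [eventually_ge_atTop Y, eventually_ge_atTop 0, eventually_ge_atTop η⁻¹]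
    with Z k1 k2 k3 Z' k4 d L j hd
  obtain ⟨n, hn⟩ := exists_nat_ge (Z' - Z)
  refine tel (u := fun y => ser (f fun _ => y) d) n Z _ k4 (by linarith) fun y y' l1 l2 l3 l4 => ?_
  refine ((hY y (by linarith) _ (const_mem_cut le_rfl (by linarith))).2.2.2 _
    (const_mem_cut l2 l3) d).trans ?_
  rw [mul_assoc, hd, pow_add, ← mul_assoc (Real.exp _)]
  refine mul_le_mul_of_nonneg_left ?_ (by positivity)
  have h1 : Real.exp (-η * y ^ 2) ≤ Real.exp (-η * Z ^ 2) * Real.exp (Z - y) := by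
    rw [← Real.exp_add, Real.exp_le_exp]
    rw [inv_le_iff_one_le_mul₀ hη] at k3
    nlinarith [mul_nonneg (sub_nonneg.2 l1) (sub_nonneg.2 k3),
      mul_nonneg (mul_nonneg (sub_nonneg.2 l1) hη.le) (k2.trans l1)]
  have h2 : θ * y ^ 2 / 2 ≤ Z' ^ 2 := by
    have : y ^ 2 ≤ Z' ^ 2 := pow_le_pow_left₀ (by linarith) (by linarith) _
    nlinarith [sq_nonneg y]
  calc _ ≤ A ^ L * L.factorial * (Real.exp (-η * Z ^ 2) * Real.exp (Z - y)) * (Z' ^ 2) ^ j := by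
        refine mul_le_mul ((master (by linarith) hA H y L).trans ?_) ?_ (by positivity)
          (by positivity) <;> gcongr
    _ = _ := by ring

/-- the limit jet -/
noncomputable def jc (f : (ι → ℝ) → (α ⊕ ι → ℂ) → ℂ) (d : α ⊕ ι →₀ ℕ) : ℂ :=
  limUnder atTop fun Z : ℝ => ser (f fun _ => Z) d

theorem tendsto_gauss (hη : 0 < η) (C : ℝ) :
    Tendsto (fun Z : ℝ => C * Real.exp (-η * Z ^ 2)) atTop (𝓝 0) := by
  have h1 : Tendsto (fun Z : ℝ => -η * Z ^ 2) atTop atBot :=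
    (tendsto_pow_atTop two_ne_zero).const_mul_atTop_of_neg (by linarith)
  simpa using (Real.tendsto_exp_atBot.comp h1).const_mul C

theorem num0 : (3 / 16 : ℝ) + 9 / 8 / (2 * 20) ≤ 1 / 4 / (9 / 8) := by norm_num

theorem WF.tendsto (h : WF f r) (hr : 0 < r) (d : α ⊕ ι →₀ ℕ) :
    Tendsto (fun Z : ℝ => ser (f fun _ => Z) d) atTop (𝓝 (jc f d)) := by
  refine CauchySeq.tendsto_limUnder (Metric.cauchySeq_iff'.2 fun ε hε => ?_)
  obtain ⟨Z, k1, k2⟩ := ((h.inc hr (by norm_num) (by norm_num) (by norm_num) (by norm_num)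
    num0).and ((tendsto_gauss (η := 3 / 16) (by norm_num)
      (2 * (r⁻¹ ^ dA d * (20 ^ dC d * (dC d).factorial)))).eventually (gt_mem_nhds hε))).exists
  refine ⟨Z, fun Z' hZ => ?_⟩
  rw [dist_comm, dist_eq_norm]
  refine (k1 Z' hZ d (dC d) 0 rfl).trans_lt (lt_of_eq_of_lt ?_ k2)
  ring

theorem WF.tail (h : WF f r) (hr : 0 < r) (hθ : 1 < θ) (hθ2 : θ ≤ 2) (hA : 0 < A) (hη : 0 < η)
    (H : η + θ / (2 * A) ≤ 1 / 4 / θ) : ∀ᶠ Z : ℝ in atTop, ∀ W ∈ (Cut Z : Set (ι → ℝ)), ∀ d,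
      ‖ser (f W) d - jc f d‖ ≤
        r⁻¹ ^ dA d * (3 * Real.exp (-η * Z ^ 2) * (A ^ dC d * (dC d).factorial)) := by
  filter_upwards [h.inc hr hθ hθ2 hA hη H, h.bd hr hθ] with Z k1 k2 W hW d
  have h1 := ((k2 W hW).2.2.2 _ (const_mem_cut le_rfl (by linarith)) d).trans
    (mul_le_mul_of_nonneg_left (master (by linarith) hA H Z _) (by positivity))
  have h2 := le_of_tendsto ((h.tendsto hr d).const_sub (ser (f fun _ => Z) d)).norm
    ((eventually_ge_atTop Z).mono fun Z' hZ => (k1 Z' hZ d (dC d) 0 rfl).trans_eq (by rw [pow_zero]))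
  refine (norm_sub_le_norm_sub_add_norm_sub _ _ _).trans ((add_le_add h1 h2).trans (le_of_eq ?_))
  ring

theorem WF.conv (h : WF f r) (hr : 0 < r) (d : α ⊕ ι →₀ ℕ) {ε : ℝ} (hε : 0 < ε) :
    ∀ᶠ Z : ℝ in atTop, ∀ W ∈ (Cut Z : Set (ι → ℝ)), ‖ser (f W) d - jc f d‖ ≤ ε := by
  filter_upwards [h.tail hr (by norm_num) (by norm_num) (by norm_num) (by norm_num) num0,
    (tendsto_gauss (η := 3 / 16) (by norm_num)
      (r⁻¹ ^ dA d * (3 * (20 ^ dC d * (dC d).factorial)))).eventually (ge_mem_nhds hε)]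
    with Z k1 k2 W hW
  refine (k1 W hW d).trans (le_of_eq_of_le ?_ k2)
  ring

theorem WF.gevrey (h : WF f r) (hr : 0 < r) (hA : 2 < A) :
    ∃ C : ℝ, ∀ d, ‖jc f d‖ ≤ C * r⁻¹ ^ dA d * A ^ dC d * (dC d).factorial := by
  obtain ⟨θ, h1, h2⟩ := exists_between (lt_min one_lt_two
    (Real.lt_sqrt_of_sq_lt (by linarith : (1 : ℝ) ^ 2 < A / 2)))
  have h3 : θ ^ 2 < A / 2 := (Real.lt_sqrt (by linarith)).1 (h2.trans_le (min_le_right _ _))
  have h4 : 0 < 1 / 4 / θ - θ / (2 * A) := by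
    rw [sub_pos, div_lt_div_iff₀ (by linarith) (by linarith)]
    nlinarith
  obtain ⟨Z, k1, k2, k3⟩ := ((h.tail hr h1 (h2.le.trans (min_le_left _ _)) (by linarith : 0 < A) h4
    (by linarith)).and ((h.bd hr h1).and (eventually_ge_atTop 1))).exists
  have hW : (fun _ => Z) ∈ (Cut Z : Set (ι → ℝ)) := const_mem_cut le_rfl (by linarith)
  refine ⟨3 * Real.exp (-(1 / 4 / θ - θ / (2 * A)) * Z ^ 2) + Real.exp Z *
    (Real.exp (Z ^ 2 / 4 / θ) * Real.exp (-(1 / 4 / θ - θ / (2 * A)) * Z ^ 2)), fun d => ?_⟩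
  have h5 := (bd_rad hr (by positivity)).1 (k2 _ hW).2.1 d
  have h6 := mul_le_mul_of_nonneg_left (master (by linarith : 0 < θ) (by linarith : 0 < A)
    (η := 1 / 4 / θ - θ / (2 * A)) (by linarith) Z (dC d)) (Real.exp_pos (Z ^ 2 / 4 / θ)).le
  rw [← mul_assoc, ← Real.exp_add, neg_div, add_neg_cancel, Real.exp_zero, one_mul] at h6
  refine (norm_le_norm_add_norm_sub _ _).trans ((add_le_add (h5.trans (mul_le_mul_of_nonneg_left
    (mul_le_mul_of_nonneg_left h6 (by positivity)) (by positivity))) (k1 _ hW d)).trans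
    (le_of_eq ?_))
  ring

theorem WF.mid (h : WF f r) (hr : 0 < r) (L : ℕ) : ∃ C : ℝ, 0 ≤ C ∧ ∀ᶠ Z : ℝ in atTop,
    ∀ d j, dC d = L + j → ‖ser (f fun _ => Z) d‖ ≤ r⁻¹ ^ dA d * (C * (Z ^ 2) ^ j) := by
  obtain ⟨Y, k1, k2, k3⟩ := ((h.inc hr (by norm_num) (by norm_num) (by norm_num) (by norm_num)
    num0).and ((h.bd hr (θ := 2) one_lt_two).and (eventually_ge_atTop 1))).exists
  refine ⟨2 * (20 ^ L * L.factorial * Real.exp (-(3 / 16) * Y ^ 2)) + Real.exp Y * (Y ^ 2) ^ L,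
    by positivity, (eventually_ge_atTop Y).mono fun Z hZ d j hd => ?_⟩
  have h1 := (bd_rad hr (by positivity)).1 (k2 _ (const_mem_cut le_rfl (by linarith))).2.1 d
  rw [hd, pow_add, mul_div_cancel_left₀ _ two_ne_zero] at h1
  have h2 : (Y ^ 2) ^ j ≤ (Z ^ 2) ^ j := by gcongr
  refine (norm_le_norm_add_norm_sub _ _).trans ((add_le_add (h1.trans (mul_le_mul_of_nonneg_left
    (mul_le_mul_of_nonneg_left (mul_le_mul_of_nonneg_left h2 (by positivity)) (by positivity))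
    (by positivity))) (k1 Z hZ d L j hd)).trans (le_of_eq ?_))
  ring

theorem prod_rad_le {x : α ⊕ ι → ℂ} {T t : ℝ} (hr : 0 < r) (hT : 0 < T)
    (h1 : ∀ i, ‖x (Sum.inl i)‖ ≤ r / 2) (h2 : ∀ j, ‖x (Sum.inr j)‖ ≤ t) (d : α ⊕ ι →₀ ℕ) :
    ∏ i, (‖x i‖ / rad α ι r T i) ^ d i ≤ (2 * T * t) ^ dC d * ∏ i, (1 / 2 : ℝ) ^ d i := by
  have h3 : (2 * T * t) ^ dC d = ∏ i, Sum.elim (fun _ => 1) (fun _ => 2 * T * t) i ^ d i := by
    rw [prod_elim, one_pow, one_mul]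
  rw [h3, ← prod_mul_distrib]
  refine prod_le_prod (fun i _ => pow_nonneg (div_nonneg (norm_nonneg _) (rad_pos hr hT i).le) _)
    fun i _ => ?_
  rw [← mul_pow]
  refine pow_le_pow_left₀ (div_nonneg (norm_nonneg _) (rad_pos hr hT i).le) ?_ _
  rcases i with i | i
  · change ‖x (Sum.inl i)‖ / r ≤ 1 * (1 / 2)
    rw [div_le_iff₀ hr]
    linarith [h1 i]
  · change ‖x (Sum.inr i)‖ / T⁻¹ ≤ 2 * T * t * (1 / 2)
    rw [div_inv_eq_mul]
    nlinarith [h2 i]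

/-- truncation of the jet -/
noncomputable def jt (M : ℕ) (f : (ι → ℝ) → (α ⊕ ι → ℂ) → ℂ) (d : α ⊕ ι →₀ ℕ) : ℂ :=
  if dC d ≤ M then jc f d else 0

theorem WF.err (h : WF f r) (hr : 0 < r) (M : ℕ) : ∃ C : ℝ, 0 ≤ C ∧ ∀ᶠ Z : ℝ in atTop,
    ∀ (t : ℝ) (x : α ⊕ ι → ℂ), 0 ≤ t → 2 * Z ^ 2 * t ≤ 1 → (∀ i, ‖x (Sum.inl i)‖ ≤ r / 2) →
      (∀ j, ‖x (Sum.inr j)‖ ≤ t) → ‖f (fun _ => Z) x - sm (jt M f) x‖ ≤
        C * (t ^ (M + 1) + Real.exp (-(3 / 16) * Z ^ 2)) := by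
  obtain ⟨C, hC, h1⟩ := h.mid hr (M + 1)
  refine ⟨(3 * (20 ^ M * M.factorial) + C * 2 ^ (M + 1)) * 2 ^ Fintype.card (α ⊕ ι),
    by positivity, ?_⟩
  filter_upwards [h1, h.tail hr (by norm_num) (by norm_num) (by norm_num) (by norm_num) num0,
    h.bd hr (θ := 2) one_lt_two, eventually_ge_atTop 1] with Z k1 k2 k3 k4 t x l1 l2 l3 l4
  have hW : (fun _ => Z) ∈ (Cut Z : Set (ι → ℝ)) := const_mem_cut le_rfl (by linarith)
  have hT : 0 < Z ^ 2 := by positivity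
  have hT1 : 1 ≤ Z ^ 2 := one_le_pow₀ k4
  have hρ := rad_pos (α := α) (ι := ι) hr hT
  obtain ⟨-, h2, h3, -⟩ := k3 _ hW
  rw [mul_div_cancel_left₀ _ two_ne_zero] at h2 h3
  have hx : x ∈ PD (rad α ι r (Z ^ 2)) := by
    rintro (i | i)
    · exact (l3 i).trans_lt (half_lt_self hr)
    · refine (l4 i).trans_lt ?_
      change t < (Z ^ 2)⁻¹
      rw [← one_div, lt_div_iff₀ hT]
      linarith
  have h4 : Bd (fun d => if dC d ≤ M then ser (f fun _ => Z) d - jc f d else 0)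
      (3 * Real.exp (-(3 / 16) * Z ^ 2) * (20 ^ M * M.factorial)) (rad α ι r (Z ^ 2)) := by
    refine (bd_rad hr hT).2 fun d => ?_
    split_ifs with hd
    · refine (k2 _ hW d).trans (mul_le_mul_of_nonneg_left (le_trans ?_
        (le_mul_of_one_le_right (by positivity) (one_le_pow₀ hT1))) (by positivity))
      gcongr
      norm_num
    · rw [norm_zero]
      positivity
  have h5 : Bd (fun d => if dC d ≤ M then 0 else ser (f fun _ => Z) d)
      (C / (Z ^ 2) ^ (M + 1)) (rad α ι r (Z ^ 2)) := by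
    refine (bd_rad hr hT).2 fun d => ?_
    split_ifs with hd
    · rw [norm_zero]
      positivity
    · obtain ⟨j, hj⟩ := Nat.exists_eq_add_of_le (by omega : M + 1 ≤ dC d)
      refine (k1 d j hj).trans (le_of_eq ?_)
      rw [hj, pow_add (Z ^ 2) (M + 1)]
      field_simp
  have h6 := h4.norm_sm_le hρ (x := x) zero_le_one fun d _ => (prod_rad_le hr hT l3 l4 d).trans
    (mul_le_mul_of_nonneg_right (pow_le_one₀ (by positivity) l2) (by positivity))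
  have h7 := h5.norm_sm_le hρ (x := x) (τ := (2 * Z ^ 2 * t) ^ (M + 1)) (by positivity)
    fun d hd => (prod_rad_le hr hT l3 l4 d).trans (mul_le_mul_of_nonneg_right
      (pow_le_pow_of_le_one (by positivity) l2 (by
        by_contra hc
        exact hd (if_pos (by omega)))) (by positivity))
  have h8 := (((h2.summable hx).hasSum.sub (h4.summable hx).hasSum).sub
    (h5.summable hx).hasSum).tsum_eq
  have h9 : sm (jt M f) x = sm (ser (f fun _ => Z)) x -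
      sm (fun d => if dC d ≤ M then ser (f fun _ => Z) d - jc f d else 0) x -
      sm (fun d => if dC d ≤ M then 0 else ser (f fun _ => Z) d) x := by
    rw [sm, sm, sm, sm, ← h8]
    refine tsum_congr fun d => ?_
    rw [jt]
    split_ifs <;> ring
  rw [h9, h3 x hx, sub_sub, sub_sub_cancel]
  refine (norm_add_le _ _).trans ((add_le_add h6 h7).trans ?_)
  have h10 : C / (Z ^ 2) ^ (M + 1) * (2 * Z ^ 2 * t) ^ (M + 1) = C * 2 ^ (M + 1) * t ^ (M + 1) := by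
    rw [mul_pow, mul_pow]
    field_simp
  have h11 : (0 : ℝ) ≤ 3 * (20 ^ M * M.factorial) * t ^ (M + 1) *
    2 ^ Fintype.card (α ⊕ ι) := by positivity
  have h12 : 0 ≤ C * 2 ^ (M + 1) * Real.exp (-(3 / 16) * Z ^ 2) *
    2 ^ Fintype.card (α ⊕ ι) := by positivity
  rw [h10]
  linarith

theorem WF.real (h : WF f r) (hr : 0 < r) (hf : RealF f) (d : α ⊕ ι →₀ ℕ) : (jc f d).im = 0 := by
  obtain ⟨s, hs, h1⟩ := hf
  refine tendsto_nhds_unique ((Complex.continuous_im.tendsto _).comp (h.tendsto hr d))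
    (tendsto_const_nhds.congr' ?_)
  filter_upwards [h1, h.bd hr one_lt_two, eventually_ge_atTop 1] with Z k1 k2 k3
  refine ((k2 _ (const_mem_cut le_rfl (by linarith))).1.im_eq_zero ?_ d).symm
  have h2 : 0 < min s (Z⁻¹ ^ 2) := lt_min hs (by positivity)
  filter_upwards [ball_mem_nhds (0 : α ⊕ ι → ℝ) h2] with y hy
  rw [mem_ball_zero_iff, lt_min_iff] at hy
  exact k1 y hy.1 fun j => (norm_le_pi_norm y _).trans_lt hy.2

theorem WF.near {g : (ι → ℝ) → (α ⊕ ι → ℂ) → ℂ} {r' : ℝ} (h : WF f r) (hr : 0 < r) (h' : WF g r')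
    (hr' : 0 < r') (H : Near f g) : jc f = jc g := by
  obtain ⟨s, hs, h1⟩ := H
  funext d
  have h0 : 0 < min s (min r r') := lt_min hs (lt_min hr hr')
  refine sub_eq_zero.1 (norm_le_zero_iff.1 (le_of_tendsto_of_tendsto
    ((h.tendsto hr d).sub (h'.tendsto hr' d)).norm
    (g := fun Z : ℝ => (min s (min r r'))⁻¹ ^ dA d * Z⁻¹) ?_ ?_))
  · simpa using tendsto_inv_atTop_zero.const_mul ((min s (min r r'))⁻¹ ^ dA d)
  filter_upwards [h1 (2 * dC d + 1), h 2 one_lt_two, h' 2 one_lt_two, h.bd hr one_lt_two,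
    h'.bd hr' one_lt_two, eventually_ge_atTop 1, ev_quad hs 0 1] with Z k1 k2 k3 k4 k5 k6 k7
  have hW : (fun _ => Z) ∈ (Cut Z : Set (ι → ℝ)) := const_mem_cut le_rfl (by linarith)
  have hT : 0 < Z ^ 2 := by positivity
  rw [mul_div_cancel_left₀ _ two_ne_zero] at k2 k3
  have h2 : ∀ r₀, min s (min r r') ≤ r₀ →
      PD (rad α ι (min s (min r r')) (Z ^ 2)) ⊆ PD (rad α ι r₀ (Z ^ 2)) := by
    rintro r₀ h3 x hx (i | i)
    · exact (hx (Sum.inl i)).trans_le h3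
    · exact hx (Sum.inr i)
  have h3 := (bd_rad h0 hT).1 (((k4 _ hW).1.sub (k5 _ hW).1).bd (rad_pos h0 hT)
    (((k2 _ hW).1.mono (h2 _ ((min_le_right _ _).trans (min_le_left _ _)))).sub
      ((k3 _ hW).1.mono (h2 _ ((min_le_right _ _).trans (min_le_right _ _)))))
    fun x hx => k1 x ((pi_norm_lt_iff hs).2 (by
      rintro (i | i)
      · exact (hx (Sum.inl i)).trans_le (min_le_left _ _)
      · refine (hx (Sum.inr i)).trans_le ?_
        change (Z ^ 2)⁻¹ ≤ s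
        rw [inv_le_iff_one_le_mul₀ hT]
        linarith)) fun j => by rw [inv_pow]; exact hx (Sum.inr j)).1 d
  refine h3.trans (le_of_eq ?_)
  rw [← pow_mul, pow_succ, inv_pow Z]
  field_simp

/-- the real limit jet -/
noncomputable def jet (f : (ι → ℝ) → (α ⊕ ι → ℂ) → ℂ) : MvPowerSeries (α ⊕ ι) ℝ :=
  fun d => (jc f d).re

theorem WF.gev (h : WF f r) (hr : 0 < r) : Gev 2 (jet f) := fun A hA => by
  obtain ⟨C, h1⟩ := h.gevrey hr hA
  exact ⟨C, r⁻¹, inv_pos.2 hr, fun d => (Complex.abs_re_le_norm _).trans (h1 d)⟩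

theorem WF.jet_eq (h : WF f r) (hr : 0 < r) (hf : RealF f) (d : α ⊕ ι →₀ ℕ) :
    ((MvPowerSeries.coeff d (jet f) : ℝ) : ℂ) = jc f d :=
  Complex.ext rfl (h.real hr hf d).symm

theorem WF.sumF_eq (h : WF f r) (hr : 0 < r) (hf : RealF f) (M : ℕ) (x : α ⊕ ι → ℂ) :
    sumF (truncC M (jet f)) x = sm (jt M f) x := by
  refine tsum_congr fun d => ?_
  rw [jt, ← h.jet_eq hr hf, Complex.real_smul]
  change ((if dC d ≤ M then MvPowerSeries.coeff d (jet f) else 0 : ℝ) : ℂ) * _ = _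
  split_ifs <;> rfl

end Vale.Agent.P218G
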