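import Vale.Agent.P218G.Hom

/-!
# P218, formal arcs: every arc can be replaced by an isolated solution of a square system
-/

namespace Vale.Agent.P218G

open PowerSeries

variable {σ : Type} [Fintype σ] [DecidableEq σ] {K : Type} [Field K] [CharZero K]

omit [CharZero K] in
theorem adj_mem (R : Subalgebra K (MvPowerSeries σ K)) (M : Matrix σ σ (MvPowerSeries σ K))
    (hM : ∀ k i, M k i ∈ R) (i l : σ) : M.adjugate i l ∈ R := by
  let M' : Matrix σ σ R := Matrix.of fun k i => ⟨M k i, hM k i⟩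
  have h1 : M = R.val.toRingHom.mapMatrix M' := rfl
  rw [h1, ← RingHom.map_adjugate]
  exact (M'.adjugate i l).2

omit [CharZero K] in
theorem det_mem (R : Subalgebra K (MvPowerSeries σ K)) (M : Matrix σ σ (MvPowerSeries σ K))
    (hM : ∀ k i, M k i ∈ R) : M.det ∈ R := by
  let M' : Matrix σ σ R := Matrix.of fun k i => ⟨M k i, hM k i⟩
  have h1 : M = R.val.toRingHom.mapMatrix M' := rfl
  rw [h1, ← RingHom.map_det]
  exact M'.det.2

theorem leaf (R : Subalgebra K (MvPowerSeries σ K)) (hX : ∀ i, MvPowerSeries.X i ∈ R)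
    (hR : ∀ f ∈ R, ∀ i, MvPowerSeries.pderiv K i f ∈ R) {a : σ → K⟦X⟧} (ha : Z0 a) (p : ℕ) :
    ∃ (b : σ → K⟦X⟧) (H : σ → MvPowerSeries σ K), Z0 b ∧ (∀ i, X ^ p ∣ b i - a i) ∧
      (∀ g ∈ R, ev a g = 0 → ev b g = 0) ∧ (∀ k, H k ∈ R) ∧
      (∀ k, ∃ q : Polynomial K, ev b (H k) = q) ∧ ev b (jac H).det ≠ 0 := by
  let F := FractionRing K⟦X⟧
  let ι := algebraMap K⟦X⟧ F
  have hι : Function.Injective ι := IsFractionRing.injective _ _
  let Λ : MvPowerSeries σ K → σ → F := fun f i => ι (ev a (MvPowerSeries.pderiv K i f))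
  let P : Set (MvPowerSeries σ K) := {g | g ∈ R ∧ ev a g = 0}
  obtain ⟨s, hsP, -, hs1, hs2⟩ := exists_linearIndepOn_extension (K := F) (v := Λ)
    (linearIndepOn_empty F Λ) (Set.empty_subset P)
  obtain ⟨t, ht0, hst, ht1, ht2⟩ := exists_linearIndepOn_extension (t := P ∪ Set.range
    MvPowerSeries.X) hs2 (hsP.trans Set.subset_union_left)
  have hspan : ⊤ ≤ Submodule.span F (Set.range fun x : t => Λ x) := by
    rw [← (Pi.basisFun F σ).span_eq, Submodule.span_le]
    rintro _ ⟨l, rfl⟩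
    have h1 : Pi.basisFun F σ l = Λ (MvPowerSeries.X l) := by
      funext i
      by_cases h : i = l
      · subst h
        simp [Λ, ev_one ha]
      · simp [Λ, h, MvPowerSeries.pderiv_X_of_ne (Ne.symm h), ev_zero ha]
    rw [h1, ← Set.image_eq_range]
    exact ht1 ⟨_, Or.inr ⟨l, rfl⟩, rfl⟩
  let B := Module.Basis.mk ht2 hspan
  let e : σ ≃ t := (Pi.basisFun F σ).indexEquiv B
  let H : σ → MvPowerSeries σ K := fun k => e k
  have hHR : ∀ k, H k ∈ R := by
    intro k
    rcases ht0 (e k).2 with h | ⟨l, hl⟩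
    · exact h.1
    · change (e k : MvPowerSeries σ K) ∈ R
      rw [← hl]
      exact hX l
  have hJ : ∀ k i, jac H k i ∈ R := fun k i => hR _ (hHR k) i
  have hdet : ev a (jac H).det ≠ 0 := by
    let φ : MvPowerSeries σ K →+* F := ι.comp (evh ha).toRingHom
    have h1 : LinearIndependent F (φ.mapMatrix (jac H)).row := by
      have h2 : (φ.mapMatrix (jac H)).row = (fun x : t => Λ x) ∘ e := by
        funext k i
        exact congrArg ι (evh_apply ha _)
      rw [h2]
      exact LinearIndependent.comp ht2 e e.injective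
    have h2 := (Matrix.isUnit_iff_isUnit_det _).1 (Matrix.linearIndependent_rows_iff_isUnit.1 h1)
    rw [← RingHom.map_det] at h2
    intro h
    have h3 : φ (jac H).det = ι (ev a (jac H).det) := congrArg ι (evh_apply ha _)
    rw [h3, h, map_zero] at h2
    exact not_isUnit_zero h2
  obtain ⟨b, h1, h2, h3, h4, h5⟩ := move ha P (fun g hg => hg.2) H hdet (by
    intro l hl g hg
    refine ⟨R.sum_mem fun i _ => R.mul_mem (adj_mem R _ hJ i l) (hR g hg.1 i), hι ?_⟩
    let L : (σ → F) →ₗ[F] F :=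
      Fintype.linearCombination F fun i => ι (ev a ((jac H).adjugate i l))
    have hL : ∀ f, L (Λ f) = ι (ev a (∑ i, (jac H).adjugate i l * MvPowerSeries.pderiv K i f)) := by
      intro f
      rw [ev_sum ha, map_sum, Fintype.linearCombination_apply]
      exact Finset.sum_congr rfl fun i _ => by rw [ev_mul ha, map_mul, smul_eq_mul, mul_comm]
    have h6 : Submodule.span F (Λ '' s) ≤ LinearMap.ker L := by
      rw [Submodule.span_le]
      rintro _ ⟨f, hf, rfl⟩
      obtain ⟨k, hk⟩ := e.surjective ⟨f, hst hf⟩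
      have h7 : H k = f := congrArg Subtype.val hk
      have h8 : k ≠ l := by
        rintro rfl
        exact hl (h7 ▸ (hsP hf).2)
      rw [SetLike.mem_coe, LinearMap.mem_ker, hL, ← h7, jac_adj, if_neg h8, ev_zero ha, map_zero]
    rw [← hL, map_zero]
    exact h6 (hs1 ⟨g, hg, rfl⟩)) p
  exact ⟨b, H, h1, h2, fun g hg h => h3 g ⟨hg, h⟩, hHR, h4, h5⟩

end Vale.Agent.P218G
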