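import Vale.Agent.P218G.Ev

/-!
# P218, formal arcs: Noether normalisation for quotients of formal power series rings
-/

namespace Vale.Agent.P218G

open MvPowerSeries

section

variable {σ : Type} {K : Type}

theorem mem_span_X [CommRing K] (T : Finset σ) (f : MvPowerSeries σ K)
    (h : ∀ m : σ →₀ ℕ, (∀ s ∈ T, m s = 0) → coeff m f = 0) :
    f ∈ Ideal.span (X '' (T : Set σ) : Set (MvPowerSeries σ K)) := by
  classical
  induction T using Finset.induction_on generalizing f with
  | empty =>
    have : f = 0 := by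
      ext m
      exact h m (by simp)
    rw [this]
    exact Ideal.zero_mem _
  | insert s T hs ih =>
    let g : MvPowerSeries σ K := fun m => if m s = 0 then coeff m f else 0
    have hg : ∀ m, coeff m g = if m s = 0 then coeff m f else 0 := fun m => rfl
    have h1 : g ∈ Ideal.span (X '' (T : Set σ) : Set (MvPowerSeries σ K)) := by
      refine ih g fun m hm => ?_
      rw [hg]
      split_ifs with h0
      · refine h m fun t ht => ?_
        rcases Finset.mem_insert.1 ht with rfl | ht
        · exact h0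
        · exact hm t ht
      · rfl
    obtain ⟨c, hc⟩ : (X s : MvPowerSeries σ K) ∣ f - g := by
      rw [X_dvd_iff]
      intro m hm
      rw [map_sub, hg, if_pos hm, sub_self]
    have h2 : f = g + X s * c := by rw [← hc]; ring
    rw [h2]
    refine Ideal.add_mem _ (Ideal.span_mono (Set.image_mono (by simp)) h1) ?_
    exact Ideal.mul_mem_right _ _ (Ideal.subset_span ⟨s, by simp, rfl⟩)

theorem max_eq_span [Field K] [Fintype σ] :
    IsLocalRing.maximalIdeal (MvPowerSeries σ K) = Ideal.span (Set.range X) := by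
  apply le_antisymm
  · intro f hf
    rw [IsLocalRing.mem_maximalIdeal, mem_nonunits_iff, isUnit_iff_constantCoeff,
      isUnit_iff_ne_zero, not_not] at hf
    have h1 := mem_span_X Finset.univ f (fun m hm => by
      have : m = 0 := Finsupp.ext fun s => hm s (Finset.mem_univ s)
      rw [this]
      exact hf)
    simpa using h1
  · rw [Ideal.span_le]
    rintro _ ⟨s, rfl⟩
    simp [isUnit_iff_constantCoeff]

theorem aeval_line [CommRing K] [Fintype σ] (q : σ → K) {k : ℕ} (p : MvPolynomial σ K)
    (hp : ∀ d ∈ p.support, d.degree = k) :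
    MvPolynomial.aeval (fun i => PowerSeries.C (q i) * PowerSeries.X) p =
      PowerSeries.C (MvPolynomial.eval q p) * (PowerSeries.X : PowerSeries K) ^ k := by
  rw [MvPolynomial.aeval_def, MvPolynomial.eval₂_eq', MvPolynomial.eval_eq', map_sum,
    Finset.sum_mul]
  refine Finset.sum_congr rfl fun d hd => ?_
  rw [← hp d hd, Finsupp.degree_eq_sum, ← Finset.prod_pow_eq_pow_sum, map_mul, map_prod,
    mul_assoc, ← Finset.prod_mul_distrib, ← PowerSeries.C_eq_algebraMap]
  simp only [mul_pow, map_pow]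

theorem z0_line [CommRing K] (q : σ → K) :
    Z0 fun i => PowerSeries.C (q i) * (PowerSeries.X : PowerSeries K) := by
  intro i
  simp

theorem exists_line [Field K] [Infinite K] [Fintype σ] (j : σ) {f : MvPowerSeries σ K}
    (hf : f ≠ 0) : ∃ q : σ → K, q j ≠ 0 ∧
      ev (fun i => PowerSeries.C (q i) * (PowerSeries.X : PowerSeries K)) f ≠ 0 := by
  classical
  have h0 : ∃ k, ¬ Ord (k + 1) f := by
    by_contra hc
    push Not at hc
    apply hf
    ext d
    exact hc d.degree d (Nat.lt_succ_self _)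
  have h1 : Ord (Nat.find h0) f := by
    intro d hd
    by_contra hne
    refine Nat.find_min h0 hd fun h => hne (h d (Nat.lt_succ_self _))
  have h2 := Nat.find_spec h0
  set k := Nat.find h0
  set p : MvPolynomial σ K := f.truncTotal (k + 1) with hp
  have hg : Ord (k + 1) (f - (p : MvPowerSeries σ K)) := ord_sub_trunc _ _
  have hp0 : p ≠ 0 := by
    intro h
    rw [h, MvPolynomial.coe_zero, sub_zero] at hg
    exact h2 hg
  have hdeg : ∀ d ∈ p.support, d.degree = k := by
    intro d hd
    rw [MvPolynomial.mem_support_iff, hp, coeff_truncTotal_eq_ite] at hd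
    split_ifs at hd with h3
    · by_contra h4
      exact hd (h1 d (by omega))
    · exact absurd rfl hd
  have h3 : p * MvPolynomial.X j ≠ 0 := mul_ne_zero hp0 (MvPolynomial.X_ne_zero j)
  obtain ⟨q, hq⟩ : ∃ q : σ → K, MvPolynomial.eval q (p * MvPolynomial.X j) ≠ 0 := by
    by_contra hc
    push Not at hc
    exact h3 (MvPolynomial.funext fun x => by rw [hc, map_zero])
  rw [map_mul, MvPolynomial.eval_X] at hq
  refine ⟨q, right_ne_zero_of_mul hq, fun h => left_ne_zero_of_mul hq ?_⟩
  have h4 := hg.dvd_ev (z0_line q)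
  rw [ev_sub (z0_line q), h, ev_coe, aeval_line q p hdeg, PowerSeries.X_pow_dvd_iff] at h4
  have h5 := h4 k (Nat.lt_succ_self k)
  simpa using h5

/-- the shear `X 0 ↦ a X 0`, `X (j+1) ↦ X (j+1) + b j X 0` -/
noncomputable def shr [CommRing K] {n : ℕ} (a : K) (b : Fin n → K) :
    Fin (n + 1) → MvPowerSeries (Fin (n + 1)) K :=
  Fin.cons (C a * X 0) fun j => X j.succ + C (b j) * X 0

theorem shr_zero [CommRing K] {n : ℕ} (a : K) (b : Fin n → K) : shr a b 0 = C a * X 0 := rfl

theorem shr_succ [CommRing K] {n : ℕ} (a : K) (b : Fin n → K) (j : Fin n) :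
    shr a b j.succ = X j.succ + C (b j) * X 0 := rfl

theorem hasSubst_shr [CommRing K] {n : ℕ} (a : K) (b : Fin n → K) : HasSubst (shr a b) := by
  refine hasSubst_of_constantCoeff_zero fun i => ?_
  refine Fin.cases ?_ (fun j => ?_) i <;> simp [shr]

theorem shr_shr [Field K] {n : ℕ} {a : K} (ha : a ≠ 0) (b : Fin n → K)
    (f : MvPowerSeries (Fin (n + 1)) K) :
    subst (shr a⁻¹ fun j => -(b j * a⁻¹)) (subst (shr a b) f) = f := by
  have h1 := hasSubst_shr a⁻¹ fun j => -(b j * a⁻¹)
  rw [subst_comp_subst_apply (hasSubst_shr a b) h1]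
  have h2 : (fun s => subst (shr a⁻¹ fun j => -(b j * a⁻¹)) (shr a b s)) = X := by
    funext i
    refine Fin.cases ?_ (fun j => ?_) i
    · rw [shr_zero, subst_mul h1, subst_C, subst_X h1, shr_zero, ← mul_assoc, ← map_mul,
        mul_inv_cancel₀ ha, map_one, one_mul]
    · rw [shr_succ, subst_add h1, subst_mul h1, subst_C, subst_X h1, subst_X h1, shr_zero,
        shr_succ, map_neg, map_mul]
      ring
  rw [h2, subst_self, id]

theorem exists_regular [Field K] [Infinite K] {n : ℕ} {f : MvPowerSeries (Fin (n + 1)) K}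
    (hf : f ≠ 0) : ∃ (a : K) (b : Fin n → K), a ≠ 0 ∧
      (finSuccEquiv K n (subst (shr a b) f)).map
        (IsLocalRing.residue (MvPowerSeries (Fin n) K)) ≠ 0 := by
  obtain ⟨q, hq0, hq⟩ := exists_line 0 hf
  refine ⟨q 0, fun j => q j.succ, hq0, fun h => hq ?_⟩
  set g := subst (shr (q 0) fun j => q j.succ) f with hg
  have h1 : g ∈ Ideal.span (X '' ((Finset.univ.erase (0 : Fin (n + 1)) : Finset _) : Set _) :
      Set (MvPowerSeries (Fin (n + 1)) K)) := by
    refine mem_span_X _ _ fun m hm => ?_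
    have h2 : m = Finsupp.cons (m 0) 0 := by
      ext i
      refine Fin.cases ?_ (fun j => ?_) i
      · simp
      · simpa using hm j.succ (by simp)
    obtain ⟨k, hk⟩ : ∃ k, m 0 = k := ⟨_, rfl⟩
    rw [hk] at h2
    have h3 := congrArg (PowerSeries.coeff k) h
    rw [PowerSeries.coeff_map, map_zero, IsLocalRing.residue_eq_zero_iff,
      IsLocalRing.mem_maximalIdeal, mem_nonunits_iff, isUnit_iff_constantCoeff,
      isUnit_iff_ne_zero, not_not, ← coeff_zero_eq_constantCoeff_apply,
      coeff_coeff_finSuccEquiv] at h3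
    rw [h2]
    exact h3
  let a0 : Fin (n + 1) → PowerSeries K := Fin.cons PowerSeries.X fun _ => 0
  have ha0 : Z0 a0 := by
    intro i
    refine Fin.cases ?_ (fun j => ?_) i <;> simp [a0]
  have h2 : Ideal.span (X '' ((Finset.univ.erase (0 : Fin (n + 1)) : Finset _) : Set _) :
      Set (MvPowerSeries (Fin (n + 1)) K)) ≤ RingHom.ker (evh (K := K) ha0) := by
    rw [Ideal.span_le]
    rintro _ ⟨s, hs, rfl⟩
    rw [SetLike.mem_coe, RingHom.mem_ker, evh_apply, ev_X ha0]
    obtain ⟨j, rfl⟩ := Fin.exists_succ_eq.2 (Finset.ne_of_mem_erase (Finset.mem_coe.1 hs))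
    simp [a0]
  have h3 := h2 h1
  rw [RingHom.mem_ker, evh_apply, hg, ev, subst_comp_subst_apply (hasSubst_shr _ _) ha0.hasSubst]
    at h3
  have h4 : (fun s => subst a0 (shr (q 0) (fun j => q j.succ) s)) =
      fun i => PowerSeries.C (q i) * (PowerSeries.X : PowerSeries K) := by
    funext i
    refine Fin.cases ?_ (fun j => ?_) i
    · simp only [shr, Fin.cons_zero]
      rw [subst_mul ha0.hasSubst, subst_C, subst_X ha0.hasSubst]
      rfl
    · simp only [shr, Fin.cons_succ]
      rw [subst_add ha0.hasSubst, subst_mul ha0.hasSubst, subst_C, subst_X ha0.hasSubst,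
        subst_X ha0.hasSubst]
      simp only [a0, Fin.cons_zero, Fin.cons_succ, zero_add]
      rfl
  rw [h4] at h3
  exact h3

theorem finite_quot [Field K] {n : ℕ} {g : PowerSeries (MvPowerSeries (Fin n) K)}
    (hg : g.map (IsLocalRing.residue (MvPowerSeries (Fin n) K)) ≠ 0) :
    Module.Finite (MvPowerSeries (Fin n) K)
      (PowerSeries (MvPowerSeries (Fin n) K) ⧸ Ideal.span {g}) := by
  have hc : IsAdicComplete (IsLocalRing.maximalIdeal (MvPowerSeries (Fin n) K))
      (MvPowerSeries (Fin n) K) := by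
    rw [max_eq_span]
    infer_instance
  set N := (g.map (Ideal.Quotient.mk
    (IsLocalRing.maximalIdeal (MvPowerSeries (Fin n) K)))).order.toNat with hN
  have h1 : Module.Finite (MvPowerSeries (Fin n) K)
      (Polynomial.degreeLT (MvPowerSeries (Fin n) K) N) :=
    Module.Finite.equiv (Polynomial.degreeLTEquiv _ N).symm
  let L := ((Ideal.Quotient.mkₐ (MvPowerSeries (Fin n) K) (Ideal.span {g})).comp
    (Polynomial.coeToPowerSeries.algHom (MvPowerSeries (Fin n) K))).toLinearMap.comp
      (Polynomial.degreeLT (MvPowerSeries (Fin n) K) N).subtype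
  refine Module.Finite.of_surjective L fun y => ?_
  obtain ⟨f, rfl⟩ := Ideal.Quotient.mk_surjective y
  obtain ⟨q, r, h2, h3⟩ := PowerSeries.exists_isWeierstrassDivision f hg
  refine ⟨⟨r, Polynomial.mem_degreeLT.2 h2⟩, ?_⟩
  have h4 : L ⟨r, Polynomial.mem_degreeLT.2 h2⟩ =
      Ideal.Quotient.mk (Ideal.span {g}) (r : PowerSeries (MvPowerSeries (Fin n) K)) := by
    simp [L]
  rw [h4, Ideal.Quotient.eq, h3, Ideal.mem_span_singleton]
  exact ⟨-q, by ring⟩

/-- Noether normalisation -/
theorem noether [Field K] [Infinite K] {B : Type} [CommRing B] (n : ℕ)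
    (ψ : MvPowerSeries (Fin n) K →+* B) (hψ : ψ.Finite) (h1 : ψ 1 ≠ 0) :
    ∃ (d : ℕ) (φ : MvPowerSeries (Fin d) K →ₐ[K] MvPowerSeries (Fin n) K),
      (ψ.comp φ.toRingHom).Finite ∧ Function.Injective (ψ.comp φ.toRingHom) := by
  induction n with
  | zero =>
    refine ⟨0, AlgHom.id _ _, hψ, ?_⟩
    rw [injective_iff_map_eq_zero]
    intro f hf
    by_contra h0
    have h2 : IsUnit f := by
      rw [isUnit_iff_constantCoeff, isUnit_iff_ne_zero]
      intro h
      apply h0
      ext m
      rw [Subsingleton.elim m 0]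
      exact h
    obtain ⟨g, hg⟩ := h2.exists_right_inv
    have h3 : ψ f = 0 := hf
    rw [← hg, map_mul, h3, zero_mul] at h1
    exact h1 rfl
  | succ n ih =>
    by_cases hinj : Function.Injective ψ
    · exact ⟨n + 1, AlgHom.id _ _, hψ, hinj⟩
    rw [injective_iff_map_eq_zero] at hinj
    push Not at hinj
    obtain ⟨f, hf, hf0⟩ := hinj
    obtain ⟨a, b, ha, hreg⟩ := exists_regular hf0
    set g := finSuccEquiv K n (subst (shr a b) f) with hg
    let τ : MvPowerSeries (Fin (n + 1)) K →ₐ[K] MvPowerSeries (Fin (n + 1)) K :=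
      substAlgHom (hasSubst_shr a⁻¹ fun j => -(b j * a⁻¹))
    have hτ : ∀ h, τ (subst (shr a b) h) = h := fun h => by
      rw [substAlgHom_apply, shr_shr ha]
    let e := τ.comp (finSuccEquiv K n).symm.toAlgHom
    have he : Function.Surjective e := fun h =>
      ⟨finSuccEquiv K n (subst (shr a b) h), by simp [e, hτ]⟩
    have h2 : (ψ.comp e.toRingHom).Finite := hψ.comp (RingHom.Finite.of_surjective _ he)
    have h3 : (ψ.comp e.toRingHom) g = 0 := by
      simp [e, hg, hτ, hf]
    let ψ' := Ideal.Quotient.lift (Ideal.span {g}) (ψ.comp e.toRingHom) (fun x hx => by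
      obtain ⟨c, rfl⟩ := Ideal.mem_span_singleton.1 hx
      rw [map_mul, h3, zero_mul])
    have h4 : ψ'.comp (Ideal.Quotient.mk _) = ψ.comp e.toRingHom :=
      Ideal.Quotient.lift_comp_mk _ _ _
    have h5 : ψ'.Finite := RingHom.Finite.of_comp_finite (f := Ideal.Quotient.mk _) (h4 ▸ h2)
    have h6 := h5.comp (RingHom.finite_algebraMap.2 (finite_quot hreg))
    let φ1 : MvPowerSeries (Fin n) K →ₐ[K] MvPowerSeries (Fin (n + 1)) K :=
      e.comp (IsScalarTower.toAlgHom K _ _)
    have h7 : ψ'.comp (algebraMap (MvPowerSeries (Fin n) K) _) = ψ.comp φ1.toRingHom := by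
      ext1 x
      exact congrArg (fun F => F (algebraMap _ _ x)) (congrArg DFunLike.coe h4)
    rw [h7] at h6
    obtain ⟨d, φ, h8, h9⟩ := ih (ψ.comp φ1.toRingHom) h6 (by simpa using h1)
    exact ⟨d, φ1.comp φ, h8, h9⟩

end

end Vale.Agent.P218G
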