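import Vale.Agent.P218G.Gev
import Vale.Agent.P268.Hol

/-!
# P218: power series expansion of a bounded holomorphic function on a polydisc
-/

namespace Vale.Agent.P218G

open Filter Finset Topology Metric

/-- the open polydisc -/
def PD {σ : Type} (ρ : σ → ℝ) : Set (σ → ℂ) := {x | ∀ i, ‖x i‖ < ρ i}

/-- monomials -/
noncomputable def mon {σ : Type} [Fintype σ] (d : σ →₀ ℕ) (x : σ → ℂ) : ℂ := ∏ i, x i ^ d i

/-- the Cauchy inequalities -/
def Bd {σ : Type} [Fintype σ] (c : (σ →₀ ℕ) → ℂ) (B : ℝ) (ρ : σ → ℝ) : Prop :=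
  ∀ d, ‖c d‖ * ∏ i, ρ i ^ d i ≤ B

section

variable {σ : Type} [Fintype σ] {c : (σ →₀ ℕ) → ℂ} {B : ℝ} {ρ : σ → ℝ} {x : σ → ℂ}

theorem isOpen_PD (ρ : σ → ℝ) : IsOpen (PD ρ) := by
  have : PD ρ = ⋂ i, {x | ‖x i‖ < ρ i} := by
    ext x
    simp [PD]
  rw [this]
  exact isOpen_iInter_of_finite fun i => isOpen_lt (by fun_prop) continuous_const

theorem norm_mon (d : σ →₀ ℕ) (x : σ → ℂ) : ‖mon d x‖ = ∏ i, ‖x i‖ ^ d i := by
  simp [mon]

theorem Bd.nonneg (h : Bd c B ρ) : 0 ≤ B := le_trans (by simp) (h 0)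

theorem Bd.term_le (h : Bd c B ρ) (hρ : ∀ i, 0 < ρ i) (d : σ →₀ ℕ) (x : σ → ℂ) :
    ‖c d * mon d x‖ ≤ B * ∏ i, (‖x i‖ / ρ i) ^ d i := by
  have h1 : ∏ i, ‖x i‖ ^ d i = (∏ i, ρ i ^ d i) * ∏ i, (‖x i‖ / ρ i) ^ d i := by
    rw [← prod_mul_distrib]
    refine prod_congr rfl fun i _ => ?_
    rw [← mul_pow, mul_div_cancel₀ _ (hρ i).ne']
  rw [norm_mul, norm_mon, h1, ← mul_assoc]
  exact mul_le_mul_of_nonneg_right (h d)
    (prod_nonneg fun i _ => pow_nonneg (div_nonneg (norm_nonneg _) (hρ i).le) _)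

theorem summable_geo {y : σ → ℝ} (h0 : ∀ i, 0 ≤ y i) (h1 : ∀ i, y i < 1) :
    Summable fun d : σ →₀ ℕ => ∏ i, y i ^ d i :=
  summable_of_sum_le (fun _ => prod_nonneg fun i _ => pow_nonneg (h0 i) _) (geo h0 h1)

theorem Bd.summable (h : Bd c B ρ) (hx : x ∈ PD ρ) : Summable fun d => c d * mon d x := by
  have hρ : ∀ i, 0 < ρ i := fun i => (norm_nonneg _).trans_lt (hx i)
  refine Summable.of_norm_bounded ((summable_geo (y := fun i => ‖x i‖ / ρ i)
    (fun i => div_nonneg (norm_nonneg _) (hρ i).le)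
    fun i => (div_lt_one (hρ i)).2 (hx i)).mul_left B) fun d => h.term_le hρ d x

end

theorem cauchy_one {φ : ℂ → ℂ} {R B : ℝ} (hR : 0 < R) (hφ : DifferentiableOn ℂ φ (ball 0 R))
    (hB : ∀ z ∈ ball (0 : ℂ) R, ‖φ z‖ ≤ B) (k : ℕ) :
    ‖(k.factorial : ℂ)⁻¹ * iteratedDeriv k φ 0‖ * R ^ k ≤ B := by
  have h1 : ∀ r ∈ Set.Ioo 0 R, ‖(k.factorial : ℂ)⁻¹ * iteratedDeriv k φ 0‖ * r ^ k ≤ B := by
    intro r hr
    have h2 := Complex.norm_iteratedDeriv_le_of_forall_mem_sphere_norm_le k hr.1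
      (hφ.diffContOnCl_ball (closedBall_subset_ball hr.2))
      fun z hz => hB z (closedBall_subset_ball hr.2 (sphere_subset_closedBall hz))
    have h3 : (0 : ℝ) < k.factorial := by positivity
    rw [le_div_iff₀ (pow_pos hr.1 k)] at h2
    rw [norm_mul, norm_inv, Complex.norm_natCast, mul_assoc, inv_mul_le_iff₀ h3]
    exact h2
  have h2 : Tendsto (fun r : ℝ => ‖(k.factorial : ℂ)⁻¹ * iteratedDeriv k φ 0‖ * r ^ k) (𝓝[<] R)
      (𝓝 (‖(k.factorial : ℂ)⁻¹ * iteratedDeriv k φ 0‖ * R ^ k)) :=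
    Tendsto.mono_left (Continuous.tendsto (by fun_prop) R) nhdsWithin_le_nhds
  exact le_of_tendsto h2 (Filter.mem_of_superset (Ioo_mem_nhdsLT hR) h1)

/-- the expansion theorem for the index type `σ` -/
def Pdx (σ : Type) [Fintype σ] : Prop :=
  ∀ (ρ : σ → ℝ) (f : (σ → ℂ) → ℂ) (B : ℝ), (∀ i, 0 < ρ i) → DifferentiableOn ℂ f (PD ρ) →
    (∀ x ∈ PD ρ, ‖f x‖ ≤ B) →
    ∃ c : (σ →₀ ℕ) → ℂ, Bd c B ρ ∧ ∀ x ∈ PD ρ, HasSum (fun d => c d * mon d x) (f x)

theorem pdx_option {σ : Type} [Fintype σ] (ih : Pdx σ) : Pdx (Option σ) := by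
  classical
  intro ρ f B hρ hf hB
  let ins : ℂ → (σ → ℂ) → Option σ → ℂ := fun z y o => o.elim z y
  have hins : ∀ z ∈ ball (0 : ℂ) (ρ none), ∀ y ∈ PD fun i => ρ (some i), ins z y ∈ PD ρ := by
    rintro z hz y hy (_ | i)
    · simpa [ins] using hz
    · exact hy i
  have hd1 : ∀ z y, HasDerivAt (fun z => ins z y) (Pi.single none 1) z := by
    intro z y
    rw [hasDerivAt_pi]
    rintro (_ | i)
    · simpa [ins] using hasDerivAt_id' z
    · simpa [ins] using hasDerivAt_const z (y i)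
  have hd2 : Differentiable ℂ (ins 0) := by
    rw [differentiable_pi]
    rintro (_ | i)
    · exact differentiable_const _
    · exact differentiable_apply i
  let g : ℕ → (Option σ → ℂ) → ℂ := fun k =>
    (fun h x => fderiv ℂ h x (Pi.single none 1))^[k] f
  have hg0 : ∀ k, g (k + 1) = fun x => fderiv ℂ (g k) x (Pi.single none 1) := fun k =>
    Function.iterate_succ_apply' _ _ _
  have hg : ∀ k, DifferentiableOn ℂ (g k) (PD ρ) := by
    intro k
    induction k with
    | zero => exact hf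
    | succ k ih =>
      rw [hg0]
      exact P268.differentiableOn_fderiv_apply (isOpen_PD ρ) ih _
  have hit : ∀ y ∈ PD fun i => ρ (some i), ∀ k, ∀ z ∈ ball (0 : ℂ) (ρ none),
      iteratedDeriv k (fun z => f (ins z y)) z = g k (ins z y) := by
    intro y hy k
    induction k with
    | zero => intro z _; rfl
    | succ k ih =>
      intro z hz
      have h1 : iteratedDeriv k (fun z => f (ins z y)) =ᶠ[𝓝 z] fun z => g k (ins z y) :=
        Filter.mem_of_superset (isOpen_ball.mem_nhds hz) ih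
      rw [iteratedDeriv_succ, h1.deriv_eq, hg0]
      exact (((hg k).differentiableAt ((isOpen_PD ρ).mem_nhds
        (hins z hz y hy))).hasFDerivAt.comp_hasDerivAt z (hd1 z y)).deriv
  have hφ : ∀ y ∈ PD fun i => ρ (some i),
      DifferentiableOn ℂ (fun z => f (ins z y)) (ball 0 (ρ none)) := fun y hy =>
    hf.comp (fun z _ => (hd1 z y).differentiableAt.differentiableWithinAt) fun z hz => hins z hz y hy
  have h0 : (0 : ℂ) ∈ ball (0 : ℂ) (ρ none) := mem_ball_self (hρ none)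
  choose c hc1 hc2 using fun k : ℕ => ih (fun i => ρ (some i))
    (fun y => (k.factorial : ℂ)⁻¹ * g k (ins 0 y)) (B / ρ none ^ k) (fun i => hρ _)
    (((hg k).comp hd2.differentiableOn fun y hy => hins 0 h0 y hy).const_mul _) (by
      intro y hy
      rw [le_div_iff₀ (pow_pos (hρ none) k), ← hit y hy k 0 h0]
      exact cauchy_one (hρ none) (hφ y hy) (fun z hz => hB _ (hins z hz y hy)) k)
  have hbd : Bd (fun d : Option σ →₀ ℕ => c (d none) d.some) B ρ := by
    intro d
    have h1 := hc1 (d none) d.some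
    rw [le_div_iff₀ (pow_pos (hρ none) _)] at h1
    rw [Fintype.prod_option]
    simp only [Finsupp.some_apply] at h1
    linarith
  refine ⟨_, hbd, fun x hx => ?_⟩
  have hy : (fun i => x (some i)) ∈ PD fun i => ρ (some i) := fun i => hx _
  have hz : x none ∈ ball (0 : ℂ) (ρ none) := by simpa using hx none
  have hxe : ins (x none) (fun i => x (some i)) = x := by
    funext o
    cases o <;> rfl
  have h1 := (hbd.summable hx).hasSum
  have h2 := (Finsupp.optionEquiv.symm.hasSum_iff.2 h1).prod_fiberwise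
    (g := fun k => x none ^ k * ((k.factorial : ℂ)⁻¹ * g k (ins 0 fun i => x (some i)))) (by
      intro k
      refine ((hc2 k _ hy).mul_left (x none ^ k)).congr_fun fun d => ?_
      change c (d.optionElim k none) (d.optionElim k).some * mon (d.optionElim k) x = _
      simp only [mon, Fintype.prod_option, Finsupp.optionElim_apply_none,
        Finsupp.optionElim_apply_some, Finsupp.some_optionElim]
      ring)
  have h3 := Complex.hasSum_taylorSeries_on_ball (hφ _ hy) hz
  simp only [hit _ hy _ 0 h0, sub_zero, smul_eq_mul, hxe] at h3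
  have h4 := h2.unique (h3.congr_fun fun k => by ring)
  rwa [h4] at h1

theorem pdx (σ : Type) [Fintype σ] : Pdx σ := by
  refine Fintype.induction_empty_option (P := fun α _ => Pdx α) ?_ ?_ (fun α _ => pdx_option) σ
  · intro α β _ e ih ρ f B hρ hf hB
    let _ := Fintype.ofEquiv β e.symm
    have hm : ∀ y ∈ PD fun i => ρ (e i), (fun j => y (e.symm j)) ∈ PD ρ := fun y hy j => by
      simpa using hy (e.symm j)
    obtain ⟨c, h1, h2⟩ := ih (fun i => ρ (e i)) (fun y => f fun j => y (e.symm j)) B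
      (fun i => hρ _) (hf.comp (by fun_prop) hm) fun y hy => hB _ (hm y hy)
    refine ⟨fun d => c (Finsupp.equivMapDomain e.symm d), fun d => ?_, fun x hx => ?_⟩
    · rw [← e.prod_comp]
      exact h1 (Finsupp.equivMapDomain e.symm d)
    · have h3 := (Finsupp.equivCongrLeft e.symm).hasSum_iff.2 (h2 (fun i => x (e i)) fun i => hx _)
      simp only [Equiv.apply_symm_apply] at h3
      refine h3.congr_fun fun d => ?_
      rw [mon, ← e.prod_comp]
      rfl
  · intro ρ f B _ _ hB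
    refine ⟨fun _ => f 0, fun d => by simpa using hB 0 fun i => i.elim, fun x _ => ?_⟩
    have h1 := hasSum_single (f := fun d : PEmpty →₀ ℕ => f 0 * mon d x) 0
      fun d hd => absurd (Subsingleton.elim _ _) hd
    rw [Subsingleton.elim x 0] at h1 ⊢
    simp [mon]

end Vale.Agent.P218G
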