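import Vale.Agent.P218G.Nn

/-!
# P218, formal arcs: primitive elements, extension of homomorphisms, Hensel lemma
-/

namespace Vale.Agent.P218G

open Polynomial

section

variable {A B : Type} [CommRing A] [CommRing B] [IsDomain A] [IsDomain B] [Algebra A B]

/-- every element is a polynomial in `η` up to a denominator -/
def Gen (A : Type) {B : Type} [CommRing A] [CommRing B] [Algebra A B] (η : B) : Prop :=
  ∀ b : B, ∃ δ : A, δ ≠ 0 ∧ ∃ G : A[X], algebraMap A B δ * b = aeval η G

omit [IsDomain B] in
theorem Gen.smul {η : B} (h : Gen A η) {l : A} (hl : l ≠ 0) : Gen A (algebraMap A B l * η) := by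
  intro b
  obtain ⟨δ, hδ, G, hG⟩ := h b
  refine ⟨l ^ G.natDegree * δ, mul_ne_zero (pow_ne_zero _ hl) hδ, G.scaleRoots l, ?_⟩
  rw [aeval_def, scaleRoots_eval₂_mul, ← aeval_def, ← hG, map_mul, map_pow, mul_assoc]

theorem exists_gen [CharZero A] [FaithfulSMul A B] [Module.Finite A B] : ∃ η : B, Gen A η := by
  let _ : Algebra (FractionRing A) (FractionRing B) := FractionRing.liftAlgebra A _
  have := FractionRing.isScalarTower_liftAlgebra A (FractionRing B)
  have hfin : FiniteDimensional (FractionRing A) (FractionRing B) := inferInstance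
  obtain ⟨α, hα⟩ := Field.exists_primitive_element (FractionRing A) (FractionRing B)
  obtain ⟨x, y, hy, rfl⟩ := IsFractionRing.div_surjective (A := B) α
  have hy0 : y ≠ 0 := nonZeroDivisors.ne_zero hy
  obtain ⟨η, d, hd, hη⟩ := Algebra.IsAlgebraic.exists_smul_eq_mul A x hy0
  have hinj := IsFractionRing.injective B (FractionRing B)
  have hy1 : algebraMap B (FractionRing B) y ≠ 0 := fun h => hy0 (hinj (h.trans (map_zero _).symm))
  have hd1 : algebraMap A (FractionRing A) d ≠ 0 := fun h =>
    hd (IsFractionRing.injective A (FractionRing A) (h.trans (map_zero _).symm))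
  have h1 : algebraMap B (FractionRing B) x / algebraMap B (FractionRing B) y =
      algebraMap (FractionRing A) (FractionRing B) (algebraMap A (FractionRing A) d)⁻¹ *
        algebraMap B (FractionRing B) η := by
    have h2 := congrArg (algebraMap B (FractionRing B)) hη
    rw [Algebra.smul_def, map_mul, map_mul, ← IsScalarTower.algebraMap_apply,
      IsScalarTower.algebraMap_apply A (FractionRing A) (FractionRing B)] at h2
    have h3 := (map_ne_zero (algebraMap (FractionRing A) (FractionRing B))).2 hd1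
    rw [map_inv₀]
    field_simp
    linear_combination h2
  refine ⟨η, fun b => ?_⟩
  have h2 : algebraMap B (FractionRing B) b ∈ (IntermediateField.adjoin (FractionRing A)
      {algebraMap B (FractionRing B) x / algebraMap B (FractionRing B) y}).toSubalgebra := by
    rw [hα]
    trivial
  rw [IntermediateField.adjoin_simple_toSubalgebra_of_isAlgebraic (IsAlgebraic.of_finite _ _),
    Algebra.adjoin_singleton_eq_range_aeval] at h2
  obtain ⟨g, hg⟩ := h2
  set g' := g.comp (C (algebraMap A (FractionRing A) d)⁻¹ * X) with hg'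
  have h3 : aeval (algebraMap B (FractionRing B) η) g' = algebraMap B (FractionRing B) b := by
    rw [hg', aeval_comp, map_mul, aeval_C, aeval_X, ← h1]
    exact hg
  obtain ⟨δ, hδ, h4⟩ := IsLocalization.integerNormalization_spec (nonZeroDivisors A) g'
  refine ⟨δ, nonZeroDivisors.ne_zero hδ,
    IsLocalization.integerNormalization (nonZeroDivisors A) g', hinj ?_⟩
  have h5 := congrArg (aeval (algebraMap B (FractionRing B) η)) h4
  rw [aeval_map_algebraMap, aeval_algebraMap_apply, ← algebraMap_smul (FractionRing A), map_smul,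
    h3, Algebra.smul_def, ← IsScalarTower.algebraMap_apply] at h5
  rw [h5, map_mul, ← IsScalarTower.algebraMap_apply]

/-- primitive elements for finite extensions of domains -/
theorem exists_prim [CharZero A] [FaithfulSMul A B] [Module.Finite A B] :
    ∃ (η : B) (Q : A[X]) (δ : A), δ ≠ 0 ∧ aeval η Q = 0 ∧ aeval η (derivative Q) ≠ 0 ∧
      (∀ G : A[X], aeval η G = 0 → Q ∣ G) ∧
      ∀ b : B, ∃ G : A[X], algebraMap A B δ * b = aeval η G := by
  classical
  have hinj := FaithfulSMul.algebraMap_injective A B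
  have h0 : ∃ n, ∃ (η : B) (q : A[X]), Gen A η ∧ q ≠ 0 ∧ aeval η q = 0 ∧ q.natDegree = n := by
    obtain ⟨η, hη⟩ := exists_gen (A := A) (B := B)
    obtain ⟨q, hq, hq2⟩ := Algebra.IsIntegral.isIntegral (R := A) η
    exact ⟨_, η, q, hη, hq.ne_zero, hq2, rfl⟩
  obtain ⟨η0, q, h1, h2, h3, h4⟩ := Nat.find_spec h0
  have hl : q.leadingCoeff ≠ 0 := leadingCoeff_ne_zero.2 h2
  have hgen := h1.smul hl
  set η := algebraMap A B q.leadingCoeff * η0 with hη
  have hQ : aeval η (integralNormalization q) = 0 :=
    integralNormalization_aeval_eq_zero h3 fun x hx => hinj (hx.trans (map_zero _).symm)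
  have hm := monic_integralNormalization h2
  have hmin : ∀ G : A[X], aeval η G = 0 → G.natDegree < (integralNormalization q).natDegree →
      G = 0 := by
    intro G hG hdeg
    by_contra hne
    rw [natDegree_integralNormalization, h4] at hdeg
    exact Nat.find_min h0 hdeg ⟨η, G, hgen, hne, hG, rfl⟩
  have hne1 : integralNormalization q ≠ 1 := by
    intro h
    rw [h, map_one] at hQ
    exact one_ne_zero hQ
  have hpos : (integralNormalization q).natDegree ≠ 0 := fun h =>
    hne1 (hm.natDegree_eq_zero.1 h)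
  let N : Submodule A B := LinearMap.range (aeval (R := A) η).toLinearMap
  have htor : Module.IsTorsion A (B ⧸ N) := by
    intro y
    obtain ⟨b, rfl⟩ := Submodule.Quotient.mk_surjective N y
    obtain ⟨δ, hδ, G, hG⟩ := hgen b
    refine ⟨⟨δ, mem_nonZeroDivisors_of_ne_zero hδ⟩, ?_⟩
    change δ • Submodule.Quotient.mk (p := N) b = 0
    rw [← Submodule.Quotient.mk_smul, Submodule.Quotient.mk_eq_zero, Algebra.smul_def, hG]
    exact ⟨G, rfl⟩
  obtain ⟨δ, hδ1, hδ2⟩ := Submodule.annihilator_top_inter_nonZeroDivisors htor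
  refine ⟨η, integralNormalization q, δ, nonZeroDivisors.ne_zero hδ2, hQ, fun h => ?_,
    fun G hG => ?_, fun b => ?_⟩
  · exact hpos (derivative_eq_zero.1 (hmin _ h (natDegree_derivative_lt hpos)))
  · rw [← modByMonic_eq_zero_iff_dvd hm]
    refine hmin _ ?_ (natDegree_modByMonic_lt G hm hne1)
    rw [modByMonic_eq_sub_mul_div, map_sub, map_mul, hQ, hG, zero_mul, sub_zero]
  · have h5 := Submodule.mem_annihilator.1 hδ1 (Submodule.Quotient.mk b) trivial
    rw [← Submodule.Quotient.mk_smul, Submodule.Quotient.mk_eq_zero, Algebra.smul_def] at h5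
    obtain ⟨G, hG⟩ := h5
    exact ⟨G, hG.symm⟩

omit [IsDomain A] [IsDomain B] in
/-- extension of a homomorphism along a root of the equation of the primitive element -/
theorem exists_ext [Algebra.IsIntegral A B] {T : Type} [CommRing T] [IsDomain T]
    [IsIntegrallyClosed T] {η : B} {Q : A[X]} {δ : A}
    (hQ : ∀ G : A[X], aeval η G = 0 → Q ∣ G)
    (hδ : ∀ b : B, ∃ G : A[X], algebraMap A B δ * b = aeval η G) (θ : A →+* T) (hθ : θ δ ≠ 0)
    {β : T} (hβ : Q.eval₂ θ β = 0) :
    ∃ ρ : B →+* T, ∀ G : A[X], ρ (aeval η G) = G.eval₂ θ β := by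
  choose G hG using hδ
  have hinj := IsFractionRing.injective T (FractionRing T)
  let ι := algebraMap T (FractionRing T)
  have hd : ι (θ δ) ≠ 0 := fun h => hθ (hinj (h.trans (map_zero _).symm))
  have hwd : ∀ P P' : A[X], aeval η P = aeval η P' → P.eval₂ θ β = P'.eval₂ θ β := by
    intro P P' h
    obtain ⟨c, hc⟩ := hQ (P - P') (by rw [map_sub, h, sub_self])
    rw [← sub_eq_zero, ← eval₂_sub, hc, eval₂_mul, hβ, zero_mul]
  have hC : ∀ a, aeval η (C a : A[X]) = algebraMap A B a := fun a => aeval_C _ _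
  have hval : ∀ P : A[X], ι ((G (aeval η P)).eval₂ θ β) / ι (θ δ) = ι (P.eval₂ θ β) := by
    intro P
    have h1 := hwd (G (aeval η P)) (C δ * P) (by rw [← hG, map_mul, hC])
    rw [h1, eval₂_mul, eval₂_C, map_mul, mul_div_cancel_left₀ _ hd]
  let ρ0 : B →+* FractionRing T :=
    { toFun := fun b => ι ((G b).eval₂ θ β) / ι (θ δ)
      map_one' := by simpa using hval 1
      map_zero' := by simpa using hval 0
      map_add' := fun b c => by
        have h1 := hwd (G (b + c)) (G b + G c) (by rw [map_add, ← hG, ← hG, ← hG, mul_add])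
        rw [h1, eval₂_add, map_add, add_div]
      map_mul' := fun b c => by
        have h1 := hwd (C δ * G (b * c)) (G b * G c) (by
          rw [map_mul, map_mul, hC, ← hG, ← hG, ← hG]; ring)
        rw [eval₂_mul, eval₂_mul, eval₂_C] at h1
        have h2 := congrArg ι h1
        rw [map_mul, map_mul] at h2
        field_simp
        linear_combination h2 }
  have hρ0 : ∀ P : A[X], ρ0 (aeval η P) = ι (P.eval₂ θ β) := hval
  have hcomp : ρ0.comp (algebraMap A B) = ι.comp θ := by
    ext a
    rw [RingHom.comp_apply, ← hC, hρ0, eval₂_C, RingHom.comp_apply]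
  have hint : ∀ b, ∃ y : T, ι y = ρ0 b := by
    intro b
    obtain ⟨p, hp, hp2⟩ := Algebra.IsIntegral.isIntegral (R := A) b
    refine IsIntegrallyClosed.isIntegral_iff.1 ⟨p.map θ, hp.map θ, ?_⟩
    rw [eval₂_map, ← hcomp, ← hom_eval₂, hp2, map_zero]
  choose y hy using hint
  let ρ : B →+* T :=
    { toFun := y
      map_one' := hinj (by rw [hy, map_one, map_one])
      map_zero' := hinj (by rw [hy, map_zero, map_zero])
      map_add' := fun b c => hinj (by rw [map_add (algebraMap T _), hy, hy, hy, map_add])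
      map_mul' := fun b c => hinj (by rw [map_mul (algebraMap T _), hy, hy, hy, map_mul]) }
  exact ⟨ρ, fun P => hinj ((hy _).trans (hρ0 P))⟩

/-- Hensel lemma in power series rings -/
theorem hensel {S : Type} [CommRing S] (Q : (PowerSeries S)[X]) (y U : PowerSeries S) {d D : ℕ}
    (hD : d < D) (hU : IsUnit U) (h1 : (derivative Q).eval y = PowerSeries.X ^ d * U)
    (h2 : (PowerSeries.X : PowerSeries S) ^ (D + d) ∣ Q.eval y) :
    ∃ w : PowerSeries S, Q.eval (y + PowerSeries.X ^ D * w) = 0 := by
  obtain ⟨c, hc⟩ := h2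
  obtain ⟨V, hV⟩ := hU.exists_right_inv
  obtain ⟨e, rfl⟩ := Nat.exists_eq_add_of_lt hD
  obtain ⟨R, hR⟩ : (X : (PowerSeries S)[X]) ^ 2 ∣ taylor y Q - (C (Q.eval y) +
      C ((derivative Q).eval y) * X) := by
    rw [X_pow_dvd_iff]
    intro k hk
    interval_cases k
    · simp [taylor_coeff_zero]
    · simp [taylor_coeff_one]
  have h3 : ∀ z, Q.eval (y + z) = Q.eval y + (derivative Q).eval y * z + z ^ 2 * R.eval z := by
    intro z
    have h4 := congrArg (eval z) hR
    simp only [eval_sub, eval_add, eval_mul, eval_C, eval_X, eval_pow, taylor_eval] at h4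
    rw [add_comm y z]
    linear_combination h4
  let P : (PowerSeries S)[X] := X ^ 2 * R.comp (C (PowerSeries.X ^ (d + e + 1)) * X)
  have hP : ∀ w, P.eval w = w ^ 2 * R.eval (PowerSeries.X ^ (d + e + 1) * w) := by
    intro w
    simp [P, eval_comp]
  obtain ⟨w, hw⟩ := exists_fix (ι := Unit)
    (fun w _ => -(V * (c + PowerSeries.X ^ (e + 1) * P.eval (w ())))) (by
      intro n v w hvw k
      obtain ⟨r, hr⟩ := (hvw ()).trans (sub_dvd_eval_sub (v ()) (w ()) P)
      refine ⟨-(V * PowerSeries.X ^ e * r), ?_⟩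
      linear_combination (-V * PowerSeries.X ^ (e + 1)) * hr)
  have h4 : -(V * (c + PowerSeries.X ^ (e + 1) * P.eval (w ()))) = w () := congrFun hw ()
  refine ⟨w (), ?_⟩
  rw [h3, h1, hc]
  rw [hP] at h4
  linear_combination (-PowerSeries.X ^ (d + e + 1 + d) * U) * h4 -
    PowerSeries.X ^ (d + e + 1 + d) * (c + PowerSeries.X ^ (e + 1) * (w () ^ 2 *
      R.eval (PowerSeries.X ^ (d + e + 1) * w ()))) * hV

end

end Vale.Agent.P218G
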