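import Vale.Agent.P218G.Pdx
import Vale.Agent.P218G.JDefs

/-!
# P218: convergent power series, remainder estimates, uniqueness, holomorphy
-/

namespace Vale.Agent.P218G

open Filter Finset Topology Metric

variable {σ : Type} [Fintype σ] {c : (σ →₀ ℕ) → ℂ} {B : ℝ} {ρ : σ → ℝ} {x : σ → ℂ}

/-- the sum of the series -/
noncomputable def sm (c : (σ →₀ ℕ) → ℂ) (x : σ → ℂ) : ℂ := ∑' d, c d * mon d x

theorem Bd.norm_sm_le (h : Bd c B ρ) (hρ : ∀ i, 0 < ρ i) {τ : ℝ} (hτ : 0 ≤ τ)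
    (H : ∀ d, c d ≠ 0 → ∏ i, (‖x i‖ / ρ i) ^ d i ≤ τ * ∏ i, (1 / 2 : ℝ) ^ d i) :
    ‖sm c x‖ ≤ B * τ * 2 ^ Fintype.card σ := by
  have hB := h.nonneg
  have h0 : ∀ _ : σ, (0 : ℝ) ≤ 1 / 2 := fun _ => by norm_num
  have h1 : ∀ _ : σ, (1 / 2 : ℝ) < 1 := fun _ => by norm_num
  have h2 := (summable_geo h0 h1).hasSum.mul_left (B * τ)
  refine (tsum_of_norm_bounded h2 fun d => ?_).trans (mul_le_mul_of_nonneg_left ?_ (by positivity))
  · by_cases hd : c d = 0
    · rw [hd, zero_mul, norm_zero]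
      positivity
    · rw [mul_assoc]
      exact (h.term_le hρ d x).trans (mul_le_mul_of_nonneg_left (H d hd) hB)
  · refine (Real.tsum_le_of_sum_le (fun d => by positivity) (geo h0 h1)).trans (le_of_eq ?_)
    norm_num

theorem Bd.of_le (h : Bd c B ρ) (hρ : ∀ i, 0 < ρ i) {c' : (σ →₀ ℕ) → ℂ}
    (h' : ∀ d, ‖c' d‖ ≤ ‖c d‖) : Bd c' B ρ := fun d =>
  (mul_le_mul_of_nonneg_right (h' d) (prod_nonneg fun i _ => pow_nonneg (hρ i).le _)).trans (h d)

theorem Bd.mono (h : Bd c B ρ) {ρ' : σ → ℝ} (h0 : ∀ i, 0 ≤ ρ' i) (h1 : ∀ i, ρ' i ≤ ρ i) :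
    Bd c B ρ' := fun d =>
  (mul_le_mul_of_nonneg_left (prod_le_prod (fun i _ => pow_nonneg (h0 i) _)
    fun i _ => pow_le_pow_left₀ (h0 i) (h1 i) _) (norm_nonneg _)).trans (h d)

theorem Bd.sub (h : Bd c B ρ) (hρ : ∀ i, 0 < ρ i) {c' : (σ →₀ ℕ) → ℂ} {B' : ℝ}
    (h' : Bd c' B' ρ) : Bd (c - c') (B + B') ρ := fun d => by
  have h1 : 0 ≤ ∏ i, ρ i ^ d i := prod_nonneg fun i _ => pow_nonneg (hρ i).le _
  have h2 := mul_le_mul_of_nonneg_right (norm_sub_le (c d) (c' d)) h1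
  rw [Pi.sub_apply]
  linarith [h d, h' d]

theorem hasSum_poly (p : MvPolynomial σ ℂ) (x : σ → ℂ) :
    HasSum (fun d => p.coeff d * mon d x) (MvPolynomial.eval x p) := by
  rw [MvPolynomial.eval_eq']
  exact hasSum_sum_of_ne_finset_zero fun d hd => by
    rw [MvPolynomial.notMem_support_iff.1 hd, zero_mul]

theorem Bd.asym (h : Bd c B ρ) (hρ : ∀ i, 0 < ρ i) {t : ℝ} (ht0 : 0 ≤ t) (ht : t ≤ 1)
    (hx : ∀ i, ‖x i‖ ≤ t * (ρ i / 2)) (L : ℕ) :
    ‖sm c x - MvPolynomial.eval x (MvPowerSeries.truncTotal L (R := ℂ) c)‖ ≤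
      B * t ^ L * 2 ^ Fintype.card σ := by
  set p : MvPolynomial σ ℂ := MvPowerSeries.truncTotal L (R := ℂ) c with hp
  have hco : ∀ d, p.coeff d = if d.degree < L then c d else 0 := fun d =>
    MvPowerSeries.coeff_truncTotal_eq_ite _
  have hxP : x ∈ PD ρ := fun i => by nlinarith [hx i, hρ i]
  have h1 := ((h.summable hxP).hasSum.sub (hasSum_poly p x)).tsum_eq
  have h2 : sm (fun d => c d - p.coeff d) x = sm c x - MvPolynomial.eval x p := by
    rw [sm, sm, ← h1]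
    simp only [sub_mul]
  rw [← h2]
  refine Bd.norm_sm_le (h.of_le hρ fun d => ?_) hρ (by positivity) fun d hd => ?_
  · rw [hco]
    split_ifs <;> simp
  · have h3 : L ≤ d.degree := by
      by_contra hc
      rw [hco, if_pos (by omega), sub_self] at hd
      exact hd rfl
    calc ∏ i, (‖x i‖ / ρ i) ^ d i ≤ ∏ i, (t * (1 / 2)) ^ d i := by
          refine prod_le_prod (fun i _ => pow_nonneg (div_nonneg (norm_nonneg _) (hρ i).le) _)
            fun i _ => pow_le_pow_left₀ (div_nonneg (norm_nonneg _) (hρ i).le) ?_ _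
          rw [div_le_iff₀ (hρ i)]
          linarith [hx i]
      _ = t ^ d.degree * ∏ i, (1 / 2 : ℝ) ^ d i := by
          simp only [mul_pow, prod_mul_distrib]
          rw [prod_pow_eq_pow_sum, Finsupp.degree_eq_sum]
      _ ≤ _ := mul_le_mul_of_nonneg_right (pow_le_pow_of_le_one ht0 ht h3) (by positivity)

theorem exists_le_pos (hρ : ∀ i, 0 < ρ i) : ∃ τ : ℝ, 0 < τ ∧ ∀ i, τ ≤ ρ i := by
  obtain ⟨τ, h1, h2⟩ := ((eventually_all.2 fun i => Ioo_mem_nhdsGT (hρ i)).and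
    (self_mem_nhdsWithin (a := (0 : ℝ)) (s := Set.Ioi 0))).exists
  exact ⟨τ, h2, fun i => (h1 i).2.le⟩

theorem Bd.eq_zero (h : Bd c B ρ) (hρ : ∀ i, 0 < ρ i)
    (h0 : ∀ᶠ y in 𝓝 (0 : σ → ℝ), sm c (rp y) = 0) : c = 0 := by
  classical
  by_contra hne
  have h1 : ∃ k, ∃ d : σ →₀ ℕ, d.degree = k ∧ c d ≠ 0 := by
    obtain ⟨d, hd⟩ := Function.ne_iff.1 hne
    exact ⟨_, d, rfl, hd⟩
  obtain ⟨d0, h2, h3⟩ := Nat.find_spec h1
  set k := Nat.find h1 with hk
  set p : MvPolynomial σ ℂ := MvPowerSeries.truncTotal (k + 1) (R := ℂ) c with hp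
  have hco : ∀ d, p.coeff d = if d.degree < k + 1 then c d else 0 := fun d =>
    MvPowerSeries.coeff_truncTotal_eq_ite _
  have hp0 : p ≠ 0 := by
    intro h4
    have := hco d0
    rw [h4, if_pos (by omega)] at this
    exact h3 this.symm
  have hdeg : ∀ d ∈ p.support, d.degree = k := by
    intro d hd
    rw [MvPolynomial.mem_support_iff, hco] at hd
    split_ifs at hd with h4
    · by_contra h5
      exact Nat.find_min h1 (by omega : d.degree < k) ⟨d, rfl, hd⟩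
    · exact absurd rfl hd
  obtain ⟨q, hq1, hq⟩ : ∃ q : σ → ℝ, (∀ i, |q i| ≤ ρ i / 2) ∧ MvPolynomial.eval (rp q) p ≠ 0 := by
    by_contra hc
    push Not at hc
    refine hp0 (MvPolynomial.funext_set (fun i => (↑) '' Set.Ioo (0 : ℝ) (ρ i / 2))
      (fun i => (Set.Ioo_infinite (half_pos (hρ i))).image Complex.ofReal_injective.injOn)
      fun z hz => ?_)
    choose q h4 h5 using fun i => hz i trivial
    have h6 : z = rp q := funext fun i => (h5 i).symm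
    rw [h6, map_zero]
    exact hc q fun i => by rw [abs_of_pos (h4 i).1]; exact (h4 i).2.le
  have h4 : ∀ t : ℝ, MvPolynomial.eval (rp (t • q)) p = t ^ k * MvPolynomial.eval (rp q) p := by
    intro t
    rw [MvPolynomial.eval_eq', MvPolynomial.eval_eq', mul_sum]
    refine sum_congr rfl fun d hd => ?_
    simp only [rp, Pi.smul_apply, smul_eq_mul, Complex.ofReal_mul, mul_pow, prod_mul_distrib]
    rw [prod_pow_eq_pow_sum, ← Finsupp.degree_eq_sum, hdeg d hd]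
    ring
  have h5 : Tendsto (fun t : ℝ => t • q) (𝓝[>] 0) (𝓝 0) := by
    have : Continuous fun t : ℝ => t • q := by fun_prop
    simpa using (this.tendsto 0).mono_left nhdsWithin_le_nhds
  have h6 : Tendsto (fun t : ℝ => B * t * 2 ^ Fintype.card σ) (𝓝[>] 0) (𝓝 0) := by
    have : Continuous fun t : ℝ => B * t * 2 ^ Fintype.card σ := by fun_prop
    simpa using (this.tendsto 0).mono_left nhdsWithin_le_nhds
  refine hq (norm_le_zero_iff.1 (ge_of_tendsto h6 ?_))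
  filter_upwards [h5.eventually h0, Ioo_mem_nhdsGT one_pos] with t h7 h8
  have h9 := h.asym hρ h8.1.le h8.2.le (x := rp (t • q)) (fun i => by
    simp only [rp, Pi.smul_apply, smul_eq_mul, Complex.norm_real, Real.norm_eq_abs, abs_mul,
      abs_of_pos h8.1]
    exact mul_le_mul_of_nonneg_left (hq1 i) h8.1.le) (k + 1)
  rw [h7, zero_sub, norm_neg, ← hp, h4, norm_mul, norm_pow, Complex.norm_real,
    Real.norm_of_nonneg h8.1.le] at h9
  refine le_of_mul_le_mul_left (h9.trans (le_of_eq ?_)) (pow_pos h8.1 k)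
  ring

theorem Bd.differentiableOn (h : Bd c B ρ) (hρ : ∀ i, 0 < ρ i) :
    DifferentiableOn ℂ (sm c) (PD fun i => ρ i / 4) := by
  obtain ⟨τ, hτ, hτ1⟩ := exists_le_pos hρ
  have h0 : ∀ _ : σ, (0 : ℝ) ≤ 1 / 2 := fun _ => by norm_num
  have h1 : ∀ _ : σ, (1 / 2 : ℝ) < 1 := fun _ => by norm_num
  have hd : ∀ d, Differentiable ℂ fun x => c d * mon d x := fun d => by
    unfold mon
    fun_prop
  have hconv : Convex ℝ (PD fun i => ρ i / 4) := by
    have : (PD fun i => ρ i / 4) = Set.pi Set.univ fun i => ball (0 : ℂ) (ρ i / 4) := by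
      ext x
      simp [PD]
    rw [this]
    exact convex_pi fun i _ => convex_ball _ _
  intro x hx
  refine (hasFDerivAt_tsum_of_isPreconnected (((summable_geo h0 h1).mul_left B).div_const (τ / 4))
    (isOpen_PD _) hconv.isPreconnected (fun d y _ => (hd d y).hasFDerivAt) (fun d y hy => ?_) hx
    (h.summable fun i => by linarith [hx i, hρ i]) hx).differentiableAt.differentiableWithinAt
  refine P268.norm_fderiv_le_of_ball (by positivity) (hd d).differentiableOn fun z hz => ?_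
  refine (h.term_le hρ d z).trans (mul_le_mul_of_nonneg_left (prod_le_prod
    (fun i _ => pow_nonneg (div_nonneg (norm_nonneg _) (hρ i).le) _)
    fun i _ => pow_le_pow_left₀ (div_nonneg (norm_nonneg _) (hρ i).le) ?_ _) h.nonneg)
  rw [div_le_iff₀ (hρ i)]
  have h2 := (norm_le_pi_norm (z - y) i).trans (mem_ball_iff_norm.1 hz).le
  have h3 := norm_le_norm_add_norm_sub' (z i) (y i)
  rw [Pi.sub_apply] at h2
  linarith [hy i, hτ1 i]

/-- `c` is the power series of `g` at the origin -/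
def IsSer (c : (σ →₀ ℕ) → ℂ) (g : (σ → ℂ) → ℂ) : Prop :=
  ∃ (ρ : σ → ℝ) (B : ℝ), (∀ i, 0 < ρ i) ∧ Bd c B ρ ∧ ∀ x ∈ PD ρ, sm c x = g x

variable {g g' : (σ → ℂ) → ℂ} {c' : (σ →₀ ℕ) → ℂ}

theorem IsSer.sub (h : IsSer c g) (h' : IsSer c' g') : IsSer (c - c') fun x => g x - g' x := by
  obtain ⟨ρ, B, h1, h2, h3⟩ := h
  obtain ⟨ρ', B', h1', h2', h3'⟩ := h'
  have h0 : ∀ i, 0 < min (ρ i) (ρ' i) := fun i => lt_min (h1 i) (h1' i)
  refine ⟨_, _, h0, (h2.mono (fun i => (h0 i).le) fun i => min_le_left _ _).sub h0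
    (h2'.mono (fun i => (h0 i).le) fun i => min_le_right _ _), fun x hx => ?_⟩
  have k1 : x ∈ PD ρ := fun i => (hx i).trans_le (min_le_left _ _)
  have k2 : x ∈ PD ρ' := fun i => (hx i).trans_le (min_le_right _ _)
  change sm (c - c') x = g x - g' x
  rw [← h3 x k1, ← h3' x k2, sm, sm, sm, ← (h2.summable k1).tsum_sub (h2'.summable k2)]
  simp only [Pi.sub_apply, sub_mul]

theorem eventually_rp_mem (hρ : ∀ i, 0 < ρ i) : ∀ᶠ y in 𝓝 (0 : σ → ℝ), rp y ∈ PD ρ := by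
  have h1 : Continuous (rp : (σ → ℝ) → σ → ℂ) := by
    unfold rp
    fun_prop
  refine h1.continuousAt.eventually ((isOpen_PD ρ).mem_nhds fun i => ?_)
  simpa [rp] using hρ i

theorem IsSer.unique (h : IsSer c g) (h' : IsSer c' g) : c = c' := by
  obtain ⟨ρ, B, h1, h2, h3⟩ := h.sub h'
  refine sub_eq_zero.1 (h2.eq_zero h1 ?_)
  filter_upwards [eventually_rp_mem h1] with y hy
  exact (h3 _ hy).trans (sub_self _)

theorem exists_ser (hρ : ∀ i, 0 < ρ i) (hg : DifferentiableOn ℂ g (PD ρ))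
    (hB : ∀ x ∈ PD ρ, ‖g x‖ ≤ B) : ∃ c, IsSer c g := by
  obtain ⟨c, h1, h2⟩ := pdx σ ρ g B hρ hg hB
  exact ⟨c, ρ, B, hρ, h1, fun x hx => (h2 x hx).tsum_eq⟩

theorem IsSer.bd (h : IsSer c g) (hρ : ∀ i, 0 < ρ i) (hg : DifferentiableOn ℂ g (PD ρ))
    (hB : ∀ x ∈ PD ρ, ‖g x‖ ≤ B) : Bd c B ρ ∧ ∀ x ∈ PD ρ, sm c x = g x := by
  obtain ⟨c', h1, h2⟩ := pdx σ ρ g B hρ hg hB
  rw [h.unique ⟨ρ, B, hρ, h1, fun x hx => (h2 x hx).tsum_eq⟩]
  exact ⟨h1, fun x hx => (h2 x hx).tsum_eq⟩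

theorem IsSer.im_eq_zero (h : IsSer c g) (h0 : ∀ᶠ y in 𝓝 (0 : σ → ℝ), (g (rp y)).im = 0)
    (d : σ →₀ ℕ) : (c d).im = 0 := by
  obtain ⟨ρ, B, h1, h2, h3⟩ := h
  have h4 : Bd (fun d => ((c d).im : ℂ)) B ρ := h2.of_le h1 fun d => by
    simpa using Complex.abs_im_le_norm (c d)
  have h5 := h4.eq_zero h1 (by
    filter_upwards [h0, eventually_rp_mem h1] with y k1 k2
    rw [← h3 _ k2, sm, Complex.im_tsum (h2.summable k2)] at k1
    have k3 : ∀ d, ((c d).im : ℂ) * mon d (rp y) = ((c d * mon d (rp y)).im : ℝ) := by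
      intro d
      have k4 : mon d (rp y) = ((∏ i, y i ^ d i : ℝ) : ℂ) := by simp [mon, rp]
      rw [k4, Complex.im_mul_ofReal, Complex.ofReal_mul]
    simp only [sm, k3]
    rw [← Complex.ofReal_tsum, k1, Complex.ofReal_zero])
  exact Complex.ofReal_eq_zero.1 (congrFun h5 d)

end Vale.Agent.P218G
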