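import Vale.Agent.P218G.Jet
import Vale.Agent.P218G.Arc
import Vale.Agent.P218G.Evs

/-!
# P218: a critical Gevrey arc of the limit jet makes the family stationary
-/

namespace Vale.Agent.P218G

open Filter Finset Topology Metric Asymptotics PowerSeries Vale.Agent.P218S

section

variable {σ : Type} [Fintype σ]

theorem d_aeval (a : σ → ℝ⟦X⟧) (p : MvPolynomial σ ℝ) : d⁄dX ℝ (MvPolynomial.aeval a p) =
    ∑ i, d⁄dX ℝ (a i) * MvPolynomial.aeval a (MvPolynomial.pderiv i p) := by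
  classical
  induction p using MvPolynomial.induction_on with
  | C r => simp
  | add p q hp hq => simp only [map_add, hp, hq, mul_add, Finset.sum_add_distrib]
  | mul_X p j hp =>
    have h1 : ∑ i, d⁄dX ℝ (a i) * (MvPolynomial.aeval a p *
        MvPolynomial.aeval a (MvPolynomial.pderiv i (MvPolynomial.X j : MvPolynomial σ ℝ))) =
        MvPolynomial.aeval a p * d⁄dX ℝ (a j) := by
      rw [Finset.sum_eq_single j]
      · rw [MvPolynomial.pderiv_X_self, map_one, mul_one, mul_comm]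
      · intro i _ hij
        rw [MvPolynomial.pderiv_X_of_ne (Ne.symm hij), map_zero, mul_zero, mul_zero]
      · simp
    simp only [Derivation.leibniz, smul_eq_mul, map_add, map_mul, MvPolynomial.aeval_X, mul_add,
      Finset.sum_add_distrib, hp, Finset.mul_sum, h1]
    rw [add_right_inj]
    exact Finset.sum_congr rfl fun i _ => by ring

theorem d_ev {a : σ → ℝ⟦X⟧} (ha : Z0 a) (f : MvPowerSeries σ ℝ) :
    d⁄dX ℝ (ev a f) = ∑ i, d⁄dX ℝ (a i) * ev a (MvPowerSeries.pderiv ℝ i f) := by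
  classical
  refine sub_eq_zero.1 (eq_zero_of_dvd fun n => ?_)
  obtain ⟨p, g, rfl, hg⟩ := exists_approx f (n + 1)
  simp only [map_add, ev_add ha, MvPowerSeries.pderiv_coe, ev_coe, mul_add,
    Finset.sum_add_distrib, d_aeval, add_sub_add_left_eq_sub]
  refine dvd_sub (X_pow_dvd_iff.2 fun m hm => ?_)
    (Finset.dvd_sum fun i _ => ((hg.pderiv i).dvd_ev ha).mul_left _)
  rw [coeff_derivative, X_pow_dvd_iff.1 (hg.dvd_ev ha) _ (by omega), zero_mul]

theorem poly_arc {γ : σ → ℝ⟦X⟧} (hγ : Z0 γ) {f : MvPowerSeries σ ℝ}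
    (h : ∀ i, ev γ (MvPowerSeries.pderiv ℝ i f) = 0) {n L : ℕ} (hL : L ≤ 2 * (n + 1)) :
    ∃ (c : ℝ) (q : Polynomial ℝ), MvPolynomial.aeval (fun i => trunc (n + 1) (γ i))
      (f.truncTotal L) = Polynomial.C c + Polynomial.X ^ L * q := by
  have h1 : ev γ f = C (constantCoeff (ev γ f)) :=
    derivative.ext (by simp [d_ev hγ, h]) (by simp)
  have h2 := ev_taylor hγ n.succ_pos (fun i => -PowerSeries.mk fun k => coeff (k + (n + 1)) (γ i))
    0 (n := 0) (by simp) f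
  have h3 : (fun i => γ i + X ^ (n + 1) * -PowerSeries.mk fun k => coeff (k + (n + 1)) (γ i)) =
      fun i => (trunc (n + 1) (γ i) : ℝ⟦X⟧) := funext fun i => by
    linear_combination eq_X_pow_mul_shift_add_trunc (n + 1) (γ i)
  have h4 := hγ.add_mul n.succ_pos fun i => -PowerSeries.mk fun k => coeff (k + (n + 1)) (γ i)
  simp only [h, Nat.succ_eq_add_one, h3, mul_zero, sum_const_zero, Pi.zero_apply, add_zero,
    sub_zero] at h2 h4
  have h5 := (ord_sub_trunc L f).dvd_ev h4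
  rw [ev_sub h4, ev_coe] at h5
  have h6 := dvd_sub ((pow_dvd_pow _ hL).trans h2) h5
  have h7 := MvPolynomial.comp_aeval_apply (fun i => trunc (n + 1) (γ i))
    (Polynomial.coeToPowerSeries.algHom ℝ) (f.truncTotal L)
  simp only [Polynomial.coeToPowerSeries.algHom_apply, Algebra.algebraMap_self, PowerSeries.map_id,
    id] at h7
  rw [sub_sub_sub_cancel_left, ← h7, h1, ← Polynomial.coe_C, ← Polynomial.coe_sub] at h6
  obtain ⟨q, hq⟩ := Polynomial.X_pow_dvd_iff.2 fun m hm =>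
    (Polynomial.coeff_coe _ _).symm.trans (X_pow_dvd_iff.1 h6 m hm)
  exact ⟨_, q, eq_add_of_sub_eq' hq⟩

theorem van {ψ : ℂ → ℂ} {i : ℕ} (h : AnalyticAt ℂ ψ 0) (h' : ψ =O[𝓝 0] fun t => t ^ (i + 1)) :
    iteratedDeriv i ψ 0 = 0 := by
  obtain ⟨C, hC, h1⟩ := h'.exists_pos
  obtain ⟨R, hR, h2⟩ := Metric.eventually_nhds_iff_ball.1 (h1.bound.and h.eventually_analyticAt)
  have h3 : Tendsto (fun t : ℝ => C * t) (𝓝[>] 0) (𝓝 0) := by
    have : Continuous fun t : ℝ => C * t := by fun_prop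
    simpa using (this.tendsto 0).mono_left nhdsWithin_le_nhds
  have h4 : ‖(i.factorial : ℂ)⁻¹ * iteratedDeriv i ψ 0‖ ≤ 0 := by
    refine ge_of_tendsto h3 (mem_of_superset (Ioo_mem_nhdsGT hR) fun t ht => ?_)
    have h5 := cauchy_one ht.1 (B := C * t ^ (i + 1)) (fun z hz => (h2 z
      (ball_subset_ball ht.2.le hz)).2.differentiableAt.differentiableWithinAt) (fun z hz =>
        (h2 z (ball_subset_ball ht.2.le hz)).1.trans (by
          rw [norm_pow]
          gcongr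
          exact (mem_ball_zero_iff.1 hz).le)) i
    refine le_of_mul_le_mul_right (h5.trans (le_of_eq ?_)) (pow_pos ht.1 i)
    ring
  simpa [Nat.factorial_ne_zero] using norm_le_zero_iff.1 h4

variable {c : (σ →₀ ℕ) → ℂ} {g : (σ → ℂ) → ℂ}

theorem IsSer.analyticAt (h : IsSer c g) : AnalyticAt ℂ g 0 := by
  obtain ⟨ρ, B, h1, h2, h3⟩ := h
  refine (P268.analyticAt_of_differentiableOn (isOpen_PD _) (h2.differentiableOn h1)
    fun i => by simpa using h1 i).congr ?_
  exact mem_of_superset ((isOpen_PD ρ).mem_nhds fun i => by simpa using h1 i) h3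

theorem IsSer.isBigO (h : IsSer c g) (L : ℕ) : (fun x => g x - MvPolynomial.eval x
    (MvPowerSeries.truncTotal L (R := ℂ) c)) =O[𝓝 0] fun x => ‖x‖ ^ L := by
  obtain ⟨ρ, B, h1, h2, h3⟩ := h
  obtain ⟨τ, h4, h5⟩ := exists_le_pos h1
  refine .of_bound (B * (2 / τ) ^ L * 2 ^ Fintype.card σ) ?_
  filter_upwards [ball_mem_nhds (0 : σ → ℂ) (half_pos h4)] with x hx
  rw [mem_ball_zero_iff] at hx
  rw [← h3 x fun i => by linarith [norm_le_pi_norm x i, h5 i]]
  refine (h2.asym h1 (t := 2 / τ * ‖x‖) (by positivity) ?_ (fun i => ?_) L).trans (le_of_eq ?_)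
  · rw [div_mul_eq_mul_div, div_le_one h4]
    linarith
  · calc ‖x i‖ ≤ 2 / τ * ‖x‖ * (τ / 2) := (norm_le_pi_norm x i).trans (le_of_eq (by field_simp))
      _ ≤ _ := by gcongr; exact h5 i
  · rw [mul_pow, norm_pow, norm_norm]
    ring

/-- the coefficients of a real arc -/
noncomputable def carc (γ : σ → ℝ⟦X⟧) (k : ℕ) : σ → ℂ := rp fun i => coeff k (γ i)

omit [Fintype σ] in
theorem arc_carc [Fintype σ] (γ : σ → ℝ⟦X⟧) (n : ℕ) (t : ℂ) :
    arc (carc γ) n t = fun i => Polynomial.aeval t (trunc (n + 1) (γ i)) := by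
  funext i
  rw [Polynomial.aeval_def, eval₂_trunc_eq_sum_range, arc, Finset.sum_apply]
  exact sum_congr rfl fun k _ => mul_comm _ _

theorem iter_eq {γ : σ → ℝ⟦X⟧} (hγ : Z0 γ) {f : MvPowerSeries σ ℝ}
    (h : ∀ i, ev γ (MvPowerSeries.pderiv ℝ i f) = 0) {n i : ℕ} (h1 : 1 ≤ i) (h2 : i ≤ 2 * n + 1)
    (hg : IsSer c g) : iteratedDeriv i (fun t => g (arc (carc γ) n t)) 0 =
      ∑ d ∈ (Finsupp.finite_of_degree_lt (i + 1)).toFinset,
        (c d - (MvPowerSeries.coeff d f : ℝ)) *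
          iteratedDeriv i (fun t => mon d (arc (carc γ) n t)) 0 := by
  obtain ⟨c₀, q, hq⟩ := poly_arc hγ h (n := n) (L := i + 1) (by omega)
  have h3 : AnalyticAt ℂ (arc (carc γ) n) 0 := by
    unfold arc
    fun_prop
  have h4 : arc (carc γ) n 0 = 0 := by
    funext j
    have := hγ j
    rw [← coeff_zero_eq_constantCoeff_apply] at this
    simp [arc_carc, ← Polynomial.coeff_zero_eq_aeval_zero', coeff_trunc, this]
  have h5 : ∀ d, AnalyticAt ℂ (fun t => mon d (arc (carc γ) n t)) 0 := fun d =>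
    Finset.analyticAt_fun_prod _ fun j _ => (analyticAt_pi_iff.1 h3 j).pow _
  have h6 : AnalyticAt ℂ (fun t => g (arc (carc γ) n t)) 0 := hg.analyticAt.comp_of_eq h3 h4
  have h7 : (fun t => ‖arc (carc γ) n t‖ ^ (i + 1)) =O[𝓝 0] fun t : ℂ => t ^ (i + 1) := by
    simpa [h4] using (h3.differentiableAt.isBigO_sub.norm_left.pow (i + 1))
  have h8 := ((hg.isBigO (i + 1)).comp_tendsto (h4 ▸ h3.continuousAt.tendsto)).trans h7
  have h9 : (fun t : ℂ => t ^ (i + 1) * Polynomial.aeval t q) =O[𝓝 0] fun t : ℂ => t ^ (i + 1) := by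
    simpa using (isBigO_refl (fun t : ℂ => t ^ (i + 1)) (𝓝 0)).mul
      ((q.continuous_aeval.tendsto (0 : ℂ)).isBigO_one ℂ)
  have h10 : ∀ t : ℂ, ∑ d ∈ (Finsupp.finite_of_degree_lt (i + 1)).toFinset,
      ((MvPowerSeries.coeff d f : ℝ) : ℂ) * mon d (arc (carc γ) n t) =
      c₀ + t ^ (i + 1) * Polynomial.aeval t q := by
    intro t
    have k1 := MvPolynomial.comp_aeval_apply (fun i => trunc (n + 1) (γ i))
      (Polynomial.aeval t) (f.truncTotal (i + 1))
    rw [hq, ← arc_carc, MvPolynomial.aeval_def, MvPolynomial.eval₂_eq_eval_map] at k1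
    have k2 := Cv.eval_trunc (MvPowerSeries.map (algebraMap ℝ ℂ) f) (i + 1) (arc (carc γ) n t)
    have k3 := congrArg (MvPolynomial.eval (arc (carc γ) n t)) (MvPowerSeries.truncFinset_map
      (s := (Finsupp.finite_of_degree_lt (i + 1)).toFinset) (algebraMap ℝ ℂ) f)
    refine (k2.symm.trans (k3.trans k1.symm)).trans ?_
    simp
  have h11 : ∀ d, AnalyticAt ℂ (fun t => (c d - (MvPowerSeries.coeff d f : ℝ)) *
      mon d (arc (carc γ) n t)) 0 := fun d => analyticAt_const.mul (h5 d)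
  have h12 := Finset.analyticAt_fun_sum (Finsupp.finite_of_degree_lt (i + 1)).toFinset
    fun d _ => h11 d
  have h13 := van (i := i) ((h6.fun_sub h12).fun_sub (analyticAt_const (v := (c₀ : ℂ))))
    ((h8.add h9).congr_left fun t => by
      have k1 := Cv.eval_trunc (c : MvPowerSeries σ ℂ) (i + 1) (arc (carc γ) n t)
      simp only [sub_mul, sum_sub_distrib, h10, Function.comp_apply, k1]
      change _ - ∑ d ∈ _, c d * mon d _ + _ = _
      ring)
  rw [iteratedDeriv_fun_sub (h6.fun_sub h12).contDiffAt contDiffAt_const,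
    iteratedDeriv_fun_sub h6.contDiffAt h12.contDiffAt, iteratedDeriv_const, if_neg (by omega),
    sub_zero, sub_eq_zero, iteratedDeriv_fun_sum fun d _ => (h11 d).contDiffAt] at h13
  simp only [h13, iteratedDeriv_const_mul_field]

end

variable {α ι : Type} [Fintype α] [Fintype ι] {f : (ι → ℝ) → (α ⊕ ι → ℂ) → ℂ} {r : ℝ}

theorem WF.stat (h : WF f r) (hr : 0 < r) {F : MvPowerSeries (α ⊕ ι) ℝ}
    (hF : ∀ d, ((MvPowerSeries.coeff d F : ℝ) : ℂ) = jc f d) {γ : α ⊕ ι → ℝ⟦X⟧} (hγ : Z0 γ)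
    (H : ∀ i, ev γ (MvPowerSeries.pderiv ℝ i F) = 0) : Stat f (carc γ) := by
  intro n i h1 h2 ε hε
  set T := (Finsupp.finite_of_degree_lt (σ := α ⊕ ι) (i + 1)).toFinset
  set b := ∑ d ∈ T, ‖iteratedDeriv i (fun t => mon d (arc (carc γ) n t)) 0‖ with hb
  have h3 : 0 ≤ b := sum_nonneg fun _ _ => norm_nonneg _
  filter_upwards [(eventually_all_finset T).2 fun d _ => h.conv hr d (ε := ε / (b + 1))
    (by positivity), h.bd hr one_lt_two] with Z k1 k2 W hW
  rw [iter_eq hγ H h1 h2 (k2 W hW).1]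
  refine (norm_sum_le_of_le _ (n := fun d => ε / (b + 1) *
    ‖iteratedDeriv i (fun t => mon d (arc (carc γ) n t)) 0‖) fun d hd => ?_).trans ?_
  · rw [norm_mul, hF]
    exact mul_le_mul_of_nonneg_right (k1 d hd W hW) (norm_nonneg _)
  · rw [← mul_sum, ← hb, div_mul_eq_mul_div, div_le_iff₀ (by positivity)]
    linarith

theorem GArc.arc {m : ℕ} {γ : α ⊕ ι → ℝ⟦X⟧} (h : GArc 2 m γ) : Arc (cpr α ι) m (carc γ) where
  pos := h.pos
  zero := funext fun i => by simp [carc, rp, h.zero i]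
  real _ _ := Complex.ofReal_im _
  low j i hi := Complex.ofReal_eq_zero.2 (h.low j i hi)
  le_one j := (Complex.norm_real _).trans_le (h.le_one j)
  one := h.one.imp fun _ hj => (Complex.norm_real _).trans hj
  gev := by
    obtain ⟨C, hC⟩ := h.gev (5 / 2) (by norm_num)
    obtain ⟨j, -⟩ := h.one
    refine ⟨C, fun k => ?_⟩
    obtain ⟨i, -, hi⟩ := exists_max_image univ (fun i => |coeff k (γ i)|) ⟨Sum.inr j, mem_univ _⟩
    exact (pow_le_pow_left₀ (norm_nonneg _) ((pi_norm_le_iff_of_nonneg (abs_nonneg _)).2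
      fun l => (Complex.norm_real _).trans_le (hi l (mem_univ _))) _).trans (hC i k)

theorem hh_jet (hS : SADDLE (α ⊕ ι → ℂ) ι) (hA : ARC α ι) {κ : ι → ℝ} (h : WF f r) (hr : 0 < r)
    (hf : RealF f)
    (H : ∀ δ : ℝ, 0 < δ → ∀ ν₁ : ℝ, ∃ ν, ν₁ ≤ ν ∧ ∃ F : Fam (cpr α ι) κ ν δ, Near f F.f) :
    HH (jet f) := by
  by_contra hc
  obtain ⟨m, γ, h1, h2⟩ := hA 2 _ zero_le_two (h.gev hr) hc
  obtain ⟨δ, hδ, ν₀, h3⟩ := hS _ κ m _ h1.arc
  obtain ⟨ν, h4, F, h5⟩ := H δ hδ ν₀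
  exact h3 ν h4 F ((wf_fam F).stat F.r_pos
    (fun d => h.near hr (wf_fam F) F.r_pos h5 ▸ h.jet_eq hr hf d) h1.zero h2)

end Vale.Agent.P218G
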