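import Vale.Agent.P218G.Leaf

/-!
# P218, Gevrey arcs: truncated weighted seminorms on power series in one variable
-/

namespace Vale.Agent.P218G

open PowerSeries Filter Finset

/-- admissible sequences of weight ratios -/
structure IsW (η : ℕ → ℝ) : Prop where
  pos : ∀ j, 0 < η j
  mono : Monotone η
  top : Tendsto η atTop atTop

/-- the weights -/
noncomputable def W (η : ℕ → ℝ) (b k : ℕ) : ℝ := ∏ i ∈ range k, η (b + i)

/-- the truncated seminorms -/
noncomputable def N (η : ℕ → ℝ) (b n : ℕ) (u : ℝ⟦X⟧) : ℝ :=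
  ∑ k ∈ range n, |coeff k u| / W η b k

variable {η : ℕ → ℝ} {b n : ℕ} {u v : ℝ⟦X⟧}

theorem W_zero : W η b 0 = 1 := by simp [W]

theorem W_add (p k : ℕ) : W η b (p + k) = W η b p * W η (b + p) k := by
  simp only [W, prod_range_add, add_assoc]

theorem IsW.W_pos (h : IsW η) (b k : ℕ) : 0 < W η b k := prod_pos fun _ _ => h.pos _

theorem IsW.W_mono (h : IsW η) {b b' : ℕ} (hb : b ≤ b') (k : ℕ) : W η b k ≤ W η b' k :=
  prod_le_prod (fun _ _ => (h.pos _).le) fun _ _ => h.mono (by omega)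

theorem IsW.W_mul (h : IsW η) (b k l : ℕ) : W η b k * W η b l ≤ W η b (k + l) := by
  rw [W_add]
  exact mul_le_mul_of_nonneg_left (h.W_mono (by omega) l) (h.W_pos _ _).le

theorem IsW.N_nonneg (h : IsW η) (b n : ℕ) (u : ℝ⟦X⟧) : 0 ≤ N η b n u :=
  sum_nonneg fun _ _ => div_nonneg (abs_nonneg _) (h.W_pos _ _).le

theorem N_zero : N η b n 0 = 0 := by simp [N]

theorem N_neg : N η b n (-u) = N η b n u := by simp [N]

theorem IsW.N_add (h : IsW η) : N η b n (u + v) ≤ N η b n u + N η b n v := by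
  rw [N, N, N, ← sum_add_distrib]
  refine sum_le_sum fun k _ => ?_
  rw [← add_div, map_add]
  exact div_le_div_of_nonneg_right (abs_add_le _ _) (h.W_pos _ _).le

theorem IsW.N_sub (h : IsW η) : N η b n (u - v) ≤ N η b n u + N η b n v := by
  rw [sub_eq_add_neg, ← N_neg (u := v)]
  exact h.N_add

theorem IsW.N_sum (h : IsW η) {ι : Type} (s : Finset ι) (f : ι → ℝ⟦X⟧) :
    N η b n (∑ i ∈ s, f i) ≤ ∑ i ∈ s, N η b n (f i) := by
  classical
  induction s using Finset.induction_on with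
  | empty => simp [N_zero]
  | insert a s ha ih =>
    rw [sum_insert ha, sum_insert ha]
    exact h.N_add.trans (by linarith)

theorem N_C_mul (c : ℝ) : N η b n (C c * u) = |c| * N η b n u := by
  simp only [N, coeff_C_mul, abs_mul, mul_sum, mul_div_assoc]

theorem IsW.N_mul (h : IsW η) : N η b n (u * v) ≤ N η b n u * N η b n v := by
  let g : ℕ × ℕ → ℝ := fun p => |coeff p.1 u| / W η b p.1 * (|coeff p.2 v| / W η b p.2)
  have hg : ∀ p, 0 ≤ g p := fun p => mul_nonneg (div_nonneg (abs_nonneg _) (h.W_pos _ _).le)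
    (div_nonneg (abs_nonneg _) (h.W_pos _ _).le)
  calc N η b n (u * v) ≤ ∑ k ∈ range n, ∑ p ∈ antidiagonal k, g p := by
        refine sum_le_sum fun k _ => ?_
        rw [coeff_mul]
        refine (div_le_div_of_nonneg_right (abs_sum_le_sum_abs _ _) (h.W_pos _ _).le).trans ?_
        rw [sum_div]
        refine sum_le_sum fun p hp => ?_
        simp only [g]
        rw [abs_mul, div_mul_div_comm, ← mem_antidiagonal.1 hp]
        exact div_le_div_of_nonneg_left (by positivity) (mul_pos (h.W_pos _ _) (h.W_pos _ _))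
          (h.W_mul _ _ _)
    _ = ∑ p ∈ (range n).biUnion antidiagonal, g p := by
        rw [sum_biUnion]
        intro i _ j _ hij
        rw [Function.onFun, disjoint_left]
        intro p h1 h2
        exact hij ((mem_antidiagonal.1 h1).symm.trans (mem_antidiagonal.1 h2))
    _ ≤ ∑ p ∈ range n ×ˢ range n, g p := by
        refine sum_le_sum_of_subset_of_nonneg (fun p hp => ?_) fun p _ _ => hg p
        obtain ⟨k, hk, hp⟩ := mem_biUnion.1 hp
        have h1 := mem_antidiagonal.1 hp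
        have h2 := mem_range.1 hk
        exact mem_product.2 ⟨mem_range.2 (by omega), mem_range.2 (by omega)⟩
    _ = N η b n u * N η b n v := by
        rw [N, N, sum_mul_sum, sum_product]

theorem IsW.N_mul_le (h : IsW η) {x y : ℝ} (hu : N η b n u ≤ x) (hv : N η b n v ≤ y) :
    N η b n (u * v) ≤ x * y :=
  h.N_mul.trans (mul_le_mul hu hv (h.N_nonneg _ _ _) ((h.N_nonneg _ _ _).trans hu))

theorem N_congr (huv : X ^ n ∣ u - v) : N η b n u = N η b n v := by
  refine sum_congr rfl fun k hk => ?_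
  have := X_pow_dvd_iff.1 huv k (mem_range.1 hk)
  rw [map_sub, sub_eq_zero] at this
  rw [this]

theorem IsW.N_mono (h : IsW η) {n' : ℕ} (hn : n ≤ n') : N η b n u ≤ N η b n' u :=
  sum_le_sum_of_subset_of_nonneg (range_mono hn)
    fun _ _ _ => div_nonneg (abs_nonneg _) (h.W_pos _ _).le

theorem IsW.N_anti (h : IsW η) {b' : ℕ} (hb : b ≤ b') : N η b' n u ≤ N η b n u :=
  sum_le_sum fun k _ => div_le_div_of_nonneg_left (abs_nonneg _) (h.W_pos _ _) (h.W_mono hb k)

theorem N_X_pow_mul (p : ℕ) : N η b (p + n) (X ^ p * u) = N η (b + p) n u / W η b p := by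
  rw [N, sum_range_add, sum_eq_zero, zero_add, N, sum_div]
  · refine sum_congr rfl fun k _ => ?_
    rw [W_add, add_comm p k, coeff_X_pow_mul, div_div, mul_comm]
  · intro k hk
    rw [coeff_X_pow_mul', if_neg (by simpa using hk), abs_zero, zero_div]

theorem IsW.N_X_pow_mul_le (h : IsW η) (p : ℕ) : N η b n (X ^ p * u) ≤ N η b n u / W η b p := by
  refine (h.N_mono (Nat.le_add_left n p)).trans ?_
  rw [N_X_pow_mul]
  exact div_le_div_of_nonneg_right (h.N_anti (by omega)) (h.W_pos _ _).le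

theorem IsW.N_X_mul (h : IsW η) : N η b (n + 1) (X * u) ≤ N η b n u / η b := by
  have h1 := N_X_pow_mul (η := η) (b := b) (n := n) (u := u) 1
  rw [pow_one, add_comm 1 n] at h1
  have h2 : W η b 1 = η b := by simp [W]
  rw [h1, h2]
  exact div_le_div_of_nonneg_right (h.N_anti (by omega)) (h.pos _).le

theorem N_C (c : ℝ) : N η b n (C c) ≤ |c| := by
  cases n with
  | zero => simp [N]
  | succ n => simp [N, sum_range_succ', coeff_succ_C, W_zero]

theorem N_one : N η b n 1 ≤ 1 := by simpa using N_C (η := η) (b := b) (n := n) 1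

theorem IsW.coeff_le (h : IsW η) (k : ℕ) : |coeff k u| ≤ N η b (k + 1) u * W η b k := by
  rw [← div_le_iff₀ (h.W_pos _ _)]
  exact single_le_sum (f := fun k => |coeff k u| / W η b k)
    (fun _ _ => div_nonneg (abs_nonneg _) (h.W_pos _ _).le) (mem_range.2 (Nat.lt_succ_self k))

/-- series with bounded seminorms -/
def G (η : ℕ → ℝ) (u : ℝ⟦X⟧) : Prop := ∃ M : ℝ, ∀ᶠ b in atTop, ∀ n, N η b n u ≤ M

theorem IsW.G_of (h : IsW η) {M : ℝ} (hu : ∀ n, N η b n u ≤ M) : G η u :=
  ⟨M, (eventually_ge_atTop b).mono fun _ hb n => (h.N_anti hb).trans (hu n)⟩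

theorem G_C (c : ℝ) : G η (C c) := ⟨|c|, Eventually.of_forall fun _ _ => N_C c⟩

theorem IsW.G_add (h : IsW η) (hu : G η u) (hv : G η v) : G η (u + v) := by
  obtain ⟨M, hM⟩ := hu
  obtain ⟨M', hM'⟩ := hv
  refine ⟨M + M', ?_⟩
  filter_upwards [hM, hM'] with b h1 h2 n
  exact h.N_add.trans (add_le_add (h1 n) (h2 n))

theorem G_neg (hu : G η u) : G η (-u) := by simpa only [G, N_neg] using hu

theorem IsW.G_mul (h : IsW η) (hu : G η u) (hv : G η v) : G η (u * v) := by
  obtain ⟨M, hM⟩ := hu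
  obtain ⟨M', hM'⟩ := hv
  refine ⟨M * M', ?_⟩
  filter_upwards [hM, hM'] with b h1 h2 n
  exact h.N_mul_le (h1 n) (h2 n)

theorem IsW.G_sum (h : IsW η) {ι : Type} (s : Finset ι) {f : ι → ℝ⟦X⟧} (hf : ∀ i ∈ s, G η (f i)) :
    G η (∑ i ∈ s, f i) :=
  sum_induction f (G η) (fun _ _ => h.G_add) (by simpa using G_C (η := η) 0) hf

theorem IsW.G_X_pow (h : IsW η) (p : ℕ) : G η (X ^ p) := by
  refine h.G_of (b := 0) (M := 1 / W η 0 p) fun n => ?_
  have := h.N_X_pow_mul_le (b := 0) (n := n) (u := 1) p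
  rw [mul_one] at this
  exact this.trans (div_le_div_of_nonneg_right N_one (h.W_pos _ _).le)

theorem IsW.G_coe (h : IsW η) (q : Polynomial ℝ) : G η (q : ℝ⟦X⟧) := by
  induction q using Polynomial.induction_on' with
  | add p q hp hq =>
    rw [Polynomial.coe_add]
    exact h.G_add hp hq
  | monomial k c =>
    rw [Polynomial.coe_monomial, monomial_eq_C_mul_X_pow]
    exact h.G_mul (G_C c) (h.G_X_pow k)

theorem IsW.G_shift (h : IsW η) {p : ℕ} (hu : G η (X ^ p * u)) : G η u := by
  obtain ⟨M, hM⟩ := hu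
  obtain ⟨b, hb⟩ := hM.exists
  refine h.G_of (b := b + p) (M := M * W η b p) fun n => ?_
  have := hb (p + n)
  rwa [N_X_pow_mul, div_le_iff₀ (h.W_pos _ _)] at this

theorem IsW.small (h : IsW η) (hu : G η u) (h0 : constantCoeff u = 0) {ε : ℝ} (hε : 0 < ε) :
    ∀ᶠ b in atTop, ∀ n, N η b n u ≤ ε := by
  obtain ⟨w, rfl⟩ := X_dvd_iff.2 h0
  obtain ⟨M, hM⟩ := h.G_shift (p := 1) (u := w) (by rwa [pow_one])
  filter_upwards [hM, h.top.eventually_ge_atTop (M / ε)] with b h1 h2 n
  refine (h.N_mono (Nat.le_succ n)).trans (h.N_X_mul.trans ?_)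
  rw [div_le_iff₀ (h.pos _)]
  rw [div_le_iff₀ hε] at h2
  linarith [h1 n]

theorem IsW.near (h : IsW η) (hu : G η u) {ε : ℝ} (hε : 0 < ε) :
    ∀ᶠ b in atTop, ∀ n, N η b n u ≤ |constantCoeff u| + ε := by
  have h1 := h.small (h.G_add hu (G_neg (G_C (constantCoeff u)))) (by simp) hε
  filter_upwards [h1] with b hb n
  have h2 : u = C (constantCoeff u) + (u + -C (constantCoeff u)) := by ring
  conv_lhs => rw [h2]
  exact h.N_add.trans (add_le_add (N_C _) (hb n))

theorem IsW.G_inv (h : IsW η) (hu : G η u) (huv : u * v = 1) : G η v := by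
  have hc : constantCoeff u * constantCoeff v = 1 := by rw [← map_mul, huv, map_one]
  obtain ⟨w, hw⟩ : X ∣ 1 - C (constantCoeff v) * u := by
    rw [X_dvd_iff]
    simp [mul_comm, hc]
  have h1 : G η w := h.G_shift (p := 1) (by
    rw [pow_one, ← hw, sub_eq_add_neg]
    exact h.G_add (by simpa using G_C (η := η) 1) (G_neg (h.G_mul (G_C _) hu)))
  obtain ⟨M, hM⟩ := h1
  obtain ⟨b, h2, h3⟩ := (hM.and (h.top.eventually_ge_atTop (2 * M))).exists
  have h4 : v = C (constantCoeff v) + X * (w * v) := by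
    linear_combination v * hw + C (constantCoeff v) * huv
  refine h.G_of (b := b) (M := 2 * |constantCoeff v|) fun n => ?_
  induction n with
  | zero => simp [N]
  | succ n ih =>
    conv_lhs => rw [h4]
    refine h.N_add.trans ?_
    have h5 : N η b (n + 1) (X * (w * v)) ≤ |constantCoeff v| := by
      refine h.N_X_mul.trans ?_
      rw [div_le_iff₀ (h.pos _)]
      have h6 := h.N_mul_le (h2 n) ih
      nlinarith [abs_nonneg (constantCoeff v)]
    linarith [N_C (η := η) (b := b) (n := n + 1) (constantCoeff v)]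

end Vale.Agent.P218G
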